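import Vale.Agent.P054.Y.GF.LabA
import Vale.Agent.P054.Y.G.Conic

/-! Leaf GF-Cones (helper686).  Two different rich forms share at most 4 directions (`G.conic_five`: five
pairwise non parallel common zeros give `Q' = c Q`, `det` gives `c = 1`), so at most `4 K` elements of `X`.  Any
finite family of rich forms has at most `2 n / h` members (`G.packing`), so the rich forms are a
finite set with at most `2 n / h` elements and the `x` with two of them are at most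
`(2 n / h)^2 * 4 K`. -/

set_option linter.all false

namespace Vale.Agent.P054.Y.GF

open Finset Matrix

theorem co_cr_ne {x y : V} (h : cr x y ≠ 0) : crossProduct x y ≠ 0 := by
  rw [cross_apply]
  exact h

open scoped Classical in
theorem co_step {X : Finset V} {K : ℝ} (hX0 : ∀ x ∈ X, x ≠ 0)
    (hline : ∀ u : V, u ≠ 0 → ∀ F ⊆ X, (∀ x ∈ F, cr u x = 0) → (F.card : ℝ) ≤ K)
    {F : Finset V} (hF : F ⊆ X) {c : ℝ} (hc : 0 ≤ c) (h : c < (F.card : ℝ)) :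
    ∃ x ∈ F, ∃ F' ⊆ F, (∀ y ∈ F', cr x y ≠ 0) ∧ c - K < (F'.card : ℝ) := by
  have h0 : 0 < F.card := by
    have : (0 : ℝ) < F.card := lt_of_le_of_lt hc h
    exact_mod_cast this
  obtain ⟨x, hx⟩ := Finset.card_pos.1 h0
  refine ⟨x, hx, F.filter (fun y => ¬ cr x y = 0), Finset.filter_subset _ _,
    fun y hy => (Finset.mem_filter.1 hy).2, ?_⟩
  have h1 := hline x (hX0 x (hF hx)) (F.filter (fun y => cr x y = 0))
    ((Finset.filter_subset _ _).trans hF) (fun y hy => (Finset.mem_filter.1 hy).2)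
  have h2 : (F.filter (fun y => cr x y = 0)).card + (F.filter (fun y => ¬ cr x y = 0)).card =
      F.card := Finset.card_filter_add_card_filter_not _
  have h3 : ((F.filter (fun y => cr x y = 0)).card : ℝ) +
      ((F.filter (fun y => ¬ cr x y = 0)).card : ℝ) = F.card := by exact_mod_cast h2
  linarith

open scoped Classical in
/-- two different rich forms share at most `4 K` elements -/
theorem co_inter {X : Finset V} {K h : ℝ} (hX0 : ∀ x ∈ X, x ≠ 0) (hK : 1 ≤ K)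
    (hline : ∀ u : V, u ≠ 0 → ∀ F ⊆ X, (∀ x ∈ F, cr u x = 0) → (F.card : ℝ) ≤ K)
    {Q Q' : M3} (hQ : RichF X h Q) (hQ' : RichF X h Q') (hne : Q ≠ Q') :
    (((X.filter (fun x => x ⬝ᵥ (Q *ᵥ x) = 0)) ∩
      (X.filter (fun x => x ⬝ᵥ (Q' *ᵥ x) = 0))).card : ℝ) ≤ 4 * K := by
  by_contra hcon
  have hcon := not_le.1 hcon
  have hs0 : (X.filter (fun x => x ⬝ᵥ (Q *ᵥ x) = 0)) ∩ (X.filter (fun x => x ⬝ᵥ (Q' *ᵥ x) = 0)) ⊆ X :=
    Finset.inter_subset_left.trans (Finset.filter_subset _ _)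
  obtain ⟨x1, m1, F1, s1, c1, k1⟩ := co_step hX0 hline hs0 (by linarith) hcon
  obtain ⟨x2, m2, F2, s2, c2, k2⟩ := co_step hX0 hline (s1.trans hs0) (by linarith) k1
  obtain ⟨x3, m3, F3, s3, c3, k3⟩ :=
    co_step hX0 hline (s2.trans (s1.trans hs0)) (by linarith) k2
  obtain ⟨x4, m4, F4, s4, c4, k4⟩ :=
    co_step hX0 hline (s3.trans (s2.trans (s1.trans hs0))) (by linarith) k3
  have h5 : 0 < F4.card := by
    have : (0 : ℝ) < F4.card := by linarith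
    exact_mod_cast this
  obtain ⟨x5, m5⟩ := Finset.card_pos.1 h5
  have z : ∀ x ∈ (X.filter (fun x => x ⬝ᵥ (Q *ᵥ x) = 0)) ∩ (X.filter (fun x => x ⬝ᵥ (Q' *ᵥ x) = 0)),
      x ⬝ᵥ (Q *ᵥ x) = 0 ∧ x ⬝ᵥ (Q' *ᵥ x) = 0 := fun x hx =>
    ⟨(Finset.mem_filter.1 (Finset.mem_inter.1 hx).1).2,
      (Finset.mem_filter.1 (Finset.mem_inter.1 hx).2).2⟩
  have t2 := s1 m2
  have t3 := s1 (s2 m3)
  have t4 := s1 (s2 (s3 m4))
  have t5 := s1 (s2 (s3 (s4 m5)))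
  obtain ⟨c, hc⟩ := G.conic_five hQ.1 hQ'.1 (by rw [hQ.2.1]; exact one_ne_zero)
    (co_cr_ne (c1 x2 m2)) (co_cr_ne (c1 x3 (s2 m3))) (co_cr_ne (c1 x4 (s2 (s3 m4))))
    (co_cr_ne (c1 x5 (s2 (s3 (s4 m5)))))
    (co_cr_ne (c2 x3 m3)) (co_cr_ne (c2 x4 (s3 m4))) (co_cr_ne (c2 x5 (s3 (s4 m5))))
    (co_cr_ne (c3 x4 m4)) (co_cr_ne (c3 x5 (s4 m5))) (co_cr_ne (c4 x5 m5))
    (z x1 m1).1 (z x2 t2).1 (z x3 t3).1 (z x4 t4).1 (z x5 t5).1
    (z x1 m1).2 (z x2 t2).2 (z x3 t3).2 (z x4 t4).2 (z x5 t5).2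
  have hc3 : c ^ 3 = 1 := by
    have := hQ'.2.1
    rw [hc, det_smul, hQ.2.1, mul_one, Fintype.card_fin] at this
    exact this
  have hc1 : c = 1 := by
    have h1 : (c - 1) * (c ^ 2 + c + 1) = 0 := by linear_combination hc3
    rcases mul_eq_zero.1 h1 with h2 | h2
    · linarith
    · nlinarith [sq_nonneg (c + 1 / 2)]
  apply hne
  rw [hc, hc1, one_smul]

open scoped Classical in
theorem not_uni_le {X : Finset V} {n K h : ℝ} (hX0 : ∀ x ∈ X, x ≠ 0) (hn : (X.card : ℝ) ≤ n)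
    (hK : 1 ≤ K) (hh0 : 0 < h) (hline : ∀ u : V, u ≠ 0 → ∀ F ⊆ X, (∀ x ∈ F, cr u x = 0) → (F.card : ℝ) ≤ K)
    (hh : 32 * K * n ≤ h ^ 2) :
    ((X.filter (fun x => ¬ Uni X h x)).card : ℝ) ≤ 64 * K * n ^ 2 / h ^ 2 := by
  have hX : (0 : ℝ) ≤ (X.card : ℝ) := Nat.cast_nonneg _
  have hn0 : 0 ≤ n := hX.trans hn
  have hpack : ∀ I : Finset M3, (∀ Q ∈ I, RichF X h Q) → (I.card : ℝ) * h ≤ 2 * X.card := by
    intro I hI
    refine G.packing X I (fun Q => X.filter (fun x => x ⬝ᵥ (Q *ᵥ x) = 0))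
      (fun Q _ => Finset.filter_subset _ _) (r := 4 * K) (by linarith) hh0
      (fun Q hQ => (hI Q hQ).2.2)
      (fun Q hQ Q' hQ' hne => co_inter hX0 hK hline (hI Q hQ) (hI Q' hQ') hne) ?_
    have h1 : K * X.card ≤ K * n := mul_le_mul_of_nonneg_left hn (by linarith)
    have h2 : 0 ≤ K * n := mul_nonneg (by linarith) hn0
    linarith
  have hfin : {Q : M3 | RichF X h Q}.Finite := by
    by_contra hinf
    have hinf' : {Q : M3 | RichF X h Q}.Infinite := hinf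
    obtain ⟨I, hI, hcard⟩ := hinf'.exists_subset_card_eq (⌊2 * (X.card : ℝ) / h⌋₊ + 1)
    have h1 := hpack I (fun Q hQ => hI hQ)
    rw [hcard] at h1
    have h2 := Nat.lt_floor_add_one (2 * (X.card : ℝ) / h)
    rw [div_lt_iff₀ hh0] at h2
    push_cast at h1
    linarith
  set I := hfin.toFinset with hI
  have hIr : ∀ Q ∈ I, RichF X h Q := fun Q hQ => hfin.mem_toFinset.1 hQ
  have hsub : X.filter (fun x => ¬ Uni X h x) ⊆ ((I ×ˢ I).filter (fun q => q.1 ≠ q.2)).biUnion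
      (fun q => (X.filter (fun x => x ⬝ᵥ (q.1 *ᵥ x) = 0)) ∩
        (X.filter (fun x => x ⬝ᵥ (q.2 *ᵥ x) = 0))) := by
    intro x hx
    obtain ⟨hxX, hu⟩ := Finset.mem_filter.1 hx
    unfold Uni at hu
    push Not at hu
    obtain ⟨Q, Q', hQ, hQ', e, e', hne⟩ := hu
    exact Finset.mem_biUnion.2 ⟨(Q, Q'), Finset.mem_filter.2
      ⟨Finset.mem_product.2 ⟨hfin.mem_toFinset.2 hQ, hfin.mem_toFinset.2 hQ'⟩, hne⟩,
      Finset.mem_inter.2 ⟨Finset.mem_filter.2 ⟨hxX, e⟩, Finset.mem_filter.2 ⟨hxX, e'⟩⟩⟩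
  have hcard : ((X.filter (fun x => ¬ Uni X h x)).card : ℝ) ≤
      ∑ q ∈ (I ×ˢ I).filter (fun q => q.1 ≠ q.2),
        (((X.filter (fun x => x ⬝ᵥ (q.1 *ᵥ x) = 0)) ∩
        (X.filter (fun x => x ⬝ᵥ (q.2 *ᵥ x) = 0))).card : ℝ) := by
    have := (Finset.card_le_card hsub).trans Finset.card_biUnion_le
    exact_mod_cast this
  have hsum : ∑ q ∈ (I ×ˢ I).filter (fun q => q.1 ≠ q.2),
        (((X.filter (fun x => x ⬝ᵥ (q.1 *ᵥ x) = 0)) ∩
        (X.filter (fun x => x ⬝ᵥ (q.2 *ᵥ x) = 0))).card : ℝ) ≤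
      ∑ q ∈ (I ×ˢ I).filter (fun q => q.1 ≠ q.2), 4 * K := by
    refine Finset.sum_le_sum (fun q hq => ?_)
    obtain ⟨hq1, hq2⟩ := Finset.mem_filter.1 hq
    obtain ⟨hq3, hq4⟩ := Finset.mem_product.1 hq1
    exact co_inter hX0 hK hline (hIr _ hq3) (hIr _ hq4) hq2
  rw [Finset.sum_const, nsmul_eq_mul] at hsum
  have h1 : (((I ×ˢ I).filter (fun q => q.1 ≠ q.2)).card : ℝ) ≤ (I.card : ℝ) ^ 2 := by
    have : ((I ×ˢ I).filter (fun q => q.1 ≠ q.2)).card ≤ (I ×ˢ I).card :=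
      Finset.card_filter_le _ _
    rw [Finset.card_product] at this
    calc (((I ×ˢ I).filter (fun q => q.1 ≠ q.2)).card : ℝ) ≤ ((I.card * I.card : ℕ) : ℝ) := by
          exact_mod_cast this
      _ = (I.card : ℝ) ^ 2 := by
          push_cast
          ring
  have h2 := hpack I hIr
  have h3 : (I.card : ℝ) * h ≤ 2 * n := by linarith
  have hI0 : (0 : ℝ) ≤ (I.card : ℝ) := Nat.cast_nonneg _
  have h4 : ((I.card : ℝ) * h) ^ 2 ≤ (2 * n) ^ 2 :=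
    pow_le_pow_left₀ (mul_nonneg hI0 hh0.le) h3 2
  have h5 : (((I ×ˢ I).filter (fun q => q.1 ≠ q.2)).card : ℝ) * (4 * K) ≤
      (I.card : ℝ) ^ 2 * (4 * K) := mul_le_mul_of_nonneg_right h1 (by linarith)
  have h6 : ((X.filter (fun x => ¬ Uni X h x)).card : ℝ) ≤ (I.card : ℝ) ^ 2 * (4 * K) := by
    linarith
  rw [le_div_iff₀ (by positivity)]
  have h7 : ((X.filter (fun x => ¬ Uni X h x)).card : ℝ) * h ^ 2 ≤
      (I.card : ℝ) ^ 2 * (4 * K) * h ^ 2 := mul_le_mul_of_nonneg_right h6 (by positivity)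
  have h8 : (I.card : ℝ) ^ 2 * (4 * K) * h ^ 2 ≤ (2 * n) ^ 2 * (4 * K) := by
    calc (I.card : ℝ) ^ 2 * (4 * K) * h ^ 2 = ((I.card : ℝ) * h) ^ 2 * (4 * K) := by ring
      _ ≤ (2 * n) ^ 2 * (4 * K) := mul_le_mul_of_nonneg_right h4 (by linarith)
  have h9 : 0 ≤ K * n ^ 2 := mul_nonneg (by linarith) (by positivity)
  nlinarith

end Vale.Agent.P054.Y.GF
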