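import Vale.Agent.P054.Y.GF.LamDefs
import Vale.Agent.P054.Y.GF.Cones

/-! Leaf GF-ECount (helper614).  `K = n^e`.  `n^2 - ∑ #Ea ≤ n` (pairs `b = a`) `+ n^(2 - e/2)` (`G.poor_pairs`; its
hypothesis: a line has at most `τ ≤ n^(2/3) ≤ n^(1-e)` points, `Fin.on_le`) `+ n * 64 K n^2 / h^2`
(`not_uni_le`, `h ≥ n^(2/3)`, `32 K n ≤ h^2`) `≤ n^2 / 2` for `n` large. -/

set_option linter.all false

namespace Vale.Agent.P054.Y.GF

open Finset Matrix
open Vale.Agent.P054.Fin (sqd dst)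

theorem ec_cr_trans {u x y : V} (hu : u ≠ 0) (hx : cr u x = 0) (hy : cr u y = 0) : cr x y = 0 := by
  obtain ⟨s, rfl⟩ := G.exists_smul_of_cross hu
    (show crossProduct u x = 0 by rw [cross_apply]; exact hx)
  obtain ⟨t, rfl⟩ := G.exists_smul_of_cross hu
    (show crossProduct u y = 0 by rw [cross_apply]; exact hy)
  ext i
  fin_cases i <;> simp [cr] <;> ring

open scoped Classical in
theorem ec_line (P : Finset V) (K : ℝ) (hK : 0 ≤ K) (a : V) : ∀ u : V, u ≠ 0 →
    ∀ F ⊆ Xa P K a, (∀ x ∈ F, cr u x = 0) → (F.card : ℝ) ≤ K := by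
  intro u hu F hF hcr
  rcases F.eq_empty_or_nonempty with rfl | ⟨x0, hx0⟩
  · simpa using hK
  obtain ⟨b0, hb0, hb0'⟩ := Finset.mem_image.1 (hF hx0)
  have hb := (Finset.mem_filter.1 hb0).2
  refine le_trans ?_ hb.2.le
  unfold G.cntL
  have : F.card ≤ (P.filter (fun p => crossProduct (b0 - a) (p - a) = 0)).card := by
    refine Finset.card_le_card_of_injOn (fun x => x + a) ?_ ?_
    · intro x hx
      obtain ⟨b, hbm, hb'⟩ := Finset.mem_image.1 (hF (Finset.mem_coe.1 hx))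
      have h1 := ec_cr_trans hu (hcr _ hx0) (hcr _ (Finset.mem_coe.1 hx))
      have h2 : x + a = b := by rw [← hb']; simp
      rw [Finset.mem_coe, Finset.mem_filter]
      refine ⟨?_, ?_⟩
      · simp only [h2]
        exact (Finset.mem_filter.1 hbm).1
      · simp only [h2]
        rw [← hb0', ← hb'] at h1
        rw [cross_apply]
        exact h1
    · intro x _ y _ h
      simpa using h
  exact_mod_cast this

open scoped Classical in
/-- a line has at most as many points as there are distances -/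
theorem ec_cntL (P : Finset V) {a b : V} (hab : a ≠ b) : G.cntL P (a, b) ≤ (dst P).card := by
  have h := Vale.Agent.P054.Fin.on_le P a (b - a) (sub_ne_zero.2 (Ne.symm hab))
  refine le_trans (le_of_eq ?_) h
  unfold G.cntL Vale.Agent.P054.R.on
  congr 1
  apply Finset.filter_congr
  intro p _
  unfold Vale.Agent.P054.R.OnL
  simp only
  rw [← neg_cross, neg_eq_zero]

theorem ec_prod (P : Finset V) (p : V × V → Prop) [DecidablePred p] :
    ((P ×ˢ P).filter p).card = ∑ a ∈ P, (P.filter (fun b => p (a, b))).card := by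
  rw [Finset.card_filter, Finset.sum_product]
  refine Finset.sum_congr rfl (fun a _ => ?_)
  rw [Finset.card_filter]

open scoped Classical in
/-- for every `a`: `n ≤ 1 + (rich) + #Ea + (not Uni)` -/
theorem ec_point (P : Finset V) (K h : ℝ) (hK : 1 ≤ K) (hh0 : 0 < h)
    (hh : 32 * K * P.card ≤ h ^ 2) (a : V) :
    (P.card : ℝ) ≤ 1 + (P.filter (fun b => (a, b).1 ≠ (a, b).2 ∧ K ≤ (G.cntL P (a, b) : ℝ))).card +
      (Ea P K h a).card + 64 * K * (P.card : ℝ) ^ 2 / h ^ 2 := by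
  have h0 : P ⊆ {a} ∪ (P.filter (fun b => (a, b).1 ≠ (a, b).2 ∧ K ≤ (G.cntL P (a, b) : ℝ)) ∪
      Pa P K a) := by
    intro b hb
    by_cases h1 : b = a
    · rw [h1]; simp
    · rw [Finset.mem_union, Finset.mem_union]
      right
      by_cases h2 : (G.cntL P (a, b) : ℝ) < K
      · right
        exact Finset.mem_filter.2 ⟨hb, h1, h2⟩
      · left
        exact Finset.mem_filter.2 ⟨hb, Ne.symm h1, not_lt.1 h2⟩
  have h1 : P.card ≤ 1 + ((P.filter (fun b => (a, b).1 ≠ (a, b).2 ∧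
      K ≤ (G.cntL P (a, b) : ℝ))).card + (Pa P K a).card) := by
    refine (Finset.card_le_card h0).trans ((Finset.card_union_le _ _).trans ?_)
    rw [Finset.card_singleton]
    exact Nat.add_le_add_left (Finset.card_union_le _ _) _
  have h2 : (Ea P K h a).card + ((Pa P K a).filter (fun b => ¬ Uni (Xa P K a) h (b - a))).card =
      (Pa P K a).card := Finset.card_filter_add_card_filter_not _
  have hXa : (Xa P K a).card ≤ P.card :=
    Finset.card_image_le.trans (Finset.card_filter_le _ _)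
  have h3 := not_uni_le (X := Xa P K a) (n := P.card) (K := K) (h := h) (by
      intro x hx
      obtain ⟨b, hb, rfl⟩ := Finset.mem_image.1 hx
      exact sub_ne_zero.2 (Finset.mem_filter.1 hb).2.1) (by exact_mod_cast hXa) hK hh0
      (ec_line P K (by linarith) a) hh
  have h4 : ((Pa P K a).filter (fun b => ¬ Uni (Xa P K a) h (b - a))).card ≤
      ((Xa P K a).filter (fun x => ¬ Uni (Xa P K a) h x)).card := by
    refine Finset.card_le_card_of_injOn (fun b => b - a) ?_ ?_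
    · intro b hb
      obtain ⟨hb1, hb2⟩ := Finset.mem_filter.1 (Finset.mem_coe.1 hb)
      exact Finset.mem_coe.2 (Finset.mem_filter.2 ⟨Finset.mem_image_of_mem _ hb1, hb2⟩)
    · intro x _ y _ h
      simpa using h
  have h1' : (P.card : ℝ) ≤ 1 + ((P.filter (fun b => (a, b).1 ≠ (a, b).2 ∧
      K ≤ (G.cntL P (a, b) : ℝ))).card + (Pa P K a).card) := by exact_mod_cast h1
  have h2' : ((Ea P K h a).card : ℝ) +
      ((Pa P K a).filter (fun b => ¬ Uni (Xa P K a) h (b - a))).card = (Pa P K a).card := by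
    exact_mod_cast h2
  have h4' : (((Pa P K a).filter (fun b => ¬ Uni (Xa P K a) h (b - a))).card : ℝ) ≤
      ((Xa P K a).filter (fun x => ¬ Uni (Xa P K a) h x)).card := by exact_mod_cast h4
  linarith

open scoped Classical in
theorem e_count (e : ℝ) (he : 0 < e) (he1 : e ≤ 1 / 10) : ∃ n0 : ℕ, ∀ P : Finset V, n0 ≤ P.card →
    ((dst P).card : ℝ) ≤ (P.card : ℝ) ^ ((2 : ℝ) / 3) →
    ∀ h : ℝ, (P.card : ℝ) ^ ((2 : ℝ) / 3) ≤ h →
    (P.card : ℝ) ^ 2 / 2 ≤ ∑ a ∈ P, ((Ea P ((P.card : ℝ) ^ e) h a).card : ℝ) := by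
  obtain ⟨n1, hn1⟩ := G.poor_pairs e he (by linarith)
  have t1 := (tendsto_rpow_atTop (show 0 < e / 2 by positivity)).eventually_ge_atTop (8 : ℝ)
  have t2 := (tendsto_rpow_atTop (show (0:ℝ) < 7 / 30 by norm_num)).eventually_ge_atTop (512 : ℝ)
  obtain ⟨N, hN⟩ := Filter.eventually_atTop.1 ((t1.and t2).and (Filter.eventually_ge_atTop (16:ℝ)))
  refine ⟨max n1 ⌈N⌉₊, fun P hP hd h hh => ?_⟩
  have hnN : N ≤ (P.card : ℝ) :=
    (Nat.le_ceil N).trans (by exact_mod_cast le_trans (le_max_right _ _) hP)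
  obtain ⟨⟨a1, a2⟩, a3⟩ := hN _ hnN
  have hpoor := hn1 P (le_trans (le_max_left _ _) hP)
  set n : ℝ := (P.card : ℝ) with hn
  have hn0 : 0 < n := by linarith
  have hn1' : 1 ≤ n := by linarith
  set K : ℝ := n ^ e with hKdef
  have hK : 1 ≤ K := Real.one_le_rpow hn1' he.le
  have hpos : 0 < n ^ ((2 : ℝ) / 3) := Real.rpow_pos_of_pos hn0 _
  have hh0 : 0 < h := lt_of_lt_of_le hpos hh
  -- `h^2 ≥ n^(4/3)`
  have hsq : n ^ ((4 : ℝ) / 3) ≤ h ^ 2 := by
    calc n ^ ((4 : ℝ) / 3) = (n ^ ((2 : ℝ) / 3)) ^ 2 := by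
          rw [← Real.rpow_natCast, ← Real.rpow_mul hn0.le]
          norm_num
      _ ≤ h ^ 2 := pow_le_pow_left₀ hpos.le hh 2
  have hKn : 512 * (K * n) ≤ n ^ ((4 : ℝ) / 3) := by
    have e1 : K * n = n ^ (e + 1) := by
      rw [Real.rpow_add hn0, Real.rpow_one]
    have e2 : n ^ (e + 1) ≤ n ^ ((1 : ℝ) / 10 + 1) :=
      Real.rpow_le_rpow_of_exponent_le hn1' (by linarith)
    calc 512 * (K * n) ≤ n ^ ((7 : ℝ) / 30) * n ^ ((1 : ℝ) / 10 + 1) := by
          rw [e1]
          exact mul_le_mul a2 e2 (Real.rpow_nonneg hn0.le _) (Real.rpow_nonneg hn0.le _)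
      _ = n ^ ((4 : ℝ) / 3) := by
          rw [← Real.rpow_add hn0]
          norm_num
  have hKh : 512 * (K * n) ≤ h ^ 2 := hKn.trans hsq
  have hKn0 : 0 < K * n := by positivity
  have hpt := fun a : V => ec_point P K h hK hh0 (by
    have : 32 * K * n = 32 * (K * n) := by ring
    rw [← hn, this]
    linarith) a
  -- the last term
  have hlast : 64 * K * n ^ 2 / h ^ 2 ≤ n / 8 := by
    rw [div_le_iff₀ (by positivity)]
    nlinarith
  -- rich pairs
  have hrich := hpoor (by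
    intro a ha b hb hab
    refine (show (G.cntL P (a, b) : ℝ) ≤ (dst P).card by exact_mod_cast ec_cntL P hab).trans
      (hd.trans (Real.rpow_le_rpow_of_exponent_le hn1' (by linarith))))
  have hrich2 : n ^ (2 - e / 2) ≤ n ^ 2 / 8 := by
    have e1 : n ^ (2 - e / 2) * n ^ (e / 2) = n ^ 2 := by
      rw [← Real.rpow_add hn0, ← Real.rpow_natCast]
      congr 1
      push_cast
      ring
    have e2 : 0 < n ^ (2 - e / 2) := Real.rpow_pos_of_pos hn0 _
    nlinarith
  have hsum : ∑ a ∈ P, (P.card : ℝ) ≤ ∑ a ∈ P, (1 +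
      ((P.filter (fun b => (a, b).1 ≠ (a, b).2 ∧ K ≤ (G.cntL P (a, b) : ℝ))).card : ℝ) +
      ((Ea P K h a).card : ℝ) + 64 * K * (P.card : ℝ) ^ 2 / h ^ 2) :=
    Finset.sum_le_sum (fun a _ => hpt a)
  rw [Finset.sum_add_distrib, Finset.sum_add_distrib, Finset.sum_add_distrib, Finset.sum_const,
    Finset.sum_const, Finset.sum_const, nsmul_eq_mul, nsmul_eq_mul, nsmul_eq_mul, ← hn] at hsum
  have hR : ∑ a ∈ P, ((P.filter (fun b => (a, b).1 ≠ (a, b).2 ∧
      K ≤ (G.cntL P (a, b) : ℝ))).card : ℝ) ≤ n ^ 2 / 8 := by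
    have e4 : ((∑ a ∈ P, (P.filter (fun b => (a, b).1 ≠ (a, b).2 ∧
        K ≤ (G.cntL P (a, b) : ℝ))).card : ℕ) : ℝ) ≤ n ^ (2 - e / 2) := by
      refine le_trans (le_of_eq ?_) hrich
      exact congrArg (Nat.cast : ℕ → ℝ)
        (ec_prod P (fun q => q.1 ≠ q.2 ∧ K ≤ (G.cntL P q : ℝ))).symm
    refine le_trans (le_of_eq ?_) (e4.trans hrich2)
    push_cast
    rfl
  nlinarith

end Vale.Agent.P054.Y.GF
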