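import Vale.Agent.P054.Y.GF.Fibre

/-! The fibre theorem without a condition between `h` and the number of pairs (helper917):
`Bad` and `Lab` are monotone in `h`. -/

set_option linter.all false

namespace Vale.Agent.P054.Y.GF

open Finset Matrix MvPolynomial
open Vale.Agent.P041.SE

theorem RichPair.mono {Λ : Finset (V × V)} {h h' : ℝ} (hh : h ≤ h') {p q : V × V}
    (H : RichPair Λ h' p q) : RichPair Λ h p q := by
  obtain ⟨Q, h1, h2, h3, h4⟩ := H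
  exact ⟨Q, h1, h2, h3, hh.trans h4⟩

theorem Bad.mono {Λ : Finset (V × V)} {κ κ' : V → ℝ} {h h' : ℝ} (hh : h ≤ h') {p q : V × V}
    (H : Bad Λ κ κ' h p q) : Bad Λ κ κ' h' p q :=
  ⟨H.1, H.2.1, H.2.2.1, fun H' => H.2.2.2 (RichPair.mono hh H')⟩

theorem Lab.mono {X Y : Finset V} {κ κ' : V → ℝ} {h h' : ℝ} (hh : h ≤ h')
    (H : Lab X Y κ κ' h) : Lab X Y κ κ' h' := by
  intro A B hAB hA h1 h2 h3 h4
  obtain ⟨F1, f1, f1', f1''⟩ := h1
  obtain ⟨F2, f2, f2', f2''⟩ := h2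
  obtain ⟨F3, f3, f3', f3''⟩ := h3
  obtain ⟨F4, f4, f4', f4''⟩ := h4
  exact H A B hAB hA ⟨F1, f1, f1', hh.trans f1''⟩ ⟨F2, f2, f2', hh.trans f2''⟩
    ⟨F3, f3, f3', hh.trans f3''⟩ ⟨F4, f4, f4', hh.trans f4''⟩

/-- the condition `C K² n² ≤ h³` -/
theorem fibre_num1 {C K m n : ℝ} (hC : 1 ≤ C) (hK : 1 ≤ K) (hm3 : m ^ 3 = n ^ 2) :
    C * K ^ 2 * n ^ 2 ≤ (C * K * m) ^ 3 := by
  rw [mul_pow, mul_pow, hm3]
  have e3 : C ≤ C ^ 3 := le_self_pow₀ hC (by norm_num)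
  have e4 : K ^ 2 ≤ K ^ 3 := pow_le_pow_right₀ hK (by norm_num)
  have e5 : C * K ^ 2 ≤ C ^ 3 * K ^ 3 := mul_le_mul e3 e4 (by positivity) (by positivity)
  exact mul_le_mul_of_nonneg_right e5 (by positivity)

theorem fibre_num2 {A E N s h B m : ℝ} (hA : 1 ≤ A) (hE : 0 ≤ E) (hN : 0 ≤ N) (hh : 0 ≤ h)
    (hB : 0 ≤ B) (hm : 1 ≤ m) (hNs : N * s ≤ E) :
    E + N * (h + A * (B + s + 1) + A * m) ≤ A * (5 * (E + N * (h + B + m))) := by
  have hA0 : 0 ≤ A := by linarith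
  have a1 : E ≤ A * E := le_mul_of_one_le_left hE hA
  have a2 : N * h ≤ A * (N * h) := le_mul_of_one_le_left (mul_nonneg hN hh) hA
  have a3 : A * (N * s) ≤ A * E := mul_le_mul_of_nonneg_left hNs hA0
  have a4 : A * (N * 1) ≤ A * (N * m) :=
    mul_le_mul_of_nonneg_left (mul_le_mul_of_nonneg_left hm hN) hA0
  have a5 : 0 ≤ A * (N * m) := by positivity
  have a6 : 0 ≤ A * (N * B) := by positivity
  have a7 : 0 ≤ A * (N * h) := by positivity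
  have a8 : 0 ≤ A * E := by positivity
  have e1 : E + N * (h + A * (B + s + 1) + A * m) =
    E + N * h + A * (N * B) + A * (N * s) + A * (N * 1) + A * (N * m) := by ring
  have e2 : A * (5 * (E + N * (h + B + m))) =
    5 * (A * E) + 5 * (A * (N * h)) + 5 * (A * (N * B)) + 5 * (A * (N * m)) := by ring
  rw [e1, e2]
  linarith

theorem fibre_num3 {N e : ℝ} (he : 0 < e) (hN : N = 0 ∨ 1 ≤ N) :
    N * N ^ (1 / 2 : ℝ) ≤ N ^ (3 / 2 + e) := by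
  rcases hN with h0 | h0
  · rw [h0, zero_mul]
    exact Real.rpow_nonneg le_rfl _
  · have h1 : N * N ^ (1 / 2 : ℝ) = N ^ (3 / 2 : ℝ) := by
      have h2 : N * N ^ (1 / 2 : ℝ) = N ^ (1 : ℝ) * N ^ (1 / 2 : ℝ) := by rw [Real.rpow_one]
      rw [h2, ← Real.rpow_add (by linarith)]
      norm_num
    rw [h1]
    exact Real.rpow_le_rpow_of_exponent_le h0 (by linarith)

open scoped Classical in
/-- **fibre theorem**, without a condition between `h` and the number of pairs -/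
theorem fibre_all (e : ℝ) (he : 0 < e) (he1 : e ≤ 1 / 2) : ∃ C : ℝ, 1 ≤ C ∧
    ∀ (Λ : Finset (V × V)) (X Y : Finset V) (n B K h : ℝ) (κ κ' : V → ℝ), 1 ≤ K → 0 ≤ B → 1 ≤ n → 0 ≤ h →
    Hyp Λ X Y n B K → Lab X Y κ κ' h →
    (((Λ ×ˢ Λ).filter (fun q => Bad Λ κ κ' h q.1 q.2)).card : ℝ) ≤
      C * K ^ 3 * ((Λ.card : ℝ) ^ (3 / 2 + e) + Λ.card * (h + B + n ^ ((2 : ℝ) / 3))) := by
  obtain ⟨C, hC1, hC⟩ := fibre e he he1
  have hCC : (1 : ℝ) ≤ 5 * C ^ 2 := by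
    have : (1 : ℝ) ≤ C ^ 2 := one_le_pow₀ hC1
    linarith
  refine ⟨5 * C ^ 2, hCC, ?_⟩
  intro Λ X Y n B K h κ κ' hK hB hn hh hyp hlab
  have hm1 : 1 ≤ n ^ ((2 : ℝ) / 3) := Real.one_le_rpow hn (by norm_num)
  have hm3 : (n ^ ((2 : ℝ) / 3)) ^ 3 = n ^ 2 := by
    rw [← Real.rpow_natCast, ← Real.rpow_mul (by linarith)]
    norm_num
  have hN0 : (0 : ℝ) ≤ (Λ.card : ℝ) := Nat.cast_nonneg _
  have hN01 : (Λ.card : ℝ) = 0 ∨ (1 : ℝ) ≤ (Λ.card : ℝ) := by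
    rcases Nat.eq_zero_or_pos Λ.card with h0 | h0
    · left
      rw [h0]
      exact Nat.cast_zero
    · right
      exact_mod_cast h0
  have hNs := fibre_num3 he hN01
  have hs0 : 0 ≤ (Λ.card : ℝ) ^ (1 / 2 : ℝ) := Real.rpow_nonneg hN0 _
  have hE0 : 0 ≤ (Λ.card : ℝ) ^ (3 / 2 + e) := Real.rpow_nonneg hN0 _
  generalize n ^ ((2 : ℝ) / 3) = m at hm1 hm3 ⊢
  have hC0 : 0 < C := by linarith
  have hK0 : 0 < K := by linarith
  have hCK : 1 ≤ C * K := one_le_mul_of_one_le_of_one_le hC1 hK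
  have p1 : 0 ≤ C * K * (B + (Λ.card : ℝ) ^ (1 / 2 : ℝ) + 1) := by positivity
  have p2 : 0 ≤ C * K * m := by positivity
  have hle : h ≤ h + C * K * (B + (Λ.card : ℝ) ^ (1 / 2 : ℝ) + 1) + C * K * m := by linarith
  have hmain := hC Λ X Y n B K (h + C * K * (B + (Λ.card : ℝ) ^ (1 / 2 : ℝ) + 1) + C * K * m)
    κ κ' hK hB hn hyp (hlab.mono hle) (by linarith)
    ((fibre_num1 hC1 hK hm3).trans (pow_le_pow_left₀ p2 (by linarith) 3))
  have hsub : (((Λ ×ˢ Λ).filter (fun q => Bad Λ κ κ' h q.1 q.2)).card : ℝ) ≤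
      (((Λ ×ˢ Λ).filter (fun q => Bad Λ κ κ'
        (h + C * K * (B + (Λ.card : ℝ) ^ (1 / 2 : ℝ) + 1) + C * K * m) q.1 q.2)).card : ℝ) := by
    apply Nat.cast_le.2
    apply Finset.card_le_card
    intro q hq
    rw [Finset.mem_filter] at hq ⊢
    exact ⟨hq.1, Bad.mono hle hq.2⟩
  refine hsub.trans (hmain.trans ?_)
  have k2 := fibre_num2 hCK hE0 hN0 hh hB hm1 hNs
  calc C * K ^ 2 * ((Λ.card : ℝ) ^ (3 / 2 + e) +
        Λ.card * (h + C * K * (B + (Λ.card : ℝ) ^ (1 / 2 : ℝ) + 1) + C * K * m))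
      ≤ C * K ^ 2 * (C * K * (5 * ((Λ.card : ℝ) ^ (3 / 2 + e) + Λ.card * (h + B + m)))) :=
        mul_le_mul_of_nonneg_left k2 (by positivity)
    _ = 5 * C ^ 2 * K ^ 3 * ((Λ.card : ℝ) ^ (3 / 2 + e) + Λ.card * (h + B + m)) := by ring

end Vale.Agent.P054.Y.GF
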