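import Mathlib

/-! P054, block G: numerics of the final summation. -/

set_option linter.all false
set_option autoImplicit false

namespace Vale.Agent.P054.Y.GF

open Finset

/-- Hölder: `∑ M^(2θ) ≤ #I^(1-θ) (∑ M²)^θ` -/
theorem holder_sum {ι : Type*} (I : Finset ι) (M : ι → ℝ) (hM : ∀ i ∈ I, 0 ≤ M i) {θ : ℝ}
    (h0 : 0 < θ) (h1 : θ ≤ 1) :
    ∑ i ∈ I, M i ^ (2 * θ) ≤ (I.card : ℝ) ^ (1 - θ) * (∑ i ∈ I, M i ^ 2) ^ θ := by
  have hp : 1 ≤ 1 / θ := by rw [le_div_iff₀ h0]; linarith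
  have h := Real.rpow_sum_le_const_mul_sum_rpow_of_nonneg I (p := 1 / θ) (f := fun i => M i ^ (2 * θ))
    hp (fun i hi => Real.rpow_nonneg (hM i hi) _)
  have e1 : ∀ i ∈ I, (M i ^ (2 * θ)) ^ (1 / θ) = M i ^ 2 := by
    intro i hi
    rw [← Real.rpow_mul (hM i hi)]
    have : 2 * θ * (1 / θ) = (2 : ℝ) := by field_simp
    rw [this]
    exact_mod_cast Real.rpow_natCast (M i) 2
  rw [Finset.sum_congr rfl e1] at h
  have hS : 0 ≤ ∑ i ∈ I, M i ^ (2 * θ) :=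
    Finset.sum_nonneg (fun i hi => Real.rpow_nonneg (hM i hi) _)
  have hQ : 0 ≤ ∑ i ∈ I, M i ^ 2 := Finset.sum_nonneg (fun i _ => sq_nonneg _)
  have h2 := Real.rpow_le_rpow (Real.rpow_nonneg hS _) h h0.le
  rw [← Real.rpow_mul hS, Real.mul_rpow (Real.rpow_nonneg (Nat.cast_nonneg _) _) hQ,
    ← Real.rpow_mul (Nat.cast_nonneg _)] at h2
  have e2 : 1 / θ * θ = 1 := by field_simp
  have e3 : (1 / θ - 1) * θ = 1 - θ := by field_simp
  rw [e2, e3, Real.rpow_one] at h2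
  exact h2

/-- the same with the lower bound `Q ≥ n^6 / (C τ²)` inserted -/
theorem holder_gain {ι : Type*} (I : Finset ι) (M : ι → ℝ) (hM : ∀ i ∈ I, 0 ≤ M i) {θ : ℝ}
    (h0 : 0 < θ) (h1 : θ ≤ 1) {n τ C : ℝ} (hn : 0 < n) (hτ : 0 < τ) (hC : 1 ≤ C)
    (hI : (I.card : ℝ) ≤ n ^ 2) (hQ : n ^ 6 / (C * τ ^ 2) ≤ ∑ i ∈ I, M i ^ 2) :
    ∑ i ∈ I, M i ^ (2 * θ) ≤ (C * (τ ^ 2 / n ^ 4)) ^ (1 - θ) * ∑ i ∈ I, M i ^ 2 := by
  have hQ0 : 0 < ∑ i ∈ I, M i ^ 2 := lt_of_lt_of_le (by positivity) hQ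
  refine le_trans (holder_sum I M hM h0 h1) ?_
  set Q := ∑ i ∈ I, M i ^ 2 with hQd
  have hC0 : 0 < C := by linarith
  have h2 : (I.card : ℝ) ≤ C * (τ ^ 2 / n ^ 4) * Q := by
    refine le_trans hI ?_
    rw [div_le_iff₀ (by positivity)] at hQ
    have : n ^ 2 = n ^ 6 / n ^ 4 := by field_simp
    rw [this, mul_assoc, div_mul_eq_mul_div, mul_div_assoc', div_le_div_iff_of_pos_right (by positivity)]
    linarith
  have h3 : (I.card : ℝ) ^ (1 - θ) ≤ (C * (τ ^ 2 / n ^ 4) * Q) ^ (1 - θ) :=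
    Real.rpow_le_rpow (Nat.cast_nonneg _) h2 (by linarith)
  have h4 : (C * (τ ^ 2 / n ^ 4) * Q) ^ (1 - θ) = (C * (τ ^ 2 / n ^ 4)) ^ (1 - θ) * Q ^ (1 - θ) :=
    Real.mul_rpow (by positivity) hQ0.le
  calc (I.card : ℝ) ^ (1 - θ) * Q ^ θ ≤ ((C * (τ ^ 2 / n ^ 4)) ^ (1 - θ) * Q ^ (1 - θ)) * Q ^ θ := by
        rw [← h4]
        exact mul_le_mul_of_nonneg_right h3 (Real.rpow_nonneg hQ0.le _)
    _ = (C * (τ ^ 2 / n ^ 4)) ^ (1 - θ) * (Q ^ (1 - θ) * Q ^ θ) := by ring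
    _ = _ := by
        rw [← Real.rpow_add hQ0]
        have : 1 - θ + θ = 1 := by ring
        rw [this, Real.rpow_one]

theorem arith (δ : ℝ) (hδ : 0 < δ) (C : ℝ) (hC : 1 ≤ C) : ∃ n0 : ℝ, 1 ≤ n0 ∧
    ∀ (n τ e : ℝ), n0 ≤ n → 1 ≤ τ → τ ≤ n ^ ((2 : ℝ) / 3 - δ) → 0 < e → e ≤ δ / 16 → e ≤ 1 / 2 →
    ∀ {ι : Type*} (I : Finset ι) (M : ι → ℝ), (I.card : ℝ) ≤ n ^ 2 → (∀ i ∈ I, 0 ≤ M i) →
    n ^ 6 / (C * τ ^ 2) ≤ ∑ i ∈ I, M i ^ 2 →
    C * n ^ (δ / 8) * (∑ i ∈ I, M i ^ (3 / 2 + e) +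
      (n ^ (-δ / 2) * (n ^ 2 / τ ^ 2) + n ^ (δ / 8) * τ) * ∑ i ∈ I, M i) ≤
      (1 / (8 * τ)) * ∑ i ∈ I, M i ^ 2 := by
  -- a large power of `n` beats all constants
  have hev : ∀ᶠ n : ℝ in Filter.atTop, 24 * C ^ 3 ≤ n ^ (δ / 8) :=
    (tendsto_rpow_atTop (show 0 < δ / 8 by positivity)).eventually_ge_atTop _
  obtain ⟨n0, hn0⟩ := Filter.eventually_atTop.1 hev
  refine ⟨max n0 1, le_max_right _ _, ?_⟩
  intro n τ e hn hτ hτn he he1 he2 ι I M hI hM hQ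
  have hn1 : 1 ≤ n := le_trans (le_max_right _ _) hn
  have hnpos : 0 < n := by linarith
  have hbig := hn0 n (le_trans (le_max_left _ _) hn)
  have hC0 : 0 < C := by linarith
  have hτ0 : 0 < τ := by linarith
  set Q := ∑ i ∈ I, M i ^ 2 with hQd
  have hQ0 : 0 ≤ Q := Finset.sum_nonneg (fun i _ => sq_nonneg _)
  -- first term
  have g1 := holder_gain I M hM (θ := (3 / 2 + e) / 2) (by linarith) (by linarith) hnpos hτ0 hC hI hQ
  have e1 : 2 * ((3 / 2 + e) / 2) = 3 / 2 + e := by ring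
  rw [e1] at g1
  have g2 := holder_gain I M hM (θ := 1 / 2) (by norm_num) (by norm_num) hnpos hτ0 hC hI hQ
  have e2 : (2 : ℝ) * (1 / 2) = 1 := by norm_num
  rw [e2] at g2
  simp only [Real.rpow_one] at g2
  rw [← hQd] at g1 g2
  -- bounds of the coefficients
  have npow : ∀ a : ℝ, 0 < n ^ a := fun a => Real.rpow_pos_of_pos hnpos a
  have n2 : n ^ 2 = n ^ (2 : ℝ) := by exact_mod_cast (Real.rpow_natCast n 2).symm
  have n4 : n ^ 4 = n ^ (4 : ℝ) := by exact_mod_cast (Real.rpow_natCast n 4).symm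
  have hC3 : C ≤ C ^ 3 := by
    calc C = C ^ 1 := (pow_one C).symm
      _ ≤ C ^ 3 := pow_le_pow_right₀ hC (by norm_num)
  have hC2 : C * C ≤ C ^ 3 := by
    calc C * C = C ^ 2 := (sq C).symm
      _ ≤ C ^ 3 := pow_le_pow_right₀ hC (by norm_num)
  -- x := τ² / n⁴ ≤ n^(-8/3 - 2δ)
  have hτ2 : τ ^ 2 ≤ n ^ ((4 : ℝ) / 3 - 2 * δ) := by
    calc τ ^ 2 ≤ (n ^ ((2 : ℝ) / 3 - δ)) ^ 2 := pow_le_pow_left₀ hτ0.le hτn 2
      _ = n ^ ((4 : ℝ) / 3 - 2 * δ) := by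
          rw [← Real.rpow_natCast, ← Real.rpow_mul hnpos.le]
          congr 1
          push_cast
          ring
  have hτ3 : τ ^ 3 ≤ n ^ ((2 : ℝ) - 3 * δ) := by
    calc τ ^ 3 ≤ (n ^ ((2 : ℝ) / 3 - δ)) ^ 3 := pow_le_pow_left₀ hτ0.le hτn 3
      _ = n ^ ((2 : ℝ) - 3 * δ) := by
          rw [← Real.rpow_natCast, ← Real.rpow_mul hnpos.le]
          congr 1
          push_cast
          ring
  -- (1)
  have c1 : C * n ^ (δ / 8) * (C * (τ ^ 2 / n ^ 4)) ^ (1 - (3 / 2 + e) / 2) ≤ 1 / (24 * τ) := by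
    have hx : (C * (τ ^ 2 / n ^ 4)) ^ (1 - (3 / 2 + e) / 2) ≤
        C * (τ ^ ((1 : ℝ) / 2) * n ^ (-1 + 2 * e)) := by
      rw [Real.mul_rpow hC0.le (by positivity), Real.div_rpow (by positivity) (by positivity)]
      apply mul_le_mul
      · calc C ^ (1 - (3 / 2 + e) / 2) ≤ C ^ (1 : ℝ) :=
              Real.rpow_le_rpow_of_exponent_le hC (by linarith)
          _ = C := Real.rpow_one C
      · have t1 : (τ ^ 2) ^ (1 - (3 / 2 + e) / 2) ≤ τ ^ ((1 : ℝ) / 2) := by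
          rw [← Real.rpow_natCast, ← Real.rpow_mul hτ0.le]
          exact Real.rpow_le_rpow_of_exponent_le hτ (by push_cast; linarith)
        have t2 : ((n ^ 4) ^ (1 - (3 / 2 + e) / 2))⁻¹ = n ^ (-1 + 2 * e) := by
          rw [n4, ← Real.rpow_mul hnpos.le, ← Real.rpow_neg hnpos.le]
          congr 1
          ring
        rw [div_eq_mul_inv, t2]
        exact mul_le_mul_of_nonneg_right t1 (npow _).le
      · positivity
      · exact hC0.le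
    have hy : τ ^ ((1 : ℝ) / 2) * τ ≤ n ^ (1 - 3 / 2 * δ) := by
      have : τ ^ ((1 : ℝ) / 2) * τ = τ ^ ((3 : ℝ) / 2) := by
        nth_rewrite 2 [← Real.rpow_one τ]
        rw [← Real.rpow_add hτ0]
        norm_num
      rw [this]
      calc τ ^ ((3 : ℝ) / 2) ≤ (n ^ ((2 : ℝ) / 3 - δ)) ^ ((3 : ℝ) / 2) :=
            Real.rpow_le_rpow hτ0.le hτn (by norm_num)
        _ = n ^ (1 - 3 / 2 * δ) := by
            rw [← Real.rpow_mul hnpos.le]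
            congr 1
            ring
    rw [le_div_iff₀ (by positivity)]
    calc C * n ^ (δ / 8) * (C * (τ ^ 2 / n ^ 4)) ^ (1 - (3 / 2 + e) / 2) * (24 * τ)
        ≤ C * n ^ (δ / 8) * (C * (τ ^ ((1 : ℝ) / 2) * n ^ (-1 + 2 * e))) * (24 * τ) := by
          apply mul_le_mul_of_nonneg_right _ (by positivity)
          exact mul_le_mul_of_nonneg_left hx (by positivity)
      _ = 24 * (C * C) * (n ^ (δ / 8) * n ^ (-1 + 2 * e)) * (τ ^ ((1 : ℝ) / 2) * τ) := by ring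
      _ ≤ (24 * C ^ 3) * (n ^ (δ / 8) * n ^ (-1 + 2 * e)) * n ^ (1 - 3 / 2 * δ) := by
          apply mul_le_mul _ hy (by positivity) (by positivity)
          apply mul_le_mul_of_nonneg_right _ (by positivity)
          linarith
      _ ≤ n ^ (δ / 8) * (n ^ (δ / 8) * n ^ (-1 + 2 * e)) * n ^ (1 - 3 / 2 * δ) := by
          apply mul_le_mul_of_nonneg_right _ (npow _).le
          exact mul_le_mul_of_nonneg_right hbig (by positivity)
      _ = n ^ (δ / 8 + (δ / 8 + (-1 + 2 * e)) + (1 - 3 / 2 * δ)) := by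
          rw [← Real.rpow_add hnpos, ← Real.rpow_add hnpos, ← Real.rpow_add hnpos]
      _ ≤ 1 := Real.rpow_le_one_of_one_le_of_nonpos hn1 (by linarith)
  -- the coefficient of ∑ M
  have hr : (C * (τ ^ 2 / n ^ 4)) ^ (1 - (1 : ℝ) / 2) ≤ C * (τ * n ^ (-2 : ℝ)) := by
    have : (1 : ℝ) - 1 / 2 = 1 / 2 := by norm_num
    rw [this, Real.mul_rpow hC0.le (by positivity), Real.div_rpow (by positivity) (by positivity)]
    apply mul_le_mul
    · calc C ^ ((1 : ℝ) / 2) ≤ C ^ (1 : ℝ) := Real.rpow_le_rpow_of_exponent_le hC (by norm_num)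
        _ = C := Real.rpow_one C
    · have t1 : (τ ^ 2) ^ ((1 : ℝ) / 2) = τ := by
        rw [← Real.rpow_natCast, ← Real.rpow_mul hτ0.le]
        norm_num
      have t2 : ((n ^ 4) ^ ((1 : ℝ) / 2))⁻¹ = n ^ (-2 : ℝ) := by
        rw [n4, ← Real.rpow_mul hnpos.le, ← Real.rpow_neg hnpos.le]
        norm_num
      rw [div_eq_mul_inv, t2, t1]
    · positivity
    · exact hC0.le
  have c2 : C * n ^ (δ / 8) * (n ^ (-δ / 2) * (n ^ 2 / τ ^ 2)) * (C * (τ * n ^ (-2 : ℝ))) ≤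
      1 / (24 * τ) := by
    rw [le_div_iff₀ (by positivity), n2]
    calc C * n ^ (δ / 8) * (n ^ (-δ / 2) * (n ^ (2 : ℝ) / τ ^ 2)) * (C * (τ * n ^ (-2 : ℝ))) *
          (24 * τ)
        = 24 * (C * C) * (n ^ (δ / 8) * n ^ (-δ / 2)) * (n ^ (2 : ℝ) * n ^ (-2 : ℝ)) := by
          field_simp
      _ = 24 * (C * C) * (n ^ (δ / 8) * n ^ (-δ / 2)) := by
          have h22 : n ^ (2 : ℝ) * n ^ (-2 : ℝ) = 1 := by
            rw [← Real.rpow_add hnpos]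
            norm_num
          rw [h22, mul_one]
      _ ≤ (24 * C ^ 3) * (n ^ (δ / 8) * n ^ (-δ / 2)) := by
          apply mul_le_mul_of_nonneg_right _ (by positivity)
          linarith
      _ ≤ n ^ (δ / 8) * (n ^ (δ / 8) * n ^ (-δ / 2)) :=
          mul_le_mul_of_nonneg_right hbig (by positivity)
      _ = n ^ (δ / 8 + (δ / 8 + -δ / 2)) := by
          rw [Real.rpow_add hnpos, Real.rpow_add hnpos]
      _ ≤ 1 := Real.rpow_le_one_of_one_le_of_nonpos hn1 (by linarith)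
  have c3 : C * n ^ (δ / 8) * (n ^ (δ / 8) * τ) * (C * (τ * n ^ (-2 : ℝ))) ≤ 1 / (24 * τ) := by
    rw [le_div_iff₀ (by positivity)]
    calc C * n ^ (δ / 8) * (n ^ (δ / 8) * τ) * (C * (τ * n ^ (-2 : ℝ))) * (24 * τ)
        = 24 * (C * C) * (n ^ (δ / 8) * n ^ (δ / 8) * n ^ (-2 : ℝ)) * τ ^ 3 := by ring
      _ ≤ (24 * C ^ 3) * (n ^ (δ / 8) * n ^ (δ / 8) * n ^ (-2 : ℝ)) * n ^ ((2 : ℝ) - 3 * δ) := by
          apply mul_le_mul _ hτ3 (by positivity) (by positivity)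
          apply mul_le_mul_of_nonneg_right _ (by positivity)
          linarith
      _ ≤ n ^ (δ / 8) * (n ^ (δ / 8) * n ^ (δ / 8) * n ^ (-2 : ℝ)) * n ^ ((2 : ℝ) - 3 * δ) := by
          apply mul_le_mul_of_nonneg_right _ (npow _).le
          exact mul_le_mul_of_nonneg_right hbig (by positivity)
      _ = n ^ (δ / 8 + (δ / 8 + δ / 8 + (-2)) + (2 - 3 * δ)) := by
          rw [Real.rpow_add hnpos, Real.rpow_add hnpos, Real.rpow_add hnpos, Real.rpow_add hnpos]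
      _ ≤ 1 := Real.rpow_le_one_of_one_le_of_nonpos hn1 (by linarith)
  -- conclusion
  set h' := n ^ (-δ / 2) * (n ^ 2 / τ ^ 2) with hh'
  have hh0 : 0 ≤ h' := by positivity
  have T1 : C * n ^ (δ / 8) * ∑ i ∈ I, M i ^ (3 / 2 + e) ≤ 1 / (24 * τ) * Q := by
    calc C * n ^ (δ / 8) * ∑ i ∈ I, M i ^ (3 / 2 + e)
        ≤ C * n ^ (δ / 8) * ((C * (τ ^ 2 / n ^ 4)) ^ (1 - (3 / 2 + e) / 2) * Q) :=
          mul_le_mul_of_nonneg_left g1 (by positivity)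
      _ = (C * n ^ (δ / 8) * (C * (τ ^ 2 / n ^ 4)) ^ (1 - (3 / 2 + e) / 2)) * Q := by ring
      _ ≤ _ := mul_le_mul_of_nonneg_right c1 hQ0
  have g3 : ∑ i ∈ I, M i ≤ C * (τ * n ^ (-2 : ℝ)) * Q :=
    le_trans g2 (mul_le_mul_of_nonneg_right hr hQ0)
  have T2 : C * n ^ (δ / 8) * (h' * ∑ i ∈ I, M i) ≤ 1 / (24 * τ) * Q := by
    calc C * n ^ (δ / 8) * (h' * ∑ i ∈ I, M i)
        ≤ C * n ^ (δ / 8) * (h' * (C * (τ * n ^ (-2 : ℝ)) * Q)) :=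
          mul_le_mul_of_nonneg_left (mul_le_mul_of_nonneg_left g3 hh0) (by positivity)
      _ = (C * n ^ (δ / 8) * h' * (C * (τ * n ^ (-2 : ℝ)))) * Q := by ring
      _ ≤ _ := mul_le_mul_of_nonneg_right c2 hQ0
  have T3 : C * n ^ (δ / 8) * (n ^ (δ / 8) * τ * ∑ i ∈ I, M i) ≤ 1 / (24 * τ) * Q := by
    calc C * n ^ (δ / 8) * (n ^ (δ / 8) * τ * ∑ i ∈ I, M i)
        ≤ C * n ^ (δ / 8) * (n ^ (δ / 8) * τ * (C * (τ * n ^ (-2 : ℝ)) * Q)) :=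
          mul_le_mul_of_nonneg_left (mul_le_mul_of_nonneg_left g3 (by positivity)) (by positivity)
      _ = (C * n ^ (δ / 8) * (n ^ (δ / 8) * τ) * (C * (τ * n ^ (-2 : ℝ)))) * Q := by ring
      _ ≤ _ := mul_le_mul_of_nonneg_right c3 hQ0
  calc C * n ^ (δ / 8) * (∑ i ∈ I, M i ^ (3 / 2 + e) + (h' + n ^ (δ / 8) * τ) * ∑ i ∈ I, M i)
      = C * n ^ (δ / 8) * ∑ i ∈ I, M i ^ (3 / 2 + e) + C * n ^ (δ / 8) * (h' * ∑ i ∈ I, M i) +
        C * n ^ (δ / 8) * (n ^ (δ / 8) * τ * ∑ i ∈ I, M i) := by ring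
    _ ≤ 1 / (24 * τ) * Q + 1 / (24 * τ) * Q + 1 / (24 * τ) * Q := by linarith
    _ = 1 / (8 * τ) * Q := by field_simp; ring

end Vale.Agent.P054.Y.GF
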