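import Mathlib
import Vale.Agent.P054.Y.GF.Arith

/-! Leaf GF-MainNum (helper426), from 258's GF/Arith.lean `arith`.  `e = min δ 1 / 100`, `K = n^e`,
`h0 = n^(-δ/2) n^2/τ^2`, `B = Cp τ^(1+e)`. -/

set_option linter.all false

namespace Vale.Agent.P054.Y.GF

open Finset

theorem mn_term {C Cp K1 K3 A h0 T E N mi mp : ℝ} (hC : 1 ≤ C) (hCp : 0 < Cp) (hK1 : K1 ≤ A)
    (hK3 : K3 ≤ A) (h0K3 : 0 ≤ K3) (hA : 0 ≤ A) (hh1 : 1 ≤ h0) (hN : N ≤ h0) (hN0 : 0 ≤ N)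
    (hE : E ≤ T) (hE0 : 0 ≤ E) (hmi : 0 ≤ mi) (hmp : 0 ≤ mp) :
    K1 * mi + C * K3 * (mp + mi * (h0 + Cp * E + N)) ≤
      (C * (3 + Cp) + 16) * A * (mp + (h0 + T) * mi) := by
  have hT : 0 ≤ T := le_trans hE0 hE
  have hh0 : 0 ≤ h0 := by linarith
  have hC0 : 0 ≤ C := by linarith
  have s1 : K1 * mi ≤ A * (h0 * mi) := by
    refine mul_le_mul hK1 ?_ hmi hA
    have := mul_le_mul_of_nonneg_right hh1 hmi
    linarith
  have s2 : h0 + Cp * E + N ≤ 2 * h0 + Cp * T := by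
    have := mul_le_mul_of_nonneg_left hE hCp.le
    linarith
  have s3 : mp + mi * (h0 + Cp * E + N) ≤ mp + mi * (2 * h0 + Cp * T) := by
    have := mul_le_mul_of_nonneg_left s2 hmi
    linarith
  have s4 : 0 ≤ mp + mi * (h0 + Cp * E + N) := by
    have : 0 ≤ h0 + Cp * E + N := by positivity
    positivity
  have s5 : C * K3 * (mp + mi * (h0 + Cp * E + N)) ≤ C * A * (mp + mi * (2 * h0 + Cp * T)) :=
    mul_le_mul (mul_le_mul_of_nonneg_left hK3 hC0) s3 s4 (by positivity)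
  have hCp' : 0 ≤ C * Cp := by positivity
  have f1 : C * mp ≤ (C * (3 + Cp) + 16) * mp := by
    apply mul_le_mul_of_nonneg_right _ hmp
    linarith
  have f2 : (1 + 2 * C) * (h0 * mi) ≤ (C * (3 + Cp) + 16) * (h0 * mi) := by
    apply mul_le_mul_of_nonneg_right _ (mul_nonneg hh0 hmi)
    linarith
  have f3 : C * Cp * (T * mi) ≤ (C * (3 + Cp) + 16) * (T * mi) := by
    apply mul_le_mul_of_nonneg_right _ (mul_nonneg hT hmi)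
    linarith
  have s6 : C * mp + (1 + 2 * C) * (h0 * mi) + C * Cp * (T * mi) ≤
      (C * (3 + Cp) + 16) * (mp + (h0 + T) * mi) := by linarith
  calc K1 * mi + C * K3 * (mp + mi * (h0 + Cp * E + N))
      ≤ A * (h0 * mi) + C * A * (mp + mi * (2 * h0 + Cp * T)) := add_le_add s1 s5
    _ = A * (C * mp + (1 + 2 * C) * (h0 * mi) + C * Cp * (T * mi)) := by ring
    _ ≤ A * ((C * (3 + Cp) + 16) * (mp + (h0 + T) * mi)) := mul_le_mul_of_nonneg_left s6 hA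
    _ = _ := by ring

theorem mn_low {n τ M Q : ℝ} (hn : 0 < n) (hτ : 0 < τ) (h2 : n ^ 4 / 4 ≤ τ * M)
    (h3 : M ^ 2 ≤ n ^ 2 * Q) : n ^ 6 / (16 * τ ^ 2) ≤ Q := by
  have h5 : (n ^ 4 / 4) ^ 2 ≤ (τ * M) ^ 2 := pow_le_pow_left₀ (by positivity) h2 2
  have h6 : (τ * M) ^ 2 ≤ τ ^ 2 * (n ^ 2 * Q) := by
    rw [mul_pow]
    exact mul_le_mul_of_nonneg_left h3 (by positivity)
  have h7 := h5.trans h6
  rw [div_le_iff₀ (by positivity)]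
  have h8 : n ^ 2 * n ^ 6 ≤ n ^ 2 * (Q * (16 * τ ^ 2)) := by
    have e1 : (n ^ 4 / 4) ^ 2 = n ^ 2 * n ^ 6 / 16 := by ring
    rw [e1] at h7
    linarith
  exact le_of_mul_le_mul_left h8 (by positivity)

theorem mn_a {δ n τ : ℝ} (hδ : 0 < δ) (hn1 : 1 ≤ n) (hτ : 1 ≤ τ) (hτn : τ ≤ n ^ ((2 : ℝ) / 3 - δ)) :
    n ^ ((2 : ℝ) / 3) ≤ n ^ (-(δ / 2)) * (n ^ 2 / τ ^ 2) := by
  have hn0 : 0 < n := by linarith
  have hτ0 : 0 < τ := by linarith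
  have npow : ∀ a : ℝ, 0 < n ^ a := fun a => Real.rpow_pos_of_pos hn0 a
  have hτ2 : τ ^ 2 ≤ n ^ ((4 : ℝ) / 3 - 2 * δ) := by
    calc τ ^ 2 ≤ (n ^ ((2 : ℝ) / 3 - δ)) ^ 2 := pow_le_pow_left₀ hτ0.le hτn 2
      _ = n ^ ((4 : ℝ) / 3 - 2 * δ) := by
        rw [← Real.rpow_natCast, ← Real.rpow_mul hn0.le]
        congr 1
        push_cast
        ring
  rw [← mul_div_assoc, le_div_iff₀ (by positivity)]
  calc n ^ ((2 : ℝ) / 3) * τ ^ 2 ≤ n ^ ((2 : ℝ) / 3) * n ^ ((4 : ℝ) / 3 - 2 * δ) :=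
        mul_le_mul_of_nonneg_left hτ2 (npow _).le
    _ = n ^ (2 - 2 * δ) := by rw [← Real.rpow_add hn0]; congr 1; ring
    _ ≤ n ^ (-(δ / 2) + 2) := Real.rpow_le_rpow_of_exponent_le hn1 (by linarith)
    _ = n ^ (-(δ / 2)) * n ^ 2 := by
      rw [Real.rpow_add hn0]
      congr 1
      exact_mod_cast Real.rpow_natCast n 2

theorem mn_end {δ n τ Q S6 R X : ℝ} (hn0 : 0 < n) (hτ0 : 0 < τ) (hbig : 128 ≤ n ^ (δ / 2))
    (h1 : Q ≤ 4 * τ * S6) (hQl : n ^ 6 / (16 * τ ^ 2) ≤ Q) (hX : X ≤ 1 / (8 * τ) * Q)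
    (h4 : S6 ≤ X + R) : n ^ (-(δ / 2)) * (n ^ 6 / τ ^ 3) ≤ R := by
  have h6 : 1 / (8 * τ) * Q ≤ S6 / 2 := by
    rw [div_mul_eq_mul_div, one_mul, div_le_iff₀ (by positivity)]
    linarith
  have h7 : 1 / (8 * τ) * Q ≤ R := by linarith
  refine le_trans ?_ h7
  have h8 : 1 / (8 * τ) * (n ^ 6 / (16 * τ ^ 2)) ≤ 1 / (8 * τ) * Q :=
    mul_le_mul_of_nonneg_left hQl (by positivity)
  refine le_trans ?_ h8
  have h9 : 1 / (8 * τ) * (n ^ 6 / (16 * τ ^ 2)) = (1 / 128) * (n ^ 6 / τ ^ 3) := by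
    field_simp
    ring
  rw [h9]
  apply mul_le_mul_of_nonneg_right _ (by positivity)
  rw [Real.rpow_neg hn0.le, ← one_div]
  exact one_div_le_one_div_of_le (by norm_num) hbig

theorem main_num (δ : ℝ) (hδ : 0 < δ) : ∃ e : ℝ, 0 < e ∧ e ≤ 1 / 10 ∧ ∀ C Cp : ℝ, 1 ≤ C → 0 < Cp →
    ∃ n0 : ℝ, 1 ≤ n0 ∧ ∀ n τ : ℝ, n0 ≤ n → 1 ≤ τ → τ ≤ n ^ ((2 : ℝ) / 3 - δ) →
    n ^ ((2 : ℝ) / 3) ≤ n ^ (-(δ / 2)) * (n ^ 2 / τ ^ 2) ∧
    ∀ (I : Type) (s : Finset I) (m : I → ℝ) (S6 R : ℝ), (s.card : ℝ) ≤ n ^ 2 →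
      (∀ i ∈ s, 0 ≤ m i ∧ m i ≤ n ^ 2) →
      ∑ i ∈ s, m i ^ 2 ≤ 4 * τ * S6 → n ^ 4 / 4 ≤ τ * ∑ i ∈ s, m i →
      (∑ i ∈ s, m i) ^ 2 ≤ n ^ 2 * ∑ i ∈ s, m i ^ 2 →
      S6 ≤ ∑ i ∈ s, (n ^ e * m i + C * (n ^ e) ^ 3 * (m i ^ (3 / 2 + e) +
        m i * (n ^ (-(δ / 2)) * (n ^ 2 / τ ^ 2) + Cp * τ ^ (1 + e) + n ^ ((2 : ℝ) / 3)))) + R →
      n ^ (-(δ / 2)) * (n ^ 6 / τ ^ 3) ≤ R := by
  have hmin : 0 < min δ 1 := lt_min hδ one_pos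
  have hmin1 := min_le_left δ 1
  have hmin2 := min_le_right δ 1
  obtain ⟨e, he⟩ : ∃ e : ℝ, e = min δ 1 / 100 := ⟨_, rfl⟩
  have he0 : 0 < e := by rw [he]; linarith
  have heδ : e ≤ δ / 100 := by rw [he]; linarith
  have he1 : e ≤ 1 / 100 := by rw [he]; linarith
  refine ⟨e, he0, by linarith, ?_⟩
  clear he hmin hmin1 hmin2
  intro C Cp hC hCp
  have hCC : 0 ≤ C * (3 + Cp) := by positivity
  obtain ⟨n1, hn1, harith⟩ := arith δ hδ (C * (3 + Cp) + 16) (by linarith)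
  have hev : ∀ᶠ n : ℝ in Filter.atTop, 128 ≤ n ^ (δ / 2) :=
    (tendsto_rpow_atTop (show 0 < δ / 2 by positivity)).eventually_ge_atTop _
  obtain ⟨n2, hn2⟩ := Filter.eventually_atTop.1 hev
  refine ⟨max n1 n2, le_trans hn1 (le_max_left _ _), ?_⟩
  intro n τ hn hτ hτn
  have hn1' : n1 ≤ n := le_trans (le_max_left _ _) hn
  have hbig : 128 ≤ n ^ (δ / 2) := hn2 n (le_trans (le_max_right _ _) hn)
  have hn1'' : 1 ≤ n := le_trans hn1 hn1'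
  have hn0 : 0 < n := by linarith
  have hτ0 : 0 < τ := by linarith
  have npow : ∀ a : ℝ, 0 < n ^ a := fun a => Real.rpow_pos_of_pos hn0 a
  have ha := mn_a hδ hn1'' hτ hτn
  refine ⟨ha, ?_⟩
  intro I s m S6 R hs hm h1 h2 h3 h4
  have hm0 : ∀ i ∈ s, 0 ≤ m i := fun i hi => (hm i hi).1
  have hQl := mn_low hn0 hτ0 h2 h3
  have hQl' : n ^ 6 / ((C * (3 + Cp) + 16) * τ ^ 2) ≤ ∑ i ∈ s, m i ^ 2 := by
    refine le_trans ?_ hQl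
    apply div_le_div_of_nonneg_left (by positivity) (by positivity)
    apply mul_le_mul_of_nonneg_right _ (by positivity)
    linarith
  have key := harith n τ e hn1' hτ hτn he0 (by linarith) (by linarith) s m hs hm0 hQl'
  have hneg : (-δ / 2 : ℝ) = -(δ / 2) := by ring
  rw [hneg] at key
  have hh1 : 1 ≤ n ^ (-(δ / 2)) * (n ^ 2 / τ ^ 2) :=
    le_trans (Real.one_le_rpow hn1'' (by norm_num)) ha
  have hτn' : τ ≤ n := by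
    calc τ ≤ n ^ ((2 : ℝ) / 3 - δ) := hτn
      _ ≤ n ^ (1 : ℝ) := Real.rpow_le_rpow_of_exponent_le hn1'' (by linarith)
      _ = n := Real.rpow_one n
  have hτe : τ ^ (1 + e) ≤ n ^ (δ / 8) * τ := by
    rw [Real.rpow_add hτ0, Real.rpow_one, mul_comm]
    apply mul_le_mul_of_nonneg_right _ hτ0.le
    calc τ ^ e ≤ n ^ e := Real.rpow_le_rpow hτ0.le hτn' he0.le
      _ ≤ n ^ (δ / 8) := Real.rpow_le_rpow_of_exponent_le hn1'' (by linarith)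
  have hK3 : (n ^ e) ^ 3 ≤ n ^ (δ / 8) := by
    rw [← Real.rpow_natCast, ← Real.rpow_mul hn0.le]
    exact Real.rpow_le_rpow_of_exponent_le hn1'' (by push_cast; linarith)
  have hK1 : n ^ e ≤ n ^ (δ / 8) := Real.rpow_le_rpow_of_exponent_le hn1'' (by linarith)
  have hsum := Finset.sum_le_sum (fun i hi => mn_term hC hCp hK1 hK3 (pow_nonneg (npow e).le 3)
    (npow (δ / 8)).le hh1 ha (npow _).le hτe (Real.rpow_nonneg hτ0.le _) (hm0 i hi)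
    (Real.rpow_nonneg (hm0 i hi) (3 / 2 + e)))
  have hrhs : ∑ i ∈ s, (C * (3 + Cp) + 16) * n ^ (δ / 8) * (m i ^ (3 / 2 + e) +
        (n ^ (-(δ / 2)) * (n ^ 2 / τ ^ 2) + n ^ (δ / 8) * τ) * m i) =
      (C * (3 + Cp) + 16) * n ^ (δ / 8) * (∑ i ∈ s, m i ^ (3 / 2 + e) +
        (n ^ (-(δ / 2)) * (n ^ 2 / τ ^ 2) + n ^ (δ / 8) * τ) * ∑ i ∈ s, m i) := by
    rw [← Finset.mul_sum, Finset.sum_add_distrib, ← Finset.mul_sum]
  rw [hrhs] at hsum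
  exact mn_end hn0 hτ0 hbig h1 hQl (hsum.trans key) h4

end Vale.Agent.P054.Y.GF
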