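import Vale.Agent.P054.Y.GF.SixSplit

/-! Leaf GF-RichOut (helper987).  `g = (Q, c - Q a)`; `act g b = c + Q (b - a) = d`; every `(b - a, d - c) ∈ Lam` with
`Q (b - a) = d - c` gives `b ∈ M g P P`, and different pairs give different `b`. -/

set_option linter.all false

namespace Vale.Agent.P054.Y.GF

open Finset Matrix
open Vale.Agent.P054.Fin (sqd dst)

open scoped Classical in
theorem rich_out {P : Finset V} {K h h0 : ℝ} {h' : V → V → ℝ} (hh : ∀ a c, h0 ≤ h' a c)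
    {q : (V × V × V) × (V × V × V)} (hq : q ∈ sixR P K h h') :
    q.1.1 ∈ P ∧ q.1.2.1 ∈ P ∧ q.1.2.2 ∈ P ∧ q.2.1 ∈ P ∧ q.2.2.1 ∈ P ∧ q.2.2.2 ∈ P ∧
      ∃ g : R.Iso, R.Orth g ∧ R.act g q.1.1 = q.2.1 ∧ R.act g q.1.2.1 = q.2.2.1 ∧
        R.act g q.1.2.2 = q.2.2.2 ∧ h0 ≤ ((R.M g P P).card : ℝ) := by
  obtain ⟨⟨a, b, b'⟩, ⟨c, d, d'⟩⟩ := q
  obtain ⟨hs, hr⟩ := Finset.mem_filter.1 hq
  obtain ⟨hprod, -⟩ := Finset.mem_filter.1 hs
  obtain ⟨ht1, ht2⟩ := Finset.mem_product.1 hprod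
  obtain ⟨ha, hb, hb'⟩ := G.mem_trip.1 ht1
  obtain ⟨hc, hd, hd'⟩ := G.mem_trip.1 ht2
  have hE : ∀ x y, y ∈ Ea P K h x → y ∈ P := fun x y hy =>
    (Finset.mem_filter.1 (Finset.mem_filter.1 hy).1).1
  obtain ⟨Q, hQ, hQ1, hQ2, hcard⟩ := hr
  refine ⟨ha, hE _ _ hb, hE _ _ hb', hc, hE _ _ hd, hE _ _ hd', (Q, c - Q *ᵥ a), hQ, ?_, ?_, ?_, ?_⟩
  · show Q *ᵥ a + (c - Q *ᵥ a) = c
    abel
  · show Q *ᵥ b + (c - Q *ᵥ a) = d
    have h1 : Q *ᵥ b - Q *ᵥ a = d - c := by rw [← Matrix.mulVec_sub]; exact hQ1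
    have h2 : Q *ᵥ b + (c - Q *ᵥ a) = (Q *ᵥ b - Q *ᵥ a) + c := by abel
    rw [h2, h1]; abel
  · show Q *ᵥ b' + (c - Q *ᵥ a) = d'
    have h1 : Q *ᵥ b' - Q *ᵥ a = d' - c := by rw [← Matrix.mulVec_sub]; exact hQ2
    have h2 : Q *ᵥ b' + (c - Q *ᵥ a) = (Q *ᵥ b' - Q *ᵥ a) + c := by abel
    rw [h2, h1]; abel
  · refine (hh a c).trans (hcard.trans ?_)
    have hle : ((Lam P K h a c).filter (fun r => Q *ᵥ r.1 = r.2)).card ≤
        (R.M (Q, c - Q *ᵥ a) P P).card := by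
      apply Finset.card_le_card_of_injOn (fun r => r.1 + a)
      · intro r hr
        obtain ⟨hr1, hr2⟩ := Finset.mem_filter.1 (Finset.mem_coe.1 hr)
        obtain ⟨⟨x, y⟩, hxy, hxy2⟩ := Finset.mem_image.1 hr1
        obtain ⟨hx, hy⟩ := Finset.mem_product.1 (Finset.mem_filter.1 hxy).1
        subst hxy2
        rw [Finset.mem_coe]
        unfold R.M
        rw [Finset.mem_filter]
        have e1 : x - a + a = x := sub_add_cancel x a
        have hr3 : Q *ᵥ (x - a) = y - c := hr2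
        have e2 : R.act (Q, c - Q *ᵥ a) (x - a + a) = y := by
          rw [e1]
          show Q *ᵥ x + (c - Q *ᵥ a) = y
          have h1 : Q *ᵥ x - Q *ᵥ a = y - c := by rw [← Matrix.mulVec_sub]; exact hr3
          have h2 : Q *ᵥ x + (c - Q *ᵥ a) = (Q *ᵥ x - Q *ᵥ a) + c := by abel
          rw [h2, h1]; abel
        refine ⟨?_, ?_⟩
        · show x - a + a ∈ P
          rw [e1]
          exact hE _ _ hx
        · show R.act (Q, c - Q *ᵥ a) (x - a + a) ∈ P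
          rw [e2]
          exact hE _ _ hy
      · intro r hr r' hr' hrr
        have h1 := (Finset.mem_filter.1 (Finset.mem_coe.1 hr)).2
        have h2 := (Finset.mem_filter.1 (Finset.mem_coe.1 hr')).2
        have h3 : r.1 = r'.1 := add_right_cancel hrr
        exact Prod.ext h3 (by rw [← h1, ← h2, h3])
    exact_mod_cast hle

end Vale.Agent.P054.Y.GF
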