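import Vale.Agent.P054.Y.GF.LamDefs

/-! Leaf GF-SixSplit (helper917).  For `q = ((a,b,b'),(c,d,d')) ∈ six`: `p = (b-a, d-c)`, `p' = (b'-a, d'-c)` are
in `Lam a c`, `p.1 ⬝ᵥ p'.1 = p.2 ⬝ᵥ p'.2` (from the three equal squared distances), the labels are
ordered, and `q` is determined by `(a, c, p, p')`.  Either `cr p.1 p'.1 = 0`: for given `p` at most `K` values of
`p'.1` (the line through `a` and `b` has less than `K` points) and `p'.2` is determined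
(`p'.1 = μ p.1`, equal dot products and lengths give `p'.2 = μ p.2`): `≤ K * #Lam`; or RichPair; or Bad. -/

set_option linter.all false

namespace Vale.Agent.P054.Y.GF

open Finset Matrix
open Vale.Agent.P054.Fin (sqd dst)

open scoped Classical in
/-- the part of `six` matched by rich isometries -/
noncomputable def sixR (P : Finset V) (K h : ℝ) (h' : V → V → ℝ) :
    Finset ((V × V × V) × (V × V × V)) :=
  (G.six P sqd (Ea P K h) (kp P K h)).filter (fun q =>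
    RichPair (Lam P K h q.1.1 q.2.1) (h' q.1.1 q.2.1)
      (q.1.2.1 - q.1.1, q.2.2.1 - q.2.1) (q.1.2.2 - q.1.1, q.2.2.2 - q.2.1))

theorem ss_sqd (a b : V) : sqd a b = (b - a) ⬝ᵥ (b - a) := by
  unfold sqd dotProduct
  exact Finset.sum_congr rfl (fun k _ => by simp only [Pi.sub_apply]; ring)

theorem ss_zero {x : V} (h : x ⬝ᵥ x = 0) : x = 0 := by
  funext i
  unfold dotProduct at h
  have := (Finset.sum_eq_zero_iff_of_nonneg (fun k _ => mul_self_nonneg (x k))).1 h i (mem_univ i)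
  simpa using this

theorem ss_dot {a b b' c d d' : V} (h1 : sqd a b = sqd c d) (h2 : sqd a b' = sqd c d')
    (h3 : sqd b b' = sqd d d') : (b - a) ⬝ᵥ (b' - a) = (d - c) ⬝ᵥ (d' - c) := by
  have e : ∀ x y z : V, sqd y z = sqd x y + sqd x z - 2 * ((y - x) ⬝ᵥ (z - x)) := by
    intro x y z
    unfold sqd dotProduct
    simp only [Pi.sub_apply]
    rw [Finset.mul_sum, ← Finset.sum_add_distrib, ← Finset.sum_sub_distrib]
    exact Finset.sum_congr rfl (fun k _ => by ring)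
  have e1 := e a b b'
  have e2 := e c d d'
  linarith

/-- parallel vectors -/
theorem ss_par {x y : V} (hx : x ≠ 0) (h : cr x y = 0) : ∃ μ : ℝ, y = μ • x := by
  have hxx : x ⬝ᵥ x ≠ 0 := fun hc => hx (ss_zero hc)
  refine ⟨(x ⬝ᵥ y) / (x ⬝ᵥ x), ?_⟩
  have e0 := congrFun h 0
  have e1 := congrFun h 1
  have e2 := congrFun h 2
  simp [cr] at e0 e1 e2
  simp only [dotProduct, Fin.sum_univ_three] at hxx ⊢
  funext i
  rw [Pi.smul_apply, smul_eq_mul, div_mul_eq_mul_div, eq_div_iff hxx]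
  fin_cases i
  · simp
    linear_combination (x 2) * e1 - (x 1) * e2
  · simp
    linear_combination (x 0) * e2 - (x 2) * e0
  · simp
    linear_combination (x 1) * e0 - (x 0) * e1

theorem ss_snd {x y x' y' : V} (hx : x ≠ 0) (h1 : x ⬝ᵥ x = y ⬝ᵥ y) (h2 : x' ⬝ᵥ x' = y' ⬝ᵥ y')
    (h3 : x ⬝ᵥ x' = y ⬝ᵥ y') {μ : ℝ} (h : x' = μ • x) : y' = μ • y := by
  have e : (y' - μ • y) ⬝ᵥ (y' - μ • y) = 0 := by
    rw [h] at h2 h3
    simp only [dotProduct_sub, sub_dotProduct, smul_dotProduct, dotProduct_smul, smul_eq_mul]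
      at h2 h3 ⊢
    rw [dotProduct_comm y' y]
    linear_combination 2 * μ * h3 - h2 - μ ^ 2 * h1
  exact sub_eq_zero.1 (ss_zero e)

theorem ss_lam {P : Finset V} {K h : ℝ} {a c : V} {p : V × V} (hp : p ∈ Lam P K h a c) :
    p.1 + a ∈ Ea P K h a ∧ p.2 + c ∈ Ea P K h c ∧ p.1 ⬝ᵥ p.1 = p.2 ⬝ᵥ p.2 ∧ p.1 ≠ 0 ∧
      p.1 + a ∈ P ∧ (G.cntL P (a, p.1 + a) : ℝ) < K := by
  classical
  unfold Lam at hp
  obtain ⟨q, hq, rfl⟩ := Finset.mem_image.1 hp
  obtain ⟨hq1, hq2⟩ := Finset.mem_filter.1 hq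
  obtain ⟨hb, hd⟩ := Finset.mem_product.1 hq1
  have e1 : q.1 - a + a = q.1 := sub_add_cancel _ _
  have e2 : q.2 - c + c = q.2 := sub_add_cancel _ _
  have hb' := hb
  unfold Ea Pa at hb'
  obtain ⟨hb1, _⟩ := Finset.mem_filter.1 hb'
  obtain ⟨hb2, hb3, hb4⟩ := Finset.mem_filter.1 hb1
  simp only
  rw [e1, e2]
  refine ⟨hb, hd, ?_, sub_ne_zero.2 hb3, hb2, hb4⟩
  rw [← ss_sqd, ← ss_sqd]
  exact hq2

open scoped Classical in
theorem ss_count {P : Finset V} {K h : ℝ} (hK : 0 ≤ K) (a c : V) :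
    ((((Lam P K h a c) ×ˢ (Lam P K h a c)).filter (fun q : (V × V) × (V × V) =>
      cr q.1.1 q.2.1 = 0 ∧ q.1.1 ⬝ᵥ q.2.1 = q.1.2 ⬝ᵥ q.2.2)).card : ℝ) ≤
      K * (Lam P K h a c).card := by
  set Λ := Lam P K h a c with hΛ
  have h1 : ((Λ ×ˢ Λ).filter (fun q : (V × V) × (V × V) =>
      cr q.1.1 q.2.1 = 0 ∧ q.1.1 ⬝ᵥ q.2.1 = q.1.2 ⬝ᵥ q.2.2)).card =
      ∑ p ∈ Λ, (((Λ ×ˢ Λ).filter (fun q : (V × V) × (V × V) =>
      cr q.1.1 q.2.1 = 0 ∧ q.1.1 ⬝ᵥ q.2.1 = q.1.2 ⬝ᵥ q.2.2)).filter (fun q => q.1 = p)).card := by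
    apply Finset.card_eq_sum_card_fiberwise
    intro q hq
    exact (Finset.mem_product.1 (Finset.mem_filter.1 hq).1).1
  rw [h1]
  push_cast
  have h2 : ∀ p ∈ Λ, ((((Λ ×ˢ Λ).filter (fun q : (V × V) × (V × V) =>
      cr q.1.1 q.2.1 = 0 ∧ q.1.1 ⬝ᵥ q.2.1 = q.1.2 ⬝ᵥ q.2.2)).filter
        (fun q => q.1 = p)).card : ℝ) ≤ K := by
    intro p hp
    obtain ⟨_, _, hpp, hp0, hpP, hpK⟩ := ss_lam hp
    refine le_trans ?_ hpK.le
    unfold G.cntL
    rw [Nat.cast_le]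
    refine Finset.card_le_card_of_injOn (fun q => q.2.1 + a) ?_ ?_
    · intro q hq
      obtain ⟨hq1, hq2⟩ := Finset.mem_filter.1 (Finset.mem_coe.1 hq)
      obtain ⟨hq3, hq4, hq5⟩ := Finset.mem_filter.1 hq1
      have hq6 := (Finset.mem_product.1 hq3).2
      obtain ⟨_, _, _, _, hqP, _⟩ := ss_lam hq6
      rw [hq2] at hq4
      refine Finset.mem_coe.2 (Finset.mem_filter.2 ⟨hqP, ?_⟩)
      have e1 : p.1 + a - a = p.1 := add_sub_cancel_right _ _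
      have e2 : q.2.1 + a - a = q.2.1 := add_sub_cancel_right _ _
      simp only
      rw [e1, e2, cross_apply]
      exact hq4
    · intro q hq q' hq' he
      obtain ⟨hq1, hq2⟩ := Finset.mem_filter.1 (Finset.mem_coe.1 hq)
      obtain ⟨hq3, hq4, hq5⟩ := Finset.mem_filter.1 hq1
      obtain ⟨hq1', hq2'⟩ := Finset.mem_filter.1 (Finset.mem_coe.1 hq')
      obtain ⟨hq3', hq4', hq5'⟩ := Finset.mem_filter.1 hq1'
      obtain ⟨_, _, l1, _, _, _⟩ := ss_lam (Finset.mem_product.1 hq3).2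
      obtain ⟨_, _, l1', _, _, _⟩ := ss_lam (Finset.mem_product.1 hq3').2
      have he' : q.2.1 = q'.2.1 := add_right_cancel he
      rw [hq2] at hq4 hq5
      rw [hq2'] at hq4' hq5'
      obtain ⟨μ, hμ⟩ := ss_par hp0 hq4
      have k1 := ss_snd hp0 hpp l1 hq5 hμ
      have k2 := ss_snd hp0 hpp l1' hq5' (he' ▸ hμ)
      exact Prod.ext (hq2.trans hq2'.symm) (Prod.ext he' (k1.trans k2.symm))
  calc ∑ p ∈ Λ, ((((Λ ×ˢ Λ).filter (fun q : (V × V) × (V × V) =>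
      cr q.1.1 q.2.1 = 0 ∧ q.1.1 ⬝ᵥ q.2.1 = q.1.2 ⬝ᵥ q.2.2)).filter
        (fun q => q.1 = p)).card : ℝ) ≤ ∑ p ∈ Λ, K := Finset.sum_le_sum h2
    _ = K * Λ.card := by rw [Finset.sum_const, nsmul_eq_mul, mul_comm]

open scoped Classical in
theorem six_le (P : Finset V) {K : ℝ} (h : ℝ) (h' : V → V → ℝ) (hK : 0 ≤ K) :
    ((G.six P sqd (Ea P K h) (kp P K h)).card : ℝ) ≤
      ∑ a ∈ P, ∑ c ∈ P, (K * (Lam P K h a c).card +
        (((Lam P K h a c) ×ˢ (Lam P K h a c)).filter (fun q =>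
          Bad (Lam P K h a c) (kap (Xa P K a) h) (kap (Xa P K c) h) (h' a c) q.1 q.2)).card) +
      (sixR P K h h').card := by
  set S := G.six P sqd (Ea P K h) (kp P K h) with hS
  let R : (V × V × V) × (V × V × V) → Prop := fun q =>
    RichPair (Lam P K h q.1.1 q.2.1) (h' q.1.1 q.2.1)
      (q.1.2.1 - q.1.1, q.2.2.1 - q.2.1) (q.1.2.2 - q.1.1, q.2.2.2 - q.2.1)
  have h0 : (S.filter R).card + (S.filter (fun q => ¬ R q)).card = S.card :=
    Finset.card_filter_add_card_filter_not _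
  have h0' : (S.card : ℝ) = ((S.filter (fun q => ¬ R q)).card : ℝ) + ((S.filter R).card : ℝ) := by
    rw [← h0]; push_cast; ring
  have hmem : ∀ q ∈ S, q.1.1 ∈ P ∧ q.2.1 ∈ P ∧ q.1.2.1 ∈ Ea P K h q.1.1 ∧
      q.1.2.2 ∈ Ea P K h q.1.1 ∧ q.2.2.1 ∈ Ea P K h q.2.1 ∧ q.2.2.2 ∈ Ea P K h q.2.1 ∧
      sqd q.1.1 q.1.2.1 = sqd q.2.1 q.2.2.1 ∧ sqd q.1.1 q.1.2.2 = sqd q.2.1 q.2.2.2 ∧
      sqd q.1.2.1 q.1.2.2 = sqd q.2.2.1 q.2.2.2 ∧
      kp P K h q.1.1 q.1.2.1 ≤ kp P K h q.1.1 q.1.2.2 ∧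
      kp P K h q.2.1 q.2.2.1 ≤ kp P K h q.2.1 q.2.2.2 := by
    intro q hq
    rw [hS, G.six, Finset.mem_filter, Finset.mem_product] at hq
    obtain ⟨⟨h1, h2⟩, h3, h4, h5, h6, h7⟩ := hq
    obtain ⟨a1, a2, a3⟩ := G.mem_trip.1 h1
    obtain ⟨b1, b2, b3⟩ := G.mem_trip.1 h2
    exact ⟨a1, b1, a2, a3, b2, b3, h3, h4, h5, h6, h7⟩
  rw [h0']
  refine add_le_add ?_ (le_of_eq rfl)
  have h1 : (S.filter (fun q => ¬ R q)).card = ∑ ac ∈ P ×ˢ P,
      ((S.filter (fun q => ¬ R q)).filter (fun q => (q.1.1, q.2.1) = ac)).card := by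
    apply Finset.card_eq_sum_card_fiberwise
    intro q hq
    have := hmem q (Finset.mem_filter.1 hq).1
    exact Finset.mem_coe.2 (Finset.mem_product.2 ⟨this.1, this.2.1⟩)
  rw [h1]
  push_cast
  rw [Finset.sum_product]
  refine Finset.sum_le_sum (fun a ha => Finset.sum_le_sum (fun c hc => ?_))
  set Λ := Lam P K h a c with hΛ
  have h2 : ((S.filter (fun q => ¬ R q)).filter (fun q => (q.1.1, q.2.1) = (a, c))).card ≤
      (((Λ ×ˢ Λ).filter (fun q : (V × V) × (V × V) =>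
        cr q.1.1 q.2.1 = 0 ∧ q.1.1 ⬝ᵥ q.2.1 = q.1.2 ⬝ᵥ q.2.2)) ∪
      ((Λ ×ˢ Λ).filter (fun q =>
          Bad Λ (kap (Xa P K a) h) (kap (Xa P K c) h) (h' a c) q.1 q.2))).card := by
    refine Finset.card_le_card_of_injOn (fun q => ((q.1.2.1 - q.1.1, q.2.2.1 - q.2.1),
      (q.1.2.2 - q.1.1, q.2.2.2 - q.2.1))) ?_ ?_
    · intro q hq
      obtain ⟨hq1, hq2⟩ := Finset.mem_filter.1 (Finset.mem_coe.1 hq)
      obtain ⟨hq3, hq4⟩ := Finset.mem_filter.1 hq1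
      obtain ⟨⟨x, b, b'⟩, ⟨y, d, d'⟩⟩ := q
      have e1 : x = a := congrArg Prod.fst hq2
      have e2 : y = c := congrArg Prod.snd hq2
      subst e1
      subst e2
      obtain ⟨_, _, m1, m2, m3, m4, s1, s2, s3, l1, l2⟩ := hmem _ hq3
      have p1 : (b - x, d - y) ∈ Λ := Finset.mem_image.2
        ⟨(b, d), Finset.mem_filter.2 ⟨Finset.mem_product.2 ⟨m1, m3⟩, s1⟩, rfl⟩
      have p2 : (b' - x, d' - y) ∈ Λ := Finset.mem_image.2
        ⟨(b', d'), Finset.mem_filter.2 ⟨Finset.mem_product.2 ⟨m2, m4⟩, s2⟩, rfl⟩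
      have hdot := ss_dot s1 s2 s3
      rw [Finset.mem_coe, Finset.mem_union]
      by_cases hcr : cr (b - x) (b' - x) = 0
      · left
        exact Finset.mem_filter.2 ⟨Finset.mem_product.2 ⟨p1, p2⟩, hcr, hdot⟩
      · right
        exact Finset.mem_filter.2 ⟨Finset.mem_product.2 ⟨p1, p2⟩, ⟨hdot, hcr⟩, l1, l2, hq4⟩
    · intro q hq q' hq' he
      obtain ⟨_, hq2⟩ := Finset.mem_filter.1 (Finset.mem_coe.1 hq)
      obtain ⟨_, hq2'⟩ := Finset.mem_filter.1 (Finset.mem_coe.1 hq')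
      obtain ⟨⟨x, b, b'⟩, ⟨y, d, d'⟩⟩ := q
      obtain ⟨⟨x2, b2, b2'⟩, ⟨y2, d2, d2'⟩⟩ := q'
      have e1 : x = a := congrArg Prod.fst hq2
      have e2 : y = c := congrArg Prod.snd hq2
      have e3 : x2 = a := congrArg Prod.fst hq2'
      have e4 : y2 = c := congrArg Prod.snd hq2'
      subst e1
      subst e2
      subst e3
      subst e4
      have f1 : b - x2 = b2 - x2 := congrArg (fun t => t.1.1) he
      have f2 : d - y2 = d2 - y2 := congrArg (fun t => t.1.2) he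
      have f3 : b' - x2 = b2' - x2 := congrArg (fun t => t.2.1) he
      have f4 : d' - y2 = d2' - y2 := congrArg (fun t => t.2.2) he
      rw [sub_left_inj] at f1 f2 f3 f4
      rw [f1, f2, f3, f4]
  have h3 := ss_count (P := P) (h := h) hK a c
  have h4 : (((S.filter (fun q => ¬ R q)).filter
      (fun q => (q.1.1, q.2.1) = (a, c))).card : ℝ) ≤
      (((Λ ×ˢ Λ).filter (fun q : (V × V) × (V × V) =>
        cr q.1.1 q.2.1 = 0 ∧ q.1.1 ⬝ᵥ q.2.1 = q.1.2 ⬝ᵥ q.2.2)).card : ℝ) +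
      (((Λ ×ˢ Λ).filter (fun q =>
          Bad Λ (kap (Xa P K a) h) (kap (Xa P K c) h) (h' a c) q.1 q.2)).card : ℝ) := by
    have := h2.trans (Finset.card_union_le _ _)
    exact_mod_cast this
  linarith

end Vale.Agent.P054.Y.GF
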