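import Vale.Agent.P054.Y.GF.Lam
import Vale.Agent.P054.Y.GF.SixSplit
import Vale.Agent.P054.Y.GF.RichOut
import Vale.Agent.P054.Y.GF.ECount
import Vale.Agent.P054.Y.GF.MainNum
import Vale.Agent.P054.Y.GF.FibreAll
import Vale.Agent.P054.Y.G.Planar
import Vale.Agent.P054.Fin.GStmt2

/-! Block G, Main (helper499). -/

set_option linter.all false

namespace Vale.Agent.P054.Y.GF

open Finset Matrix
open Vale.Agent.P054.Fin (sqd dst)

theorem ea_sub (P : Finset V) (K h : ℝ) (a : V) : Ea P K h a ⊆ P := by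
  classical
  unfold Ea Pa
  exact (Finset.filter_subset _ _).trans (Finset.filter_subset _ _)

theorem sqd_dot (a b : V) : sqd a b = (a - b) ⬝ᵥ (a - b) := by
  simp only [sqd, dotProduct, Pi.sub_apply]
  exact Finset.sum_congr rfl (fun i _ => by ring)

theorem sqd_mem_dst {P : Finset V} {a b : V} (ha : a ∈ P) (hb : b ∈ P) : sqd a b ∈ dst P := by
  classical
  unfold dst
  exact Finset.mem_image.2 ⟨(a, b), Finset.mem_product.2 ⟨ha, hb⟩, rfl⟩

theorem g_stmt : Vale.Agent.P054.Fin.GStmt2 := by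
  classical
  intro δ hδ
  obtain ⟨e, he, he1, hnum⟩ := main_num δ hδ
  obtain ⟨C, hC, hfib⟩ := fibre_all e he (by linarith)
  obtain ⟨Cp, hCp, hpl⟩ := G.planar_bound e he
  obtain ⟨n1, hn1, hnum⟩ := hnum C Cp hC hCp
  obtain ⟨n2, hcount⟩ := e_count e he he1
  refine ⟨max n2 (⌈n1⌉₊), ?_⟩
  intro P hP hτ
  have hPn2 : n2 ≤ P.card := (le_max_left _ _).trans hP
  have hPn1 : n1 ≤ (P.card : ℝ) :=
    (Nat.le_ceil _).trans (by exact_mod_cast (le_max_right _ _).trans hP)
  have hone : (1 : ℝ) ≤ P.card := hn1.trans hPn1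
  have hne : P.Nonempty := by
    rw [← Finset.card_pos]
    have : (0 : ℝ) < P.card := by linarith
    exact_mod_cast this
  have hτ1 : (1 : ℝ) ≤ ((dst P).card : ℝ) := by
    obtain ⟨p, hp⟩ := hne
    have h1 : 0 < (dst P).card := Finset.card_pos.2 ⟨_, sqd_mem_dst hp hp⟩
    exact_mod_cast h1
  obtain ⟨hh0, hmain⟩ := hnum (P.card : ℝ) ((dst P).card : ℝ) hPn1 hτ1 hτ
  set h0 : ℝ := (P.card : ℝ) ^ (-(δ / 2)) * ((P.card : ℝ) ^ 2 / ((dst P).card : ℝ) ^ 2) with hh0def
  set K : ℝ := (P.card : ℝ) ^ e with hKdef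
  have hK1 : 1 ≤ K := Real.one_le_rpow hone he.le
  have hK0 : 0 ≤ K := by linarith
  have hh00 : 0 ≤ h0 := by positivity
  have hτ' : ((dst P).card : ℝ) ≤ (P.card : ℝ) ^ ((2 : ℝ) / 3) :=
    hτ.trans (Real.rpow_le_rpow_of_exponent_le hone (by linarith))
  have hE := hcount P hPn2 hτ' h0 hh0
  rw [← hKdef] at hE
  refine ⟨sixR P K h0 (fun _ _ => h0), ?_, ?_⟩
  · intro q hq
    exact rich_out (h0 := h0) (fun _ _ => le_rfl) hq
  · set B : ℝ := Cp * ((dst P).card : ℝ) ^ (1 + e) with hBdef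
    have hB0 : 0 ≤ B := by positivity
    have hplane : ∀ (u : V) (b : ℝ), u ≠ 0 →
        ((P.filter (fun x => u ⬝ᵥ x = b)).card : ℝ) ≤ B := by
      intro u b hu
      refine hpl P (dst P) ?_ u b hu
      intro a ha b hb
      rw [← sqd_dot]
      exact sqd_mem_dst ha hb
    have hEsub : ∀ a ∈ P, Ea P K h0 a ⊆ P := fun a _ => ea_sub P K h0 a
    refine hmain (V × V) (P ×ˢ P) (fun p => ((Lam P K h0 p.1 p.2).card : ℝ))
      ((G.six P sqd (Ea P K h0) (kp P K h0)).card : ℝ) _ ?_ ?_ ?_ ?_ ?_ ?_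
    · rw [Finset.card_product]
      push_cast
      rw [sq]
    · intro i hi
      refine ⟨Nat.cast_nonneg _, ?_⟩
      have h1 : (Lam P K h0 i.1 i.2).card ≤ P.card * P.card := by
        unfold Lam
        refine Finset.card_image_le.trans ((Finset.card_filter_le _ _).trans ?_)
        rw [Finset.card_product]
        exact Nat.mul_le_mul (Finset.card_le_card (ea_sub P K h0 _))
          (Finset.card_le_card (ea_sub P K h0 _))
      rw [sq]
      exact_mod_cast h1
    · have h1 := G.cs_labels P sqd (dst P) (Ea P K h0) (kp P K h0)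
        (fun a ha b hb c hc => sqd_mem_dst (hEsub a ha hb) (hEsub a ha hc))
      rw [Finset.sum_product]
      simp only [lam_card]
      have h2 : ((∑ a ∈ P, ∑ c ∈ P, G.MM sqd (Ea P K h0) a c ^ 2 : ℕ) : ℝ) ≤
          ((4 * ((dst P).card * (G.six P sqd (Ea P K h0) (kp P K h0)).card) : ℕ) : ℝ) := by
        exact_mod_cast h1
      push_cast at h2
      linarith
    · have h1 := G.sum_MM_lower P sqd (dst P) (Ea P K h0)
        (fun a ha b hb => sqd_mem_dst ha (hEsub a ha hb))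
      rw [Finset.sum_product]
      simp only [lam_card]
      have h2 : (((∑ a ∈ P, (Ea P K h0 a).card) ^ 2 : ℕ) : ℝ) ≤
          (((dst P).card * ∑ a ∈ P, ∑ c ∈ P, G.MM sqd (Ea P K h0) a c : ℕ) : ℝ) := by
        exact_mod_cast h1
      push_cast at h2
      have h3 : (P.card : ℝ) ^ 4 / 4 = ((P.card : ℝ) ^ 2 / 2) ^ 2 := by ring
      rw [h3]
      exact (pow_le_pow_left₀ (by positivity) hE 2).trans h2
    · have h1 := G.sum_MM_le_sq P sqd (Ea P K h0)
      rw [Finset.sum_product, Finset.sum_product]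
      simp only [lam_card]
      exact_mod_cast h1
    · have h1 := six_le P h0 (fun _ _ => h0) hK0
      refine h1.trans ?_
      rw [Finset.sum_product]
      gcongr with a ha c hc
      exact hfib _ _ _ _ _ _ _ _ _ hK1 hB0 hone hh00 (lam_hyp hK0 le_rfl hplane a c)
        (lam_lab le_rfl a c)

end Vale.Agent.P054.Y.GF
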