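import Vale.Agent.P054.Y.GF.Defs

/-! counting lemmas for bad triples (leaf GF-BT) -/

set_option linter.all false

namespace Vale.Agent.P054.Y.GF

open Finset Matrix

open scoped Classical in
theorem bt_card {α : Type*} (N : Finset α) (R : α → α → α → Prop) :
    (((N ×ˢ N ×ˢ N).filter (fun t => R t.1 t.2.1 t.2.2)).card : ℝ) =
      ∑ a ∈ N, ∑ b ∈ N, ((N.filter (fun c => R a b c)).card : ℝ) := by
  rw [Finset.card_filter, Finset.sum_product]
  push_cast
  refine Finset.sum_congr rfl fun a _ => ?_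
  rw [Finset.sum_product]
  refine Finset.sum_congr rfl fun b _ => ?_
  rw [Finset.card_filter]
  push_cast
  rfl

open scoped Classical in
/-- for all `a`, `b` at most `M` third entries -/
theorem bt_count3 {α : Type*} (N : Finset α) (R : α → α → α → Prop) {M : ℝ}
    (h : ∀ a ∈ N, ∀ b ∈ N, ((N.filter (fun c => R a b c)).card : ℝ) ≤ M) :
    (((N ×ˢ N ×ˢ N).filter (fun t => R t.1 t.2.1 t.2.2)).card : ℝ) ≤ (N.card : ℝ) ^ 2 * M := by
  rw [bt_card]
  calc ∑ a ∈ N, ∑ b ∈ N, ((N.filter (fun c => R a b c)).card : ℝ)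
      ≤ ∑ a ∈ N, ∑ b ∈ N, M := Finset.sum_le_sum fun a ha => Finset.sum_le_sum fun b hb => h a ha b hb
    _ = (N.card : ℝ) ^ 2 * M := by
      simp only [Finset.sum_const, nsmul_eq_mul]
      ring

open scoped Classical in
/-- for all `a`, `c` at most `M` middle entries -/
theorem bt_count2 {α : Type*} (N : Finset α) (R : α → α → α → Prop) {M : ℝ}
    (h : ∀ a ∈ N, ∀ c ∈ N, ((N.filter (fun b => R a b c)).card : ℝ) ≤ M) :
    (((N ×ˢ N ×ˢ N).filter (fun t => R t.1 t.2.1 t.2.2)).card : ℝ) ≤ (N.card : ℝ) ^ 2 * M := by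
  have h1 : (((N ×ˢ N ×ˢ N).filter (fun t => R t.1 t.2.1 t.2.2)).card : ℝ) =
      (((N ×ˢ N ×ˢ N).filter (fun t => R t.1 t.2.2 t.2.1)).card : ℝ) := by
    rw [bt_card, bt_card N (fun a b c => R a c b)]
    refine Finset.sum_congr rfl fun a _ => ?_
    have e1 : ∀ b, ((N.filter (fun c => R a b c)).card : ℝ) = ∑ c ∈ N, if R a b c then (1 : ℝ) else 0 := by
      intro b
      rw [Finset.card_filter]
      push_cast
      rfl
    have e2 : ∀ b, ((N.filter (fun c => R a c b)).card : ℝ) = ∑ c ∈ N, if R a c b then (1 : ℝ) else 0 := by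
      intro b
      rw [Finset.card_filter]
      push_cast
      rfl
    simp only [e1, e2]
    rw [Finset.sum_comm]
  rw [h1]
  exact bt_count3 N (fun a b c => R a c b) h

/-- version without decidability instances -/
theorem bt_c3 {α : Type*} (N : Finset α) (R : α → α → α → Prop) {M : ℝ}
    (h : ∀ a ∈ N, ∀ b ∈ N, ∀ F ⊆ N, (∀ c ∈ F, R a b c) → (F.card : ℝ) ≤ M)
    (G : Finset (α × α × α)) (hG : G ⊆ N ×ˢ N ×ˢ N) (hR : ∀ t ∈ G, R t.1 t.2.1 t.2.2) :
    (G.card : ℝ) ≤ (N.card : ℝ) ^ 2 * M := by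
  classical
  refine le_trans ?_ (bt_count3 N R (M := M) fun a ha b hb =>
    h a ha b hb _ (Finset.filter_subset _ _) fun c hc => (Finset.mem_filter.1 hc).2)
  exact_mod_cast Finset.card_le_card fun t ht => Finset.mem_filter.2 ⟨hG ht, hR t ht⟩

/-- version without decidability instances -/
theorem bt_c2 {α : Type*} (N : Finset α) (R : α → α → α → Prop) {M : ℝ}
    (h : ∀ a ∈ N, ∀ c ∈ N, ∀ F ⊆ N, (∀ b ∈ F, R a b c) → (F.card : ℝ) ≤ M)
    (G : Finset (α × α × α)) (hG : G ⊆ N ×ˢ N ×ˢ N) (hR : ∀ t ∈ G, R t.1 t.2.1 t.2.2) :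
    (G.card : ℝ) ≤ (N.card : ℝ) ^ 2 * M := by
  classical
  refine le_trans ?_ (bt_count2 N R (M := M) fun a ha b hb =>
    h a ha b hb _ (Finset.filter_subset _ _) fun c hc => (Finset.mem_filter.1 hc).2)
  exact_mod_cast Finset.card_le_card fun t ht => Finset.mem_filter.2 ⟨hG ht, hR t ht⟩

theorem bt_triple (a b c : V) : a ⬝ᵥ cr b c = cr a b ⬝ᵥ c := by
  simp [cr, dotProduct, Fin.sum_univ_three]
  ring

/-- a nonzero vector orthogonal to `a` -/
theorem bt_perp (a : V) : ∃ u : V, u ≠ 0 ∧ u ⬝ᵥ a = 0 := by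
  by_cases h : a 0 = 0 ∧ a 1 = 0
  · refine ⟨![1, 0, 0], ?_, ?_⟩
    · intro h0
      have := congrFun h0 0
      simp at this
    · simp [dotProduct, Fin.sum_univ_three, h.1]
  · refine ⟨![-(a 1), a 0, 0], ?_, ?_⟩
    · intro h0
      have h1 := congrFun h0 0
      have h2 := congrFun h0 1
      simp at h1 h2
      exact h ⟨h2, h1⟩
    · simp [dotProduct, Fin.sum_univ_three]
      ring

/-- if `cr a b = 0`, `a ≠ 0`, then `b` is orthogonal to everything orthogonal to `a` -/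
theorem bt_par {a b u : V} (ha : a ≠ 0) (h : cr a b = 0) (hu : u ⬝ᵥ a = 0) : u ⬝ᵥ b = 0 := by
  have h0 := congrFun h 0
  have h1 := congrFun h 1
  have h2 := congrFun h 2
  simp only [cr, Matrix.cons_val_zero, Matrix.cons_val_one, Matrix.cons_val, Pi.zero_apply] at h0 h1 h2
  have hu' : u 0 * a 0 + u 1 * a 1 + u 2 * a 2 = 0 := by
    simpa [dotProduct, Fin.sum_univ_three] using hu
  have hb : ∀ i, a i * (u 0 * b 0 + u 1 * b 1 + u 2 * b 2) = 0 := by
    intro i
    fin_cases i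
    · show a 0 * _ = 0
      linear_combination (b 0) * hu' - u 1 * (-h2) - u 2 * h1
    · show a 1 * _ = 0
      linear_combination (b 1) * hu' - u 0 * h2 + u 2 * h0
    · show a 2 * _ = 0
      linear_combination (b 2) * hu' + u 0 * h1 - u 1 * h0
  have : u 0 * b 0 + u 1 * b 1 + u 2 * b 2 = 0 := by
    by_contra hne
    apply ha
    ext i
    rcases mul_eq_zero.1 (hb i) with h | h
    · exact h
    · exact absurd h hne
  simpa [dotProduct, Fin.sum_univ_three] using this

end Vale.Agent.P054.Y.GF
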