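import Vale.Agent.P054.Y.GF.Chart
import Vale.Agent.P054.Y.G.CL

/-! Leaf GF-Good (`exists_A` is an adapter of 797's `G/CL.lean` good_triple, `B = (Aᵀ)⁻¹`).  Triples of lines with independent `x`'s, independent `y`'s, pairwise skew.
* `exists_A`: `A = Y X⁻¹` (columns `y_i`, `x_i`), `B = (Aᵀ)⁻¹`.  In the basis `x_i` the form
  `1 - Aᵀ A` has Gram matrix with zero diagonal (`|x_i| = |y_i|`) and off diagonal entries
  `c_ij = x_i·x_j - y_i·y_j ≠ 0`: determinant `2 c_12 c_13 c_23 = det(X)^2 det(1 - Aᵀ A)`.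
* `on_qA`: let `q = (u, v)`, `u·x_i = v·y_i`, `w` on the line of `q`: `cr w (u+v) = v - u`.  For all `i`
  `(u + v) ⬝ᵥ ((x_i - y_i) + cr w (x_i + y_i)) = 2 (u·x_i - v·y_i) = 0`; since the `x_i` are a basis and
  `y_i = A x_i` the row vector `(u+v)ᵀ ((1-A) + skew w (1+A))` is zero and `u + v ≠ 0`: determinant 0.
* `qA_degree`: determinant of a 3x3 matrix with entries of degree ≤ 1. -/

set_option linter.all false

namespace Vale.Agent.P054.Y.GF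

open Finset Matrix MvPolynomial
open Vale.Agent.P041.SE

/-- good triples -/
def GoodT (p1 p2 p3 : V × V) : Prop :=
  p1.1 ⬝ᵥ cr p2.1 p3.1 ≠ 0 ∧ p1.2 ⬝ᵥ cr p2.2 p3.2 ≠ 0 ∧ p1.1 ⬝ᵥ p2.1 ≠ p1.2 ⬝ᵥ p2.2 ∧
    p1.1 ⬝ᵥ p3.1 ≠ p1.2 ⬝ᵥ p3.2 ∧ p2.1 ⬝ᵥ p3.1 ≠ p2.2 ⬝ᵥ p3.2

theorem good_li {a b c : V} (h : a ⬝ᵥ cr b c ≠ 0) : LinearIndependent ℝ ![a, b, c] := by
  have hdet : (Matrix.of ![a, b, c]).det = a ⬝ᵥ cr b c := by
    rw [Matrix.det_fin_three]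
    simp [cr, dotProduct, Fin.sum_univ_three]
    ring
  have hu : IsUnit (Matrix.of ![a, b, c]) := by
    rw [Matrix.isUnit_iff_isUnit_det, hdet]
    exact h.isUnit
  exact Matrix.linearIndependent_rows_iff_isUnit.2 hu

theorem exists_A {p1 p2 p3 : V × V} (h1 : IsPair p1) (h2 : IsPair p2) (h3 : IsPair p3)
    (h : GoodT p1 p2 p3) : ∃ A B : M3, Aᵀ * B = 1 ∧ (1 - Aᵀ * A).det ≠ 0 ∧
      A *ᵥ p1.1 = p1.2 ∧ A *ᵥ p2.1 = p2.2 ∧ A *ᵥ p3.1 = p3.2 := by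
  obtain ⟨g1, g2, g3, g4, g5⟩ := h
  have g3' : p2.1 ⬝ᵥ p1.1 ≠ p2.2 ⬝ᵥ p1.2 := by
    rw [dotProduct_comm p2.1, dotProduct_comm p2.2]; exact g3
  have g4' : p3.1 ⬝ᵥ p1.1 ≠ p3.2 ⬝ᵥ p1.2 := by
    rw [dotProduct_comm p3.1, dotProduct_comm p3.2]; exact g4
  have g5' : p3.1 ⬝ᵥ p2.1 ≠ p3.2 ⬝ᵥ p2.2 := by
    rw [dotProduct_comm p3.1, dotProduct_comm p3.2]; exact g5
  obtain ⟨A, hA, hA2, hA3, -⟩ := G.good_triple ![p1.1, p2.1, p3.1] ![p1.2, p2.2, p3.2]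
    (good_li g1) (good_li g2)
    (by intro i; fin_cases i; exacts [h1.1, h2.1, h3.1])
    (by
      intro i j hij
      fin_cases i <;> fin_cases j <;>
        first
        | exact absurd rfl hij
        | exact g3
        | exact g4
        | exact g5
        | exact g3'
        | exact g4'
        | exact g5')
  refine ⟨A, (Aᵀ)⁻¹, ?_, hA2, hA 0, hA 1, hA 2⟩
  exact Matrix.mul_nonsing_inv _ (by rw [det_transpose]; exact hA3.isUnit)

theorem on_qA (A : M3) {p1 p2 p3 q : V × V} (hq : IsPair q) (hc : q.1 2 + q.2 2 ≠ 0)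
    (hd : p1.1 ⬝ᵥ cr p2.1 p3.1 ≠ 0) (e1 : A *ᵥ p1.1 = p1.2) (e2 : A *ᵥ p2.1 = p2.2)
    (e3 : A *ᵥ p3.1 = p3.2) (m1 : q.1 ⬝ᵥ p1.1 = q.2 ⬝ᵥ p1.2) (m2 : q.1 ⬝ᵥ p2.1 = q.2 ⬝ᵥ p2.2)
    (m3 : q.1 ⬝ᵥ p3.1 = q.2 ⬝ᵥ p3.2) : On (qA A) (ln q) := by
  intro t
  rw [eval_qA]
  obtain ⟨u, v⟩ := q
  have hq1 : u ⬝ᵥ u = v ⬝ᵥ v := hq.1
  change u 2 + v 2 ≠ 0 at hc
  change u ⬝ᵥ p1.1 = v ⬝ᵥ p1.2 at m1
  change u ⬝ᵥ p2.1 = v ⬝ᵥ p2.2 at m2
  change u ⬝ᵥ p3.1 = v ⬝ᵥ p3.2 at m3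
  generalize hW : gpt (ln (u, v)) t = W
  have hW2 : W 2 = t := by rw [← hW]; rfl
  have hW0 : W 0 * (u 2 + v 2) = -(v 1 - u 1) + (u 0 + v 0) * t := by
    rw [← hW]
    simp only [gpt, ln, Matrix.cons_val_zero, Matrix.cons_val_one]
    field_simp
  have hW1 : W 1 * (u 2 + v 2) = (v 0 - u 0) + (u 1 + v 1) * t := by
    rw [← hW]
    simp only [gpt, ln, Matrix.cons_val_zero, Matrix.cons_val_one]
    field_simp
  have hsq : u 0 * u 0 + u 1 * u 1 + u 2 * u 2 = v 0 * v 0 + v 1 * v 1 + v 2 * v 2 := by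
    simpa [dotProduct, Fin.sum_univ_three] using hq1
  -- `cr W (u + v) = v - u`
  have c0 : W 1 * (u 2 + v 2) - W 2 * (u 1 + v 1) = v 0 - u 0 := by rw [hW1, hW2]; ring
  have c1 : W 2 * (u 0 + v 0) - W 0 * (u 2 + v 2) = v 1 - u 1 := by rw [hW0, hW2]; ring
  have c2 : W 0 * (u 1 + v 1) - W 1 * (u 0 + v 0) = v 2 - u 2 := by
    apply mul_right_cancel₀ hc
    linear_combination (u 1 + v 1) * hW0 - (u 0 + v 0) * hW1 + hsq
  have key : ∀ x y : V, A *ᵥ x = y → u ⬝ᵥ x = v ⬝ᵥ y →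
      ((u + v) ᵥ* ((1 - A) + skew W * (1 + A))) ⬝ᵥ x = 0 := by
    intro x y hxy hm
    rw [← dotProduct_mulVec, add_mulVec, sub_mulVec, one_mulVec, ← mulVec_mulVec, add_mulVec,
      one_mulVec, hxy]
    have hm' : u 0 * x 0 + u 1 * x 1 + u 2 * x 2 = v 0 * y 0 + v 1 * y 1 + v 2 * y 2 := by
      simpa [dotProduct, Fin.sum_univ_three] using hm
    simp [skew, dotProduct, Matrix.mulVec, Fin.sum_univ_three]
    linear_combination (-(x 0 + y 0)) * c0 - (x 1 + y 1) * c1 - (x 2 + y 2) * c2 + 2 * hm'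
  have hr : (u + v) ᵥ* ((1 - A) + skew W * (1 + A)) = 0 := by
    have hdet : (Matrix.of ![p1.1, p2.1, p3.1]).det ≠ 0 := by
      have : (Matrix.of ![p1.1, p2.1, p3.1]).det = p1.1 ⬝ᵥ cr p2.1 p3.1 := by
        rw [Matrix.det_fin_three]
        simp [cr, dotProduct, Fin.sum_univ_three]
        ring
      rw [this]
      exact hd
    apply Matrix.eq_zero_of_mulVec_eq_zero hdet
    ext i
    have k1 := key _ _ e1 m1
    have k2 := key _ _ e2 m2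
    have k3 := key _ _ e3 m3
    rw [dotProduct_comm] at k1 k2 k3
    fin_cases i
    · exact k1
    · exact k2
    · exact k3
  apply Matrix.exists_vecMul_eq_zero_iff.1
  refine ⟨u + v, ?_, hr⟩
  intro h0
  exact hc (congrFun h0 2)

theorem good_det_deg (N : Matrix (Fin 3) (Fin 3) (MvPolynomial (Fin 3) ℝ))
    (h : ∀ i j, (N i j).totalDegree ≤ 1) : N.det.totalDegree ≤ 3 := by
  have h3 : ∀ i j k l m n, (N i j * N k l * N m n).totalDegree ≤ 3 := by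
    intro i j k l m n
    refine (totalDegree_mul _ _).trans ?_
    have h1 := totalDegree_mul (N i j) (N k l)
    have := h i j
    have := h k l
    have := h m n
    omega
  rw [Matrix.det_fin_three]
  refine (totalDegree_sub _ _).trans (max_le ?_ (h3 _ _ _ _ _ _))
  refine (totalDegree_add _ _).trans (max_le ?_ (h3 _ _ _ _ _ _))
  refine (totalDegree_add _ _).trans (max_le ?_ (h3 _ _ _ _ _ _))
  refine (totalDegree_sub _ _).trans (max_le ?_ (h3 _ _ _ _ _ _))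
  exact (totalDegree_sub _ _).trans (max_le (h3 _ _ _ _ _ _) (h3 _ _ _ _ _ _))

theorem qA_degree (A : M3) : (qA A).totalDegree ≤ 3 := by
  unfold qA
  apply good_det_deg
  intro i j
  have hS : ∀ i k : Fin 3, ((!![0, -(X 2), X 1; X 2, 0, -(X 0); -(X 1), X 0, 0] :
      Matrix (Fin 3) (Fin 3) (MvPolynomial (Fin 3) ℝ)) i k).totalDegree ≤ 1 := by
    intro i k
    fin_cases i <;> fin_cases k <;> simp [totalDegree_neg, totalDegree_X]
  have hT : ∀ k, ((!![0, -(X 2), X 1; X 2, 0, -(X 0); -(X 1), X 0, 0] :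
      Matrix (Fin 3) (Fin 3) (MvPolynomial (Fin 3) ℝ)) i k *
      ((1 + A).map (C : ℝ → MvPolynomial (Fin 3) ℝ)) k j).totalDegree ≤ 1 := by
    intro k
    refine (totalDegree_mul _ _).trans ?_
    have h1 := hS i k
    have h2 : (((1 + A).map (C : ℝ → MvPolynomial (Fin 3) ℝ)) k j).totalDegree = 0 := by
      rw [Matrix.map_apply]
      exact totalDegree_C _
    omega
  rw [Matrix.add_apply, Matrix.mul_apply, Fin.sum_univ_three]
  refine (totalDegree_add _ _).trans (max_le ?_ ?_)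
  · rw [Matrix.map_apply, totalDegree_C]
    exact Nat.zero_le _
  · refine (totalDegree_add _ _).trans (max_le ?_ (hT 2))
    exact (totalDegree_add _ _).trans (max_le (hT 0) (hT 1))

end Vale.Agent.P054.Y.GF
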