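import Vale.Agent.P054.Y.GF.Chart
import Vale.Agent.P054.Y.G.VB

/-! Leaf G-VB (fields).  `fld 1 x w = x + cr w x + (w·x) w` is the direction at `w` of the line of the
pair `(x, y)` through `w` (it is `(1 + |w|^2)/2 (x + y)`), `fld (-1) y w = y - cr w y + (w·y) w` the same
in terms of `y`.  The case of first components is `G.lines_of_dir` and `G.not_both`; the case of second
components follows by the symmetry `w ↦ -w`, `(x, y) ↦ (y, x)`. -/

set_option linter.all false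

namespace Vale.Agent.P054.Y.GF

open Finset Matrix MvPolynomial
open Vale.Agent.P041.SE

theorem ln_eq_fl (p : V × V) : ln p = G.fl p.1 p.2 := rfl

theorem par_of_cr {x u : V} (hx : x ≠ 0) (h : cr x u = 0) : ∃ μ : ℝ, u = μ • x := by
  have h0 : x 1 * u 2 - x 2 * u 1 = 0 := congrFun h 0
  have h1 : x 2 * u 0 - x 0 * u 2 = 0 := congrFun h 1
  have h2 : x 0 * u 1 - x 1 * u 0 = 0 := congrFun h 2
  set N : ℝ := x 0 ^ 2 + x 1 ^ 2 + x 2 ^ 2 with hN
  have hN0 : N ≠ 0 := by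
    intro h
    apply hx
    have e0 : x 0 ^ 2 = 0 := by nlinarith [sq_nonneg (x 0), sq_nonneg (x 1), sq_nonneg (x 2)]
    have e1 : x 1 ^ 2 = 0 := by nlinarith [sq_nonneg (x 0), sq_nonneg (x 1), sq_nonneg (x 2)]
    have e2 : x 2 ^ 2 = 0 := by nlinarith [sq_nonneg (x 0), sq_nonneg (x 1), sq_nonneg (x 2)]
    funext i
    fin_cases i
    · exact pow_eq_zero_iff (two_ne_zero) |>.1 e0
    · exact pow_eq_zero_iff (two_ne_zero) |>.1 e1
    · exact pow_eq_zero_iff (two_ne_zero) |>.1 e2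
  refine ⟨(x 0 * u 0 + x 1 * u 1 + x 2 * u 2) / N, ?_⟩
  funext i
  fin_cases i
  · show u 0 = (x 0 * u 0 + x 1 * u 1 + x 2 * u 2) / N * x 0
    rw [div_mul_eq_mul_div, eq_div_iff hN0, hN]
    linear_combination x 2 * h1 - x 1 * h2
  · show u 1 = (x 0 * u 0 + x 1 * u 1 + x 2 * u 2) / N * x 1
    rw [div_mul_eq_mul_div, eq_div_iff hN0, hN]
    linear_combination x 0 * h2 - x 2 * h0
  · show u 2 = (x 0 * u 0 + x 1 * u 1 + x 2 * u 2) / N * x 2
    rw [div_mul_eq_mul_div, eq_div_iff hN0, hN]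
    linear_combination x 1 * h0 - x 0 * h1

theorem lines_par (φ : MvPolynomial (Fin 3) ℝ) (hφ : Irreducible φ) (D : ℕ) (hD : φ.totalDegree ≤ D)
    (x : V) (hx : x ≠ 0) (hW : ¬ φ ∣ G.W x φ) (F : Finset Ln)
    (hF : ∀ l ∈ F, On φ l ∧ ∃ p : V × V, IsPair p ∧ p.1 2 + p.2 2 ≠ 0 ∧ cr x p.1 = 0 ∧ ln p = l) :
    F.card ≤ D * (D + 1) := by
  refine (G.lines_of_dir hφ x hW F ?_).trans (Nat.mul_le_mul hD (Nat.add_le_add_right hD 1))
  intro l hl
  obtain ⟨hon, p, hp, hs, hc, hlp⟩ := hF l hl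
  obtain ⟨μ, hμ⟩ := par_of_cr hx hc
  have hμ0 : μ ≠ 0 := by
    rintro rfl
    apply hp.2
    rw [hμ, zero_smul]
  have e : ∀ i, p.1 i = μ * x i := fun i => by rw [hμ]; rfl
  have e2 : ∀ i, p.2 i = μ * (μ⁻¹ • p.2) i := fun i => by
    show p.2 i = μ * (μ⁻¹ * p.2 i)
    field_simp
  have hs' : x 2 + (μ⁻¹ • p.2) 2 ≠ 0 := by
    intro h0
    apply hs
    rw [e 2, e2 2, ← mul_add, h0, mul_zero]
  refine ⟨μ⁻¹ • p.2, ⟨?_, hs'⟩, ?_, hon⟩
  · have h1 := hp.1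
    simp only [dotProduct, Fin.sum_univ_three] at h1
    rw [e 0, e 1, e 2, e2 0, e2 1, e2 2] at h1
    apply mul_left_cancel₀ (mul_ne_zero hμ0 hμ0)
    linear_combination h1
  · rw [← hlp, ln_eq_fl]
    have hm : ∀ a b : ℝ, b ≠ 0 → (μ * a) / (μ * b) = a / b := fun a b hb =>
      mul_div_mul_left a b hμ0
    unfold G.fl
    refine Prod.ext ?_ ?_
    · funext i
      fin_cases i
      · show -(p.2 1 - p.1 1) / (p.1 2 + p.2 2) = _
        rw [e 1, e 2, e2 1, e2 2]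
        show _ = -((μ⁻¹ • p.2) 1 - x 1) / (x 2 + (μ⁻¹ • p.2) 2)
        rw [← hm _ _ hs']
        ring
      · show (p.2 0 - p.1 0) / (p.1 2 + p.2 2) = _
        rw [e 0, e 2, e2 0, e2 2]
        show _ = ((μ⁻¹ • p.2) 0 - x 0) / (x 2 + (μ⁻¹ • p.2) 2)
        rw [← hm _ _ hs']
        ring
    · funext i
      fin_cases i
      · show (p.1 0 + p.2 0) / (p.1 2 + p.2 2) = _
        rw [e 0, e 2, e2 0, e2 2]
        show _ = (x 0 + (μ⁻¹ • p.2) 0) / (x 2 + (μ⁻¹ • p.2) 2)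
        rw [← hm _ _ hs']
        ring
      · show (p.1 1 + p.2 1) / (p.1 2 + p.2 2) = _
        rw [e 1, e 2, e2 1, e2 2]
        show _ = (x 1 + (μ⁻¹ • p.2) 1) / (x 2 + (μ⁻¹ • p.2) 2)
        rw [← hm _ _ hs']
        ring

theorem cr_ne_right {z x : V} (h : cr z x ≠ 0) : x ≠ 0 := by
  rintro rfl
  apply h
  funext i
  fin_cases i <;> simp [cr]

theorem vb_fst (φ : MvPolynomial (Fin 3) ℝ) (hφ : Irreducible φ) (D : ℕ) (hD : φ.totalDegree ≤ D) :
    ∃ z : V, z ≠ 0 ∧ ∀ x : V, cr z x ≠ 0 → ∀ F : Finset Ln,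
      (∀ l ∈ F, On φ l ∧ ∃ p : V × V, IsPair p ∧ p.1 2 + p.2 2 ≠ 0 ∧ cr x p.1 = 0 ∧ ln p = l) →
      F.card ≤ D * (D + 1) := by
  by_cases hz : ∃ z : V, z ≠ 0 ∧ φ ∣ G.W z φ
  · obtain ⟨z, hz0, hz⟩ := hz
    refine ⟨z, hz0, fun x hx F hF => ?_⟩
    rcases F.eq_empty_or_nonempty with h0 | ⟨l, hl⟩
    · rw [h0]; simp
    refine lines_par φ hφ D hD x (cr_ne_right hx) ?_ F hF
    intro hd
    exact G.not_both hφ (hF l hl).1 hx hz hd
  · refine ⟨![1, 0, 0], ?_, fun x hx F hF => ?_⟩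
    · intro h
      have := congrFun h 0
      simp at this
    · exact lines_par φ hφ D hD x (cr_ne_right hx) (fun hd => hz ⟨x, cr_ne_right hx, hd⟩) F hF

/-- the substitution `w ↦ -w` -/
noncomputable def ng : MvPolynomial (Fin 3) ℝ →ₐ[ℝ] MvPolynomial (Fin 3) ℝ := aeval (fun i => -X i)

theorem ng_ng (φ : MvPolynomial (Fin 3) ℝ) : ng (ng φ) = φ := by
  have h : ng.comp ng = AlgHom.id ℝ (MvPolynomial (Fin 3) ℝ) := by
    ext i
    simp [ng]
  exact congrArg (fun f : MvPolynomial (Fin 3) ℝ →ₐ[ℝ] MvPolynomial (Fin 3) ℝ => f φ) h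

theorem ng_irred {φ : MvPolynomial (Fin 3) ℝ} (h : Irreducible φ) : Irreducible (ng φ) := by
  have e : MvPolynomial (Fin 3) ℝ ≃ₐ[ℝ] MvPolynomial (Fin 3) ℝ :=
    AlgEquiv.ofAlgHom ng ng (AlgHom.ext ng_ng) (AlgHom.ext ng_ng)
  exact (MulEquiv.irreducible_iff (AlgEquiv.ofAlgHom ng ng (AlgHom.ext ng_ng) (AlgHom.ext ng_ng))).2 h

theorem ng_degree (φ : MvPolynomial (Fin 3) ℝ) : (ng φ).totalDegree ≤ φ.totalDegree := by
  classical
  conv_lhs => rw [← φ.support_sum_monomial_coeff]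
  rw [map_sum]
  refine totalDegree_finsetSum_le (fun s hs => ?_)
  have h1 := le_totalDegree hs
  unfold ng
  rw [aeval_monomial]
  refine (totalDegree_mul _ _).trans ?_
  have h2 : (algebraMap ℝ (MvPolynomial (Fin 3) ℝ) (coeff s φ)).totalDegree = 0 := totalDegree_C _
  rw [h2, zero_add]
  rw [Finsupp.prod_fintype _ _ (fun _ => pow_zero _)]
  rw [Finsupp.sum_fintype _ _ (fun _ => rfl)] at h1
  refine (totalDegree_finset_prod _ _).trans (le_trans (Finset.sum_le_sum (fun i _ => ?_)) h1)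
  refine (totalDegree_pow _ _).trans ?_
  rw [totalDegree_neg, totalDegree_X, mul_one]

theorem eval_ng (φ : MvPolynomial (Fin 3) ℝ) (w : V) : eval w (ng φ) = eval (-w) φ := by
  have h : (aeval w : MvPolynomial (Fin 3) ℝ →ₐ[ℝ] ℝ).comp ng = aeval (-w) := by
    ext i
    simp [ng]
  have h2 := congrArg (fun f : MvPolynomial (Fin 3) ℝ →ₐ[ℝ] ℝ => f φ) h
  simpa [MvPolynomial.aeval_eq_eval] using h2

theorem vb_snd (φ : MvPolynomial (Fin 3) ℝ) (hφ : Irreducible φ) (D : ℕ) (hD : φ.totalDegree ≤ D) :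
    ∃ z : V, z ≠ 0 ∧ ∀ x : V, cr z x ≠ 0 → ∀ F : Finset Ln,
      (∀ l ∈ F, On φ l ∧ ∃ p : V × V, IsPair p ∧ p.1 2 + p.2 2 ≠ 0 ∧ cr x p.2 = 0 ∧ ln p = l) →
      F.card ≤ D * (D + 1) := by
  classical
  obtain ⟨z, hz, H⟩ := vb_fst (ng φ) (ng_irred hφ) D ((ng_degree φ).trans hD)
  refine ⟨z, hz, fun x hx F hF => ?_⟩
  have hinj : Function.Injective (fun l : Ln => ((-l.1, l.2) : Ln)) := by
    intro l l' h
    have h1 := congrArg Prod.fst h
    have h2 := congrArg Prod.snd h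
    exact Prod.ext (neg_injective h1) h2
  rw [← Finset.card_image_of_injective F hinj]
  apply H x hx
  intro l hl
  obtain ⟨l0, hl0, rfl⟩ := Finset.mem_image.1 hl
  obtain ⟨hon, p, hp, hs, hc, hlp⟩ := hF l0 hl0
  refine ⟨?_, (p.2, p.1), ⟨hp.1.symm, ?_⟩, ?_, hc, ?_⟩
  · intro w
    rw [eval_ng]
    have e : -gpt ((-l0.1, l0.2) : Ln) w = gpt l0 (-w) := by
      funext i
      fin_cases i <;> simp [gpt] <;> ring
    rw [e]
    exact hon (-w)
  · intro h0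
    apply hp.2
    have h1 := hp.1
    simp only at h0
    rw [h0] at h1
    simp only [dotProduct, Fin.sum_univ_three, Pi.zero_apply, mul_zero, add_zero] at h1
    funext i
    fin_cases i
    · show p.1 0 = 0
      nlinarith [mul_self_nonneg (p.1 0), mul_self_nonneg (p.1 1), mul_self_nonneg (p.1 2)]
    · show p.1 1 = 0
      nlinarith [mul_self_nonneg (p.1 0), mul_self_nonneg (p.1 1), mul_self_nonneg (p.1 2)]
    · show p.1 2 = 0
      nlinarith [mul_self_nonneg (p.1 0), mul_self_nonneg (p.1 1), mul_self_nonneg (p.1 2)]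
  · show p.2 2 + p.1 2 ≠ 0
    rw [add_comm]
    exact hs
  · rw [← hlp]
    refine Prod.ext ?_ ?_
    · funext i
      fin_cases i
      · show -(p.1 1 - p.2 1) / (p.2 2 + p.1 2) = -(-(p.2 1 - p.1 1) / (p.1 2 + p.2 2))
        rw [add_comm (p.2 2)]
        ring
      · show (p.1 0 - p.2 0) / (p.2 2 + p.1 2) = -((p.2 0 - p.1 0) / (p.1 2 + p.2 2))
        rw [add_comm (p.2 2)]
        ring
    · funext i
      fin_cases i
      · show (p.2 0 + p.1 0) / (p.2 2 + p.1 2) = (p.1 0 + p.2 0) / (p.1 2 + p.2 2)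
        rw [add_comm (p.2 2), add_comm (p.2 0)]
      · show (p.2 1 + p.1 1) / (p.2 2 + p.1 2) = (p.1 1 + p.2 1) / (p.1 2 + p.2 2)
        rw [add_comm (p.2 2), add_comm (p.2 1)]

end Vale.Agent.P054.Y.GF
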