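import Vale.Agent.P054.Y.GF.MTDefs
import Vale.Agent.P054.Y.GF.VB

/-! Leaf GF-BT (bad triples).  `S = Λ.image ln`, `φ` irreducible, `2 ≤ deg φ ≤ D`.
`plane_snd`: the same with `vb_snd`, `planeY`, `lineY`, `planeX`.
(see PlaneFst.lean) -/

set_option linter.all false

namespace Vale.Agent.P054.Y.GF

open Finset Matrix MvPolynomial
open Vale.Agent.P041.SE

theorem plane_snd {Λ : Finset (V × V)} {X Y : Finset V} {n B K : ℝ} (hyp : Hyp Λ X Y n B K)
    (hc : InChart Λ) (hK : 0 ≤ K) (hB : 0 ≤ B) {φ : MvPolynomial (Fin 3) ℝ} (hφ : Irreducible φ) {D : ℕ}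
    (hD : φ.totalDegree ≤ D) (p' : V × V) (hp' : p'.1 ≠ 0) (u : V) (hu : u ≠ 0) (F : Finset Ln)
    (hF : ∀ l ∈ F, On φ l ∧ ∃ p ∈ Λ, ln p = l ∧ u ⬝ᵥ p.2 = 0 ∧ p.1 ⬝ᵥ p'.1 = p.2 ⬝ᵥ p'.2) :
    (F.card : ℝ) ≤ (D * (D + 1) + K) * B := by
  classical
  obtain ⟨z, hz, hvb⟩ := vb_snd φ hφ D hD
  have hP : ∀ l ∈ F, ∃ p ∈ Λ, ln p = l ∧ u ⬝ᵥ p.2 = 0 ∧ p.1 ⬝ᵥ p'.1 = p.2 ⬝ᵥ p'.2 :=
    fun l hl => (hF l hl).2
  choose! P hPΛ hPln hPu hPp using hP
  set T := F.image (fun l => (P l).2) with hT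
  have hTmem : ∀ y ∈ T, y ∈ Y ∧ u ⬝ᵥ y = 0 := by
    intro y hy
    obtain ⟨l, hl, rfl⟩ := Finset.mem_image.1 hy
    exact ⟨hyp.memY _ (hPΛ l hl), hPu l hl⟩
  have hTB : (T.card : ℝ) ≤ B :=
    hyp.planeY u 0 hu T (fun y hy => (hTmem y hy).1) (fun y hy => (hTmem y hy).2)
  have hT0 : ((T.filter (fun y => cr z y = 0)).card : ℝ) ≤ K :=
    hyp.lineY z hz _ (fun y hy => (hTmem y (Finset.mem_filter.1 hy).1).1)
      (fun y hy => (Finset.mem_filter.1 hy).2)
  have hfib : ∀ y ∈ T, ((F.filter (fun l => (P l).2 = y)).card : ℝ) ≤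
      (D : ℝ) * (D + 1) + (if cr z y = 0 then B else 0) := by
    intro y hy
    by_cases hzy : cr z y = 0
    · rw [if_pos hzy]
      have hinj : Set.InjOn (fun l => (P l).1) (F.filter (fun l => (P l).2 = y) : Finset Ln) := by
        intro l hl l' hl' h
        have h1 := Finset.mem_filter.1 (Finset.mem_coe.1 hl)
        have h2 := Finset.mem_filter.1 (Finset.mem_coe.1 hl')
        have h3 : P l = P l' := Prod.ext h (h1.2.trans h2.2.symm)
        rw [← hPln l h1.1, ← hPln l' h2.1, h3]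
      have h1 := hyp.planeX p'.1 (y ⬝ᵥ p'.2) hp'
        ((F.filter (fun l => (P l).2 = y)).image (fun l => (P l).1))
        (by
          intro x hx
          obtain ⟨l, hl, rfl⟩ := Finset.mem_image.1 hx
          exact hyp.memX _ (hPΛ l (Finset.mem_filter.1 hl).1))
        (by
          intro x hx
          obtain ⟨l, hl, rfl⟩ := Finset.mem_image.1 hx
          have h2 := Finset.mem_filter.1 hl
          rw [dotProduct_comm, hPp l h2.1, h2.2])
      rw [Finset.card_image_of_injOn hinj] at h1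
      have h3 : (0 : ℝ) ≤ (D : ℝ) * (D + 1) := by positivity
      linarith
    · rw [if_neg hzy, add_zero]
      have h1 := hvb y hzy (F.filter (fun l => (P l).2 = y)) (by
        intro l hl
        have h2 := Finset.mem_filter.1 hl
        refine ⟨(hF l h2.1).1, P l, hyp.pair _ (hPΛ l h2.1), hc.1 _ (hPΛ l h2.1), ?_, hPln l h2.1⟩
        rw [h2.2]
        ext i
        fin_cases i <;> simp [cr] <;> ring)
      have h2 : ((F.filter (fun l => (P l).2 = y)).card : ℝ) ≤ ((D * (D + 1) : ℕ) : ℝ) := by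
        exact_mod_cast h1
      push_cast at h2
      exact h2
  have hcard : (F.card : ℝ) = ∑ y ∈ T, ((F.filter (fun l => (P l).2 = y)).card : ℝ) := by
    have h1 := Finset.card_eq_sum_card_image (fun l => (P l).2) F
    rw [h1]
    push_cast
    rfl
  rw [hcard]
  have hdd : (0 : ℝ) ≤ (D : ℝ) * (D + 1) := by positivity
  calc ∑ y ∈ T, ((F.filter (fun l => (P l).2 = y)).card : ℝ)
      ≤ ∑ y ∈ T, ((D : ℝ) * (D + 1) + (if cr z y = 0 then B else 0)) := Finset.sum_le_sum hfib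
    _ = T.card * ((D : ℝ) * (D + 1)) + (T.filter (fun y => cr z y = 0)).card * B := by
        rw [Finset.sum_add_distrib, Finset.sum_const, nsmul_eq_mul, ← Finset.sum_filter,
          Finset.sum_const, nsmul_eq_mul]
    _ ≤ B * ((D : ℝ) * (D + 1)) + K * B :=
        add_le_add (mul_le_mul_of_nonneg_right hTB hdd) (mul_le_mul_of_nonneg_right hT0 hB)
    _ = (D * (D + 1) + K) * B := by ring

end Vale.Agent.P054.Y.GF
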