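import Vale.Agent.P054.Y.GF.MTDefs

/-! Leaf GF-BT (bad triples).  `S = Λ.image ln`, `φ` irreducible, `2 ≤ deg φ ≤ D`.
`skew_count`: let `w0` be the point of `l1 ∩ l'` (multiplicity ≤ v).  A line `l ∈ F` with
  `x1·x = y1·y` is: equal to `l1` (if `cr x1 x = 0`, `ln_eq_of_par`), or meets `l1` (`ln_meet`, `InChart`).
  If `l` contains `w0`: at most `v` lines.  Otherwise `l` meets `l1` and `l'` in two different points, so it lies
  in the plane spanned by `l1, l'`; this plane is the zero set of a polynomial `ψ` of degree ≤ 1 with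
  `¬ φ ∣ ψ` (`ψ ≠ 0`, `deg φ ≥ 2`), and `graph_bezout` gives at most `D` lines. -/

set_option linter.all false

namespace Vale.Agent.P054.Y.GF

open Finset Matrix MvPolynomial
open Vale.Agent.P041.SE

/-- two different graph lines meet in at most one height -/
theorem sk_unique {l l' : Ln} (hne : l ≠ l') {t s : ℝ} (h1 : gpt l t = gpt l' t)
    (h2 : gpt l s = gpt l' s) : t = s := by
  by_contra hts
  apply hne
  have hts' : t - s ≠ 0 := sub_ne_zero.2 hts
  have a0 := congrFun h1 0
  have a1 := congrFun h1 1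
  have b0 := congrFun h2 0
  have b1 := congrFun h2 1
  simp only [gpt, Matrix.cons_val] at a0 a1 b0 b1
  have c0 : l.2 0 = l'.2 0 := by
    have : (t - s) * (l.2 0 - l'.2 0) = 0 := by linear_combination a0 - b0
    rcases mul_eq_zero.1 this with h | h
    · exact absurd h hts'
    · linarith
  have c1 : l.2 1 = l'.2 1 := by
    have : (t - s) * (l.2 1 - l'.2 1) = 0 := by linear_combination a1 - b1
    rcases mul_eq_zero.1 this with h | h
    · exact absurd h hts'
    · linarith
  rw [c0] at a0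
  rw [c1] at a1
  refine Prod.ext ?_ ?_
  · funext i
    fin_cases i
    · simpa using a0
    · simpa using a1
  · funext i
    fin_cases i
    · simpa using c0
    · simpa using c1

/-- the plane through `l` and the direction of `l'` -/
noncomputable def skψ (l l' : Ln) (w : V) : MvPolynomial (Fin 3) ℝ :=
  C (l.2 1 - l'.2 1) * (X 0 - C (w 0)) + C (l'.2 0 - l.2 0) * (X 1 - C (w 1)) +
    C (l.2 0 * l'.2 1 - l.2 1 * l'.2 0) * (X 2 - C (w 2))

theorem skψ_eval (l l' : Ln) (w z : V) : eval z (skψ l l' w) =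
    (l.2 1 - l'.2 1) * (z 0 - w 0) + (l'.2 0 - l.2 0) * (z 1 - w 1) +
      (l.2 0 * l'.2 1 - l.2 1 * l'.2 0) * (z 2 - w 2) := by
  simp [skψ]

theorem skψ_deg (l l' : Ln) (w : V) : (skψ l l' w).totalDegree ≤ 1 := by
  have h : ∀ (r s : ℝ) (i : Fin 3), (C r * (X i - C s) : MvPolynomial (Fin 3) ℝ).totalDegree ≤ 1 := by
    intro r s i
    refine (totalDegree_mul _ _).trans ?_
    rw [totalDegree_C, zero_add]
    refine (totalDegree_sub _ _).trans ?_
    simp
  unfold skψ
  refine (totalDegree_add _ _).trans (max_le ?_ (h _ _ _))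
  exact (totalDegree_add _ _).trans (max_le (h _ _ _) (h _ _ _))

theorem skψ_ne {l l' : Ln} (hne : l ≠ l') {t : ℝ} (h1 : gpt l t = gpt l' t) :
    skψ l l' (gpt l t) ≠ 0 := by
  intro h0
  have e : ∀ z : V, eval z (skψ l l' (gpt l t)) = 0 := fun z => by rw [h0, map_zero]
  have e1 := e (gpt l t + ![1, 0, 0])
  have e2 := e (gpt l t + ![0, 1, 0])
  rw [skψ_eval] at e1 e2
  simp at e1 e2
  have a0 := congrFun h1 0
  have a1 := congrFun h1 1
  simp only [gpt, Matrix.cons_val] at a0 a1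
  have c1 : l.2 1 = l'.2 1 := by linarith
  have c0 : l.2 0 = l'.2 0 := by linarith
  apply hne
  rw [c0] at a0
  rw [c1] at a1
  refine Prod.ext ?_ ?_
  · funext i
    fin_cases i
    · simpa using a0
    · simpa using a1
  · funext i
    fin_cases i
    · simpa using c0
    · simpa using c1

/-- `ψ` vanishes on `l` and `l'` -/
theorem skψ_l (l l' : Ln) (t s : ℝ) : eval (gpt l s) (skψ l l' (gpt l t)) = 0 := by
  rw [skψ_eval]
  simp only [gpt, Matrix.cons_val]
  ring

theorem skψ_l' {l l' : Ln} {t : ℝ} (h1 : gpt l t = gpt l' t) (s : ℝ) :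
    eval (gpt l' s) (skψ l l' (gpt l t)) = 0 := by
  rw [skψ_eval, h1]
  simp only [gpt, Matrix.cons_val]
  ring

/-- a line with two points in the plane is in the plane -/
theorem skψ_two (l l' m : Ln) (w : V) {r s : ℝ} (hrs : r ≠ s)
    (h1 : eval (gpt m r) (skψ l l' w) = 0) (h2 : eval (gpt m s) (skψ l l' w) = 0) (t : ℝ) :
    eval (gpt m t) (skψ l l' w) = 0 := by
  rw [skψ_eval] at *
  simp only [gpt, Matrix.cons_val] at *
  set A := (l.2 1 - l'.2 1) * m.2 0 + (l'.2 0 - l.2 0) * m.2 1 +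
    (l.2 0 * l'.2 1 - l.2 1 * l'.2 0) with hA
  have h3 : (r - s) * A = 0 := by rw [hA]; linear_combination h1 - h2
  have h4 : A = 0 := (mul_eq_zero.1 h3).resolve_left (sub_ne_zero.2 hrs)
  linear_combination h1 + (t - r) * h4

open scoped Classical in
theorem skew_count {Λ : Finset (V × V)} {X Y : Finset V} {n B K : ℝ} (hyp : Hyp Λ X Y n B K)
    (hc : InChart Λ) {φ : MvPolynomial (Fin 3) ℝ} (hφ : Irreducible φ) {D : ℕ}
    (hD : φ.totalDegree ≤ D) (hD2 : 2 ≤ φ.totalDegree) {v : ℝ} (hv : 0 ≤ v) {l1 l' : Ln}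
    (h1 : (l1, l') ∈ MT (Λ.image ln) φ v) (F : Finset Ln)
    (hF : ∀ l ∈ F, (l, l') ∈ MT (Λ.image ln) φ v ∧
      (rep Λ l1).1 ⬝ᵥ (rep Λ l).1 = (rep Λ l1).2 ⬝ᵥ (rep Λ l).2) :
    (F.card : ℝ) ≤ v + D + 1 := by
  have hMT : ∀ {l : Ln}, (l, l') ∈ MT (Λ.image ln) φ v →
      l ∈ Λ.image ln ∧ On φ l ∧ l' ∈ Λ.image ln ∧ On φ l' ∧ l ≠ l' ∧
        ∃ t, gpt l t = gpt l' t ∧ (GC.mult (Λ.image ln) (gpt l t) : ℝ) ≤ v := by
    intro l h
    unfold MT at h
    rw [Finset.mem_filter, Finset.mem_product] at h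
    obtain ⟨⟨ha, hb⟩, hne, hm⟩ := h
    unfold GC.inSurf at ha hb
    rw [Finset.mem_filter] at ha hb
    exact ⟨ha.1, ha.2, hb.1, hb.2, hne, hm⟩
  obtain ⟨hl1, hon1, hl', hon', hne1, t0, ht0, hm0⟩ := hMT h1
  set w0 := gpt l1 t0 with hw0
  -- the lines through `w0`
  set F1 := F.filter (fun l => ∃ t, gpt l t = w0) with hF1
  set F2 := F.filter (fun l => ¬ (∃ t, gpt l t = w0) ∧ l ≠ l1) with hF2
  have hcov : F ⊆ (F1 ∪ F2) ∪ {l1} := by
    intro l hl
    rw [Finset.mem_union, Finset.mem_union, Finset.mem_singleton, hF1, hF2, Finset.mem_filter,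
      Finset.mem_filter]
    by_cases h : ∃ t, gpt l t = w0
    · exact Or.inl (Or.inl ⟨hl, h⟩)
    · by_cases h' : l = l1
      · exact Or.inr h'
      · exact Or.inl (Or.inr ⟨hl, h, h'⟩)
  have hc1 : (F1.card : ℝ) ≤ v := by
    refine le_trans ?_ hm0
    unfold GC.mult
    have : F1 ⊆ (Λ.image ln).filter (fun l => ∃ w, gpt l w = w0) := by
      intro l hl
      rw [hF1, Finset.mem_filter] at hl
      exact Finset.mem_filter.2 ⟨(hMT (hF l hl.1).1).1, hl.2⟩
    exact_mod_cast Finset.card_le_card this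
  have hc2 : F2.card ≤ D := by
    have hψ : ¬ φ ∣ skψ l1 l' w0 := by
      rintro ⟨c, hcc⟩
      have hne0 : skψ l1 l' w0 ≠ 0 := skψ_ne hne1 ht0
      have hc0 : c ≠ 0 := by
        intro h0
        apply hne0
        rw [hcc, h0, mul_zero]
      have h2 := skψ_deg l1 l' w0
      rw [hcc, totalDegree_mul_of_isDomain hφ.ne_zero hc0] at h2
      omega
    have h2 : F2.card ≤ φ.totalDegree * (skψ l1 l' w0).totalDegree := by
      refine graph_bezout hφ hψ F2 ?_ ?_
      · intro l hl
        rw [hF2, Finset.mem_filter] at hl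
        exact (hMT (hF l hl.1).1).2.1
      · intro l hl
        rw [hF2, Finset.mem_filter] at hl
        obtain ⟨hlF, hnw, hne⟩ := hl
        obtain ⟨hlS, _, _, _, hnel', t1, ht1, _⟩ := hMT (hF l hlF).1
        -- `l` meets `l1`
        have hr1 := rep_mem hl1
        have hr := rep_mem hlS
        set p1 := rep Λ l1 with hp1
        set p := rep Λ l with hp
        have hm : p1.1 ⬝ᵥ p.1 = p1.2 ⬝ᵥ p.2 := (hF l hlF).2
        have ip1 := hyp.pair p1 hr1.1
        have ip := hyp.pair p hr.1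
        have c1 := hc.1 p1 hr1.1
        have c2 := hc.1 p hr.1
        have hcr : cr p1.1 p.1 ≠ 0 := by
          intro h0
          apply hne
          rw [← hr1.2, ← hr.2]
          exact (ln_eq_of_par ip1 ip c1 c2 hm h0).symm
        obtain ⟨t2, ht2⟩ := ln_meet ip1 ip c1 c2 hm (hc.2 p1 hr1.1 p hr.1 ⟨hm, hcr⟩)
        rw [hr1.2, hr.2] at ht2
        have hts : t1 ≠ t2 := by
          intro h0
          rw [← h0] at ht2
          -- the point is on `l1` and `l'`
          have h3 : gpt l1 t1 = gpt l' t1 := ht2.trans ht1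
          have h4 := sk_unique hne1 ht0 h3
          apply hnw
          refine ⟨t1, ?_⟩
          rw [hw0, h4]
          exact ht2.symm
        refine skψ_two l1 l' l w0 hts ?_ ?_
        · rw [ht1]
          exact skψ_l' ht0 t1
        · rw [← ht2]
          exact skψ_l l1 l' t0 t2
    refine h2.trans ?_
    calc φ.totalDegree * (skψ l1 l' w0).totalDegree ≤ D * 1 :=
          Nat.mul_le_mul hD (skψ_deg _ _ _)
      _ = D := mul_one D
  have h3 : F.card ≤ F1.card + F2.card + 1 := by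
    refine (Finset.card_le_card hcov).trans ?_
    refine (Finset.card_union_le _ _).trans ?_
    refine Nat.add_le_add (Finset.card_union_le _ _) ?_
    simp
  have h4 : (F.card : ℝ) ≤ F1.card + F2.card + 1 := by exact_mod_cast h3
  have h5 : (F2.card : ℝ) ≤ D := by exact_mod_cast hc2
  linarith

end Vale.Agent.P054.Y.GF
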