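import Vale.Agent.P054.Y.GF.PlaneFst
import Vale.Agent.P054.Y.GF.PlaneSnd
import Vale.Agent.P054.Y.GF.Skew
import Vale.Agent.P054.Y.GF.Good
import Vale.Agent.P054.Y.GF.BadTAux

/-! Leaf GF-BT (bad triples).  `S = Λ.image ln`, `φ` irreducible, `2 ≤ deg φ ≤ D`.
`bad_triples`: `N = {l ∈ I | (l, l') ∈ T}`.  A triple of `N` that is not good has (i) `x1·(x2×x3) = 0`: if
  `cr x1 x2 ≠ 0`, `l3` is in `plane_fst` with `u = cr x1 x2`, otherwise `l2` is in `plane_fst` with any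
  `u ≠ 0`, `u ⬝ᵥ x1 = 0`; (ii) the same for `y`; (iii) `c_ij = 0`: `skew_count`.  Sum:
  `#N^2 (4 (D(D+1)+K) B + 3 (v + D + 1)) ≤ #N^3 / 2`. -/

set_option linter.all false

namespace Vale.Agent.P054.Y.GF

open Finset Matrix MvPolynomial
open Vale.Agent.P041.SE

open scoped Classical in
theorem bad_triples {Λ : Finset (V × V)} {X Y : Finset V} {n B K : ℝ} (hyp : Hyp Λ X Y n B K)
    (hc : InChart Λ) (hK : 0 ≤ K) (hB : 0 ≤ B) {φ : MvPolynomial (Fin 3) ℝ} (hφ : Irreducible φ) {D : ℕ}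
    (hD : φ.totalDegree ≤ D) (hD2 : 2 ≤ φ.totalDegree) {v : ℝ} (hv : 0 ≤ v) (l' : Ln)
    (N : Finset Ln) (hN : ∀ l ∈ N, (l, l') ∈ MT (Λ.image ln) φ v)
    (hh : 8 * ((D * (D + 1) + K) * B) + 6 * (v + D + 1) ≤ (N.card : ℝ)) :
    (((N ×ˢ N ×ˢ N).filter (fun t => ¬ GoodT (rep Λ t.1) (rep Λ t.2.1) (rep Λ t.2.2))).card : ℝ) ≤
      (N.card : ℝ) ^ 3 / 2 := by
  have hDr : (0 : ℝ) ≤ D := Nat.cast_nonneg D
  set P : ℝ := (D * (D + 1) + K) * B with hP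
  set Q : ℝ := v + D + 1 with hQ
  have hP0 : 0 ≤ P := by positivity
  have hQ0 : 0 < Q := by positivity
  have hNpos : (0 : ℝ) < N.card := by
    have : 0 ≤ 8 * P := by positivity
    linarith
  have hNe : N.Nonempty := by
    rw [← Finset.card_pos]
    exact_mod_cast hNpos
  have hmem : ∀ l ∈ N, (l ∈ Λ.image ln ∧ On φ l) ∧ (l' ∈ Λ.image ln ∧ On φ l') ∧
      ∃ t, gpt l t = gpt l' t := by
    intro l hl
    have h := hN l hl
    simp only [MT, GC.inSurf, Finset.mem_filter, Finset.mem_product] at h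
    obtain ⟨⟨h1, h2⟩, h3, t, h4, h5⟩ := h
    exact ⟨h1, h2, t, h4⟩
  obtain ⟨l0, hl0⟩ := hNe
  have hl'S : l' ∈ Λ.image ln := (hmem l0 hl0).2.1.1
  set p' := rep Λ l' with hp'
  obtain ⟨hp'Λ, hp'ln⟩ := rep_mem hl'S
  have hpair' : IsPair p' := hyp.pair _ hp'Λ
  have hp'1 : p'.1 ≠ 0 := hpair'.2
  have hp'2 : p'.2 ≠ 0 := by
    intro h0
    apply hp'1
    have h1 := hpair'.1
    rw [h0] at h1
    simp only [dotProduct_zero] at h1
    exact dotProduct_self_eq_zero.1 h1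
  have hrep : ∀ l ∈ N, rep Λ l ∈ Λ ∧ ln (rep Λ l) = l := fun l hl => rep_mem (hmem l hl).1.1
  have hpair : ∀ l ∈ N, IsPair (rep Λ l) := fun l hl => hyp.pair _ (hrep l hl).1
  have hdot : ∀ l ∈ N, (rep Λ l).1 ⬝ᵥ p'.1 = (rep Λ l).2 ⬝ᵥ p'.2 := by
    intro l hl
    obtain ⟨t, ht⟩ := (hmem l hl).2.2
    refine dot_of_meet (hpair l hl) hpair' (hc.1 _ (hrep l hl).1) (hc.1 _ hp'Λ) (t := t) (t' := t) ?_
    rw [(hrep l hl).2, hp'ln]
    exact ht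
  have hx0 : ∀ l ∈ N, (rep Λ l).1 ≠ 0 := fun l hl => (hpair l hl).2
  have hy0 : ∀ l ∈ N, (rep Λ l).2 ≠ 0 := by
    intro l hl h0
    apply hx0 l hl
    have h1 := (hpair l hl).1
    rw [h0] at h1
    simp only [dotProduct_zero] at h1
    exact dotProduct_self_eq_zero.1 h1
  have fstc : ∀ u : V, u ≠ 0 → ∀ F ⊆ N, (∀ l ∈ F, u ⬝ᵥ (rep Λ l).1 = 0) → (F.card : ℝ) ≤ P := by
    intro u hu F hF hF2
    refine plane_fst hyp hc hK hB hφ hD p' hp'2 u hu F ?_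
    intro l hl
    exact ⟨(hmem l (hF hl)).1.2, rep Λ l, (hrep l (hF hl)).1, (hrep l (hF hl)).2, hF2 l hl,
      hdot l (hF hl)⟩
  have sndc : ∀ u : V, u ≠ 0 → ∀ F ⊆ N, (∀ l ∈ F, u ⬝ᵥ (rep Λ l).2 = 0) → (F.card : ℝ) ≤ P := by
    intro u hu F hF hF2
    refine plane_snd hyp hc hK hB hφ hD p' hp'1 u hu F ?_
    intro l hl
    exact ⟨(hmem l (hF hl)).1.2, rep Λ l, (hrep l (hF hl)).1, (hrep l (hF hl)).2, hF2 l hl,
      hdot l (hF hl)⟩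
  have skc : ∀ a ∈ N, ∀ F ⊆ N, (∀ b ∈ F, (rep Λ a).1 ⬝ᵥ (rep Λ b).1 =
      (rep Λ a).2 ⬝ᵥ (rep Λ b).2) → (F.card : ℝ) ≤ Q := by
    intro a ha F hF hF2
    refine skew_count hyp hc hφ hD hD2 hv (hN a ha) F ?_
    intro l hl
    exact ⟨hN l (hF hl), hF2 l hl⟩
  -- the seven kinds of bad triples
  set T := N ×ˢ N ×ˢ N with hT
  set F1 := T.filter (fun t : Ln × Ln × Ln => cr (rep Λ t.1).1 (rep Λ t.2.1).1 ≠ 0 ∧
      (rep Λ t.1).1 ⬝ᵥ cr (rep Λ t.2.1).1 (rep Λ t.2.2).1 = 0) with hF1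
  set F2 := T.filter (fun t : Ln × Ln × Ln => cr (rep Λ t.1).1 (rep Λ t.2.1).1 = 0) with hF2
  set F3 := T.filter (fun t : Ln × Ln × Ln => cr (rep Λ t.1).2 (rep Λ t.2.1).2 ≠ 0 ∧
      (rep Λ t.1).2 ⬝ᵥ cr (rep Λ t.2.1).2 (rep Λ t.2.2).2 = 0) with hF3
  set F4 := T.filter (fun t : Ln × Ln × Ln => cr (rep Λ t.1).2 (rep Λ t.2.1).2 = 0) with hF4
  set F5 := T.filter (fun t : Ln × Ln × Ln => (rep Λ t.1).1 ⬝ᵥ (rep Λ t.2.1).1 =
      (rep Λ t.1).2 ⬝ᵥ (rep Λ t.2.1).2) with hF5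
  set F6 := T.filter (fun t : Ln × Ln × Ln => (rep Λ t.1).1 ⬝ᵥ (rep Λ t.2.2).1 =
      (rep Λ t.1).2 ⬝ᵥ (rep Λ t.2.2).2) with hF6
  set F7 := T.filter (fun t : Ln × Ln × Ln => (rep Λ t.2.1).1 ⬝ᵥ (rep Λ t.2.2).1 =
      (rep Λ t.2.1).2 ⬝ᵥ (rep Λ t.2.2).2) with hF7
  have b1 : (F1.card : ℝ) ≤ (N.card : ℝ) ^ 2 * P := by
    refine bt_c3 N (fun a b c => cr (rep Λ a).1 (rep Λ b).1 ≠ 0 ∧
      (rep Λ a).1 ⬝ᵥ cr (rep Λ b).1 (rep Λ c).1 = 0) ?_ F1 (Finset.filter_subset _ _)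
      (fun t ht => (Finset.mem_filter.1 ht).2)
    intro a ha b hb F hF hR
    by_cases h : cr (rep Λ a).1 (rep Λ b).1 = 0
    · have : F = ∅ := Finset.eq_empty_of_forall_notMem fun c hcF => (hR c hcF).1 h
      rw [this]
      simpa using hP0
    · refine fstc _ h F hF ?_
      intro l hl
      rw [← bt_triple]
      exact (hR l hl).2
  have b2 : (F2.card : ℝ) ≤ (N.card : ℝ) ^ 2 * P := by
    refine bt_c2 N (fun a b c => cr (rep Λ a).1 (rep Λ b).1 = 0) ?_ F2 (Finset.filter_subset _ _)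
      (fun t ht => (Finset.mem_filter.1 ht).2)
    intro a ha c hcN F hF hR
    obtain ⟨u, hu, hua⟩ := bt_perp (rep Λ a).1
    exact fstc u hu F hF fun l hl => bt_par (hx0 a ha) (hR l hl) hua
  have b3 : (F3.card : ℝ) ≤ (N.card : ℝ) ^ 2 * P := by
    refine bt_c3 N (fun a b c => cr (rep Λ a).2 (rep Λ b).2 ≠ 0 ∧
      (rep Λ a).2 ⬝ᵥ cr (rep Λ b).2 (rep Λ c).2 = 0) ?_ F3 (Finset.filter_subset _ _)
      (fun t ht => (Finset.mem_filter.1 ht).2)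
    intro a ha b hb F hF hR
    by_cases h : cr (rep Λ a).2 (rep Λ b).2 = 0
    · have : F = ∅ := Finset.eq_empty_of_forall_notMem fun c hcF => (hR c hcF).1 h
      rw [this]
      simpa using hP0
    · refine sndc _ h F hF ?_
      intro l hl
      rw [← bt_triple]
      exact (hR l hl).2
  have b4 : (F4.card : ℝ) ≤ (N.card : ℝ) ^ 2 * P := by
    refine bt_c2 N (fun a b c => cr (rep Λ a).2 (rep Λ b).2 = 0) ?_ F4 (Finset.filter_subset _ _)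
      (fun t ht => (Finset.mem_filter.1 ht).2)
    intro a ha c hcN F hF hR
    obtain ⟨u, hu, hua⟩ := bt_perp (rep Λ a).2
    exact sndc u hu F hF fun l hl => bt_par (hy0 a ha) (hR l hl) hua
  have b5 : (F5.card : ℝ) ≤ (N.card : ℝ) ^ 2 * Q :=
    bt_c2 N (fun a b c => (rep Λ a).1 ⬝ᵥ (rep Λ b).1 = (rep Λ a).2 ⬝ᵥ (rep Λ b).2)
      (fun a ha c _ => skc a ha) F5 (Finset.filter_subset _ _) (fun t ht => (Finset.mem_filter.1 ht).2)
  have b6 : (F6.card : ℝ) ≤ (N.card : ℝ) ^ 2 * Q :=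
    bt_c3 N (fun a b c => (rep Λ a).1 ⬝ᵥ (rep Λ c).1 = (rep Λ a).2 ⬝ᵥ (rep Λ c).2)
      (fun a ha c _ => skc a ha) F6 (Finset.filter_subset _ _) (fun t ht => (Finset.mem_filter.1 ht).2)
  have b7 : (F7.card : ℝ) ≤ (N.card : ℝ) ^ 2 * Q :=
    bt_c3 N (fun a b c => (rep Λ b).1 ⬝ᵥ (rep Λ c).1 = (rep Λ b).2 ⬝ᵥ (rep Λ c).2)
      (fun a _ b hb => skc b hb) F7 (Finset.filter_subset _ _) (fun t ht => (Finset.mem_filter.1 ht).2)
  have hsub : T.filter (fun t => ¬ GoodT (rep Λ t.1) (rep Λ t.2.1) (rep Λ t.2.2)) ⊆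
      F1 ∪ (F2 ∪ (F3 ∪ (F4 ∪ (F5 ∪ (F6 ∪ F7))))) := by
    intro t ht
    rw [Finset.mem_filter] at ht
    obtain ⟨htT, hbad⟩ := ht
    simp only [Finset.mem_union, hF1, hF2, hF3, hF4, hF5, hF6, hF7, Finset.mem_filter]
    by_contra hno
    apply hbad
    simp only [not_or, not_and, htT, true_and, forall_true_left] at hno
    obtain ⟨h1, h2, h3, h4, h5, h6, h7⟩ := hno
    exact ⟨h1 h2, h3 h4, h5, h6, h7⟩
  have hcard := Finset.card_le_card hsub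
  have hu : (F1 ∪ (F2 ∪ (F3 ∪ (F4 ∪ (F5 ∪ (F6 ∪ F7)))))).card ≤
      F1.card + (F2.card + (F3.card + (F4.card + (F5.card + (F6.card + F7.card))))) := by
    refine (Finset.card_union_le _ _).trans (Nat.add_le_add_left ?_ _)
    refine (Finset.card_union_le _ _).trans (Nat.add_le_add_left ?_ _)
    refine (Finset.card_union_le _ _).trans (Nat.add_le_add_left ?_ _)
    refine (Finset.card_union_le _ _).trans (Nat.add_le_add_left ?_ _)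
    refine (Finset.card_union_le _ _).trans (Nat.add_le_add_left ?_ _)
    exact Finset.card_union_le _ _
  have hreal : ((T.filter (fun t => ¬ GoodT (rep Λ t.1) (rep Λ t.2.1) (rep Λ t.2.2))).card : ℝ) ≤
      F1.card + (F2.card + (F3.card + (F4.card + (F5.card + (F6.card + F7.card))))) := by
    exact_mod_cast hcard.trans hu
  have hfin : ((T.filter (fun t => ¬ GoodT (rep Λ t.1) (rep Λ t.2.1) (rep Λ t.2.2))).card : ℝ) ≤
      (N.card : ℝ) ^ 2 * (4 * P + 3 * Q) := by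
    refine hreal.trans ?_
    linarith [b1, b2, b3, b4, b5, b6, b7]
  refine hfin.trans ?_
  have h1 : 4 * P + 3 * Q ≤ (N.card : ℝ) / 2 := by linarith
  calc (N.card : ℝ) ^ 2 * (4 * P + 3 * Q) ≤ (N.card : ℝ) ^ 2 * ((N.card : ℝ) / 2) :=
        mul_le_mul_of_nonneg_left h1 (by positivity)
    _ = (N.card : ℝ) ^ 3 / 2 := by ring

end Vale.Agent.P054.Y.GF
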