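import Vale.Agent.P054.Y.GF.Chart
import Vale.Agent.P054.Y.G.CL

/-! Leaf GF-CL (adapter of `G/CL.lean` class_line, iso_pair).  A line inside the surface
`qA A = 0` belongs to one of the two rulings. -/

set_option linter.all false

namespace Vale.Agent.P054.Y.GF

open Finset Matrix MvPolynomial
open Vale.Agent.P041.SE

theorem cl (A : M3) (hA : (1 - Aᵀ * A).det ≠ 0) {p : V × V} (hp : IsPair p)
    (hc : p.1 2 + p.2 2 ≠ 0) (h : On (qA A) (ln p)) : A *ᵥ p.1 = p.2 ∨ Aᵀ *ᵥ p.2 = p.1 := by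
  apply Vale.Agent.P054.Y.G.class_line A hA p.1 p.2 hp.1
  · intro h0
    exact hc (congrFun h0 2)
  · intro w hw
    obtain ⟨t, ht⟩ := (on_ln hp hc w).2 (by rw [chart_cr]; exact hw.symm)
    have h1 := h t
    rw [ht, eval_qA] at h1
    exact h1

theorem cl_form (A : M3) (u v : V) :
    ((1 - Aᵀ * A) *ᵥ u) ⬝ᵥ v = u ⬝ᵥ v - (A *ᵥ u) ⬝ᵥ (A *ᵥ v) := by
  rw [sub_mulVec, one_mulVec, sub_dotProduct, ← mulVec_mulVec, dotProduct_mulVec,
    mulVec_transpose]

/-- two meeting lines of the same ruling are equal -/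
theorem same_ruling (A : M3) (hA : (1 - Aᵀ * A).det ≠ 0) {x x' : V} (h1 : Iso0 A x) (h2 : Iso0 A x')
    (h3 : x ⬝ᵥ x' = (A *ᵥ x) ⬝ᵥ (A *ᵥ x')) : cr x x' = 0 := by
  by_contra hne
  rw [chart_cr] at hne
  refine Vale.Agent.P054.Y.G.iso_pair hA ?_ hne ?_ ?_ ?_
  · rw [transpose_sub, transpose_one, transpose_mul, transpose_transpose]
  · rw [cl_form, h1, sub_self]
  · rw [cl_form, h2, sub_self]
  · rw [cl_form, h3, sub_self]

end Vale.Agent.P054.Y.GF
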