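import Vale.Agent.P054.Y.GF.MTDefs

/-! every line has at most `K` representatives (`ln_eq`: `q = μ p`; `lineX` bounds the first components, and `q.2 = μ p.2` is determined by `q.1 = μ p.1`, `p.1 ≠ 0`) -/

set_option linter.all false

namespace Vale.Agent.P054.Y.GF

open Finset Matrix MvPolynomial
open Vale.Agent.P041.SE

open scoped Classical in
/-- a line has at most `K` representatives -/
theorem cardPairs_rep {Λ : Finset (V × V)} {X Y : Finset V} {n B K : ℝ} (hyp : Hyp Λ X Y n B K)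
    (hc : InChart Λ) (hK : 0 ≤ K) (l : Ln) :
    ((Λ.filter (fun p => ln p = l)).card : ℝ) ≤ K := by
  rcases (Λ.filter (fun p => ln p = l)).eq_empty_or_nonempty with h | ⟨p0, hp0⟩
  · rw [h]
    simpa using hK
  obtain ⟨hp0Λ, hp0l⟩ := Finset.mem_filter.1 hp0
  have key : ∀ p ∈ Λ.filter (fun p => ln p = l), ∀ q ∈ Λ.filter (fun p => ln p = l),
      ∃ μ : ℝ, μ ≠ 0 ∧ q.1 = μ • p.1 ∧ q.2 = μ • p.2 := by
    intro p hp q hq
    obtain ⟨hpΛ, hpl⟩ := Finset.mem_filter.1 hp
    obtain ⟨hqΛ, hql⟩ := Finset.mem_filter.1 hq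
    exact ln_eq (hyp.pair p hpΛ) (hyp.pair q hqΛ) (hc.1 p hpΛ) (hc.1 q hqΛ) (hpl.trans hql.symm)
  have hinj : Set.InjOn Prod.fst (↑(Λ.filter (fun p => ln p = l)) : Set (V × V)) := by
    intro p hp q hq hpq
    have hp' := Finset.mem_coe.1 hp
    obtain ⟨μ, hμ, h1, h2⟩ := key p hp' q (Finset.mem_coe.1 hq)
    have hp0' : p.1 ≠ 0 := (hyp.pair p (Finset.mem_filter.1 hp').1).2
    have h3 : (μ - 1) • p.1 = 0 := by
      rw [sub_smul, one_smul, ← h1, sub_eq_zero]
      exact hpq.symm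
    have hμ1 : μ = 1 := by
      rcases smul_eq_zero.1 h3 with h | h
      · linarith
      · exact absurd h hp0'
    rw [hμ1, one_smul] at h2
    exact Prod.ext hpq h2.symm
  have h := hyp.lineX p0.1 (hyp.pair p0 hp0Λ).2 ((Λ.filter (fun p => ln p = l)).image Prod.fst)
    (by
      intro x hx
      obtain ⟨p, hp, rfl⟩ := Finset.mem_image.1 hx
      exact hyp.memX p (Finset.mem_filter.1 hp).1)
    (by
      intro x hx
      obtain ⟨p, hp, rfl⟩ := Finset.mem_image.1 hx
      obtain ⟨μ, -, h1, -⟩ := key p0 hp0 p hp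
      rw [h1, chart_cr, map_smul, cross_self, smul_zero])
  rwa [Finset.card_image_of_injOn hinj] at h

open scoped Classical in
/-- the number of pairs is at most `K^2` times the number of pairs of lines -/
theorem card_pairs_le {Λ : Finset (V × V)} {X Y : Finset V} {n B K : ℝ} (hyp : Hyp Λ X Y n B K)
    (hc : InChart Λ) (hK : 0 ≤ K) (Q : Finset ((V × V) × (V × V))) (hQ : Q ⊆ Λ ×ˢ Λ) :
    (Q.card : ℝ) ≤ K ^ 2 * (Q.image (fun q => (ln q.1, ln q.2))).card := by
  have h1 : Q.card = ∑ b ∈ Q.image (fun q => (ln q.1, ln q.2)),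
      (Q.filter (fun q => (ln q.1, ln q.2) = b)).card :=
    Finset.card_eq_sum_card_image _ _
  rw [h1]
  push_cast
  have h2 : ∀ b ∈ Q.image (fun q => (ln q.1, ln q.2)),
      ((Q.filter (fun q => (ln q.1, ln q.2) = b)).card : ℝ) ≤ K ^ 2 := by
    intro b _
    have hsub : Q.filter (fun q => (ln q.1, ln q.2) = b) ⊆
        (Λ.filter (fun p => ln p = b.1)) ×ˢ (Λ.filter (fun p => ln p = b.2)) := by
      intro q hq
      obtain ⟨hqQ, hqb⟩ := Finset.mem_filter.1 hq
      have hm := Finset.mem_product.1 (hQ hqQ)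
      rw [Finset.mem_product, Finset.mem_filter, Finset.mem_filter]
      exact ⟨⟨hm.1, congrArg Prod.fst hqb⟩, ⟨hm.2, congrArg Prod.snd hqb⟩⟩
    have h3 := Finset.card_le_card hsub
    rw [Finset.card_product] at h3
    have h4 : ((Q.filter (fun q => (ln q.1, ln q.2) = b)).card : ℝ) ≤
        ((Λ.filter (fun p => ln p = b.1)).card : ℝ) * ((Λ.filter (fun p => ln p = b.2)).card : ℝ) := by
      exact_mod_cast h3
    refine h4.trans ?_
    rw [sq]
    exact mul_le_mul (cardPairs_rep hyp hc hK b.1) (cardPairs_rep hyp hc hK b.2)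
      (Nat.cast_nonneg _) hK
  have h5 := Finset.sum_le_card_nsmul _ _ _ h2
  rw [nsmul_eq_mul, mul_comm] at h5
  exact h5

end Vale.Agent.P054.Y.GF
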