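import Vale.Agent.P054.Y.GF.MTDefs
import Vale.Agent.P054.Y.GF.VB

/-! Leaf GF-Surf.  Pairs inside one irreducible surface.
with `z` from `vb_fst`: every `x ∈ X` with `cr z x ≠ 0` is (parallel to) the first component of (the
  representative of) at most `D (D+1)` lines, the others: at most `K` values of `x`, at most `n` of `y`. -/

set_option linter.all false

namespace Vale.Agent.P054.Y.GF

open Finset Matrix MvPolynomial
open Vale.Agent.P041.SE

open scoped Classical in
theorem card_inSurf {Λ : Finset (V × V)} {X Y : Finset V} {n B K : ℝ} (hyp : Hyp Λ X Y n B K)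
    (hc : InChart Λ) (hK : 0 ≤ K) {φ : MvPolynomial (Fin 3) ℝ} (hφ : Irreducible φ) {D : ℕ}
    (hD : φ.totalDegree ≤ D) : ((GC.inSurf (Λ.image ln) φ).card : ℝ) ≤ (D * (D + 1) + K) * n := by
  obtain ⟨z, hz0, hz⟩ := vb_fst φ hφ D hD
  have hn : (0 : ℝ) ≤ n := le_trans (Nat.cast_nonneg _) hyp.cardX
  set S : Finset Ln := GC.inSurf (Λ.image ln) φ with hS
  have hmem : ∀ l ∈ S, l ∈ Λ.image ln ∧ On φ l := by
    intro l hl
    rw [hS, GC.inSurf, Finset.mem_filter] at hl
    exact hl
  have hrep : ∀ l ∈ S, rep Λ l ∈ Λ ∧ ln (rep Λ l) = l := fun l hl => rep_mem (hmem l hl).1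
  have hmaps : ∀ l ∈ S, (rep Λ l).1 ∈ X := fun l hl => hyp.memX _ (hrep l hl).1
  have hcard : S.card = ∑ x ∈ X, (S.filter (fun l => (rep Λ l).1 = x)).card :=
    Finset.card_eq_sum_card_fiberwise hmaps
  have hfib1 : ∀ x ∈ X, cr z x ≠ 0 → (S.filter (fun l => (rep Λ l).1 = x)).card ≤ D * (D + 1) := by
    intro x hx hzx
    refine hz x hzx _ fun l hl => ?_
    rw [Finset.mem_filter] at hl
    obtain ⟨hlS, hlx⟩ := hl
    refine ⟨(hmem l hlS).2, rep Λ l, hyp.pair _ (hrep l hlS).1, hc.1 _ (hrep l hlS).1, ?_,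
      (hrep l hlS).2⟩
    rw [hlx]
    ext i
    fin_cases i <;> simp [cr] <;> ring
  have hfib2 : ∀ x ∈ X, ((S.filter (fun l => (rep Λ l).1 = x)).card : ℝ) ≤ n := by
    intro x hx
    refine le_trans ?_ hyp.cardY
    have : (S.filter (fun l => (rep Λ l).1 = x)).card ≤ Y.card := by
      refine Finset.card_le_card_of_injOn (fun l => (rep Λ l).2) ?_ ?_
      · intro l hl
        rw [Finset.mem_coe, Finset.mem_filter] at hl
        exact hyp.memY _ (hrep l hl.1).1
      · intro l hl l' hl' he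
        rw [Finset.mem_coe, Finset.mem_filter] at hl hl'
        simp only at he
        rw [← (hrep l hl.1).2, ← (hrep l' hl'.1).2]
        congr 1
        exact Prod.ext (hl.2.trans hl'.2.symm) he
    exact_mod_cast this
  have hA : ((X.filter (fun x => cr z x = 0)).card : ℝ) ≤ K :=
    hyp.lineX z hz0 _ (Finset.filter_subset _ _) fun x hx => (Finset.mem_filter.1 hx).2
  have hB : ((X.filter (fun x => ¬ cr z x = 0)).card : ℝ) ≤ n := by
    refine le_trans ?_ hyp.cardX
    exact_mod_cast Finset.card_le_card (Finset.filter_subset _ _)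
  rw [hcard]
  push_cast
  rw [← Finset.sum_filter_add_sum_filter_not X (fun x => cr z x = 0)]
  have h1 : ∑ x ∈ X.filter (fun x => cr z x = 0),
      ((S.filter (fun l => (rep Λ l).1 = x)).card : ℝ) ≤ K * n := by
    calc _ ≤ ∑ x ∈ X.filter (fun x => cr z x = 0), n :=
          Finset.sum_le_sum fun x hx => hfib2 x (Finset.mem_filter.1 hx).1
      _ = (X.filter (fun x => cr z x = 0)).card * n := by rw [Finset.sum_const, nsmul_eq_mul]
      _ ≤ K * n := mul_le_mul_of_nonneg_right hA hn
  have h2 : ∑ x ∈ X.filter (fun x => ¬ cr z x = 0),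
      ((S.filter (fun l => (rep Λ l).1 = x)).card : ℝ) ≤ (D * (D + 1)) * n := by
    calc _ ≤ ∑ x ∈ X.filter (fun x => ¬ cr z x = 0), ((D : ℝ) * (D + 1)) :=
          Finset.sum_le_sum fun x hx => by
            have := hfib1 x (Finset.mem_filter.1 hx).1 (Finset.mem_filter.1 hx).2
            exact_mod_cast this
      _ = (X.filter (fun x => ¬ cr z x = 0)).card * ((D : ℝ) * (D + 1)) := by
          rw [Finset.sum_const, nsmul_eq_mul]
      _ ≤ n * ((D : ℝ) * (D + 1)) := mul_le_mul_of_nonneg_right hB (by positivity)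
      _ = (D * (D + 1)) * n := by ring
  linarith [h1, h2]

end Vale.Agent.P054.Y.GF
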