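import Vale.Agent.P054.Y.GF.Defs
import Vale.Agent.P054.Y.G.CL

/-! Leaf G-Chart.  The lines of the pairs in the Cayley chart.  With `s = x + y`, `h = y - x` the line
of `(x, y)` is `{w : cr w s = h}` (note `h ⬝ᵥ s = 0`). -/

set_option linter.all false

namespace Vale.Agent.P054.Y.GF

open Finset Matrix MvPolynomial
open Vale.Agent.P041.SE

theorem chart_cr (x y : V) : cr x y = crossProduct x y := by
  rw [cross_apply]
  rfl

theorem chart_coord (p : V × V) (w : V) (t : ℝ) (h : gpt (ln p) t = w) : t = w 2 := by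
  rw [← h]
  simp [gpt]

theorem on_ln {p : V × V} (hp : IsPair p) (hc : p.1 2 + p.2 2 ≠ 0) (w : V) :
    (∃ t, gpt (ln p) t = w) ↔ cr w (p.1 + p.2) = p.2 - p.1 := by
  obtain ⟨x, y⟩ := p
  have hxy := hp.1
  simp only [dotProduct, Fin.sum_univ_three] at hxy hc
  constructor
  · rintro ⟨t, h⟩
    have ht := chart_coord _ _ _ h
    subst ht
    have h0 := congrFun h 0
    have h1 := congrFun h 1
    simp only [gpt, ln, Matrix.cons_val_zero, Matrix.cons_val_one, Matrix.cons_val] at h0 h1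
    have e0 : w 0 * (x 2 + y 2) = -(y 1 - x 1) + (x 0 + y 0) * w 2 := by
      rw [← h0]
      field_simp
    have e1 : w 1 * (x 2 + y 2) = (y 0 - x 0) + (x 1 + y 1) * w 2 := by
      rw [← h1]
      field_simp
    apply Vale.Agent.P054.Y.G.eq3 <;>
    simp only [cr, Pi.sub_apply, Pi.add_apply, Matrix.cons_val_zero,
      Matrix.cons_val_one, Matrix.cons_val]
    · linarith
    · linarith
    · apply mul_left_cancel₀ hc
      linear_combination ((x 1 + y 1)) * e0 - (x 0 + y 0) * e1 + hxy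
  · intro h
    refine ⟨w 2, ?_⟩
    have h0 := congrFun h 0
    have h1 := congrFun h 1
    simp only [cr, Pi.sub_apply, Pi.add_apply, Matrix.cons_val_zero,
      Matrix.cons_val_one, Matrix.cons_val] at h0 h1
    apply Vale.Agent.P054.Y.G.eq3 <;>
      simp only [gpt, ln, Matrix.cons_val_zero, Matrix.cons_val_one, Matrix.cons_val]
    · field_simp
      linarith
    · field_simp
      linarith

theorem chart_gpt {p : V × V} (hp : IsPair p) (hc : p.1 2 + p.2 2 ≠ 0) (t : ℝ) :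
    cr (gpt (ln p) t) (p.1 + p.2) = p.2 - p.1 :=
  (on_ln hp hc _).1 ⟨t, rfl⟩

theorem dot_of_meet {p q : V × V} (hp : IsPair p) (hq : IsPair q) (hcp : p.1 2 + p.2 2 ≠ 0)
    (hcq : q.1 2 + q.2 2 ≠ 0) {t t' : ℝ} (h : gpt (ln p) t = gpt (ln q) t') :
    p.1 ⬝ᵥ q.1 = p.2 ⬝ᵥ q.2 := by
  have e1 := chart_gpt hp hcp t
  have e2 := chart_gpt hq hcq t'
  rw [← h, chart_cr] at e2
  rw [chart_cr] at e1
  exact Vale.Agent.P054.Y.G.cayley_dot _ _ _ _ _ e1.symm e2.symm

theorem chart_lin (w u v : V) (c : ℝ) : cr (w + c • u) v = cr w v + c • cr u v := by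
  apply Vale.Agent.P054.Y.G.eq3 <;>
  simp only [cr, Pi.smul_apply, Pi.add_apply, Matrix.cons_val_zero, smul_eq_mul,
    Matrix.cons_val_one, Matrix.cons_val] <;> ring

theorem chart_self (u : V) : cr u u = 0 := by
  rw [chart_cr, cross_self]

theorem ln_meet {p q : V × V} (hp : IsPair p) (hq : IsPair q) (hcp : p.1 2 + p.2 2 ≠ 0)
    (hcq : q.1 2 + q.2 2 ≠ 0) (m : p.1 ⬝ᵥ q.1 = p.2 ⬝ᵥ q.2) (hx : cr (p.1 + p.2) (q.1 + q.2) ≠ 0) :
    ∃ t, gpt (ln p) t = gpt (ln q) t := by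
  set u := p.1 + p.2 with hu
  set u' := q.1 + q.2 with hu'
  set w0 := gpt (ln p) 0 with hw0
  have e0 := chart_gpt hp hcp 0
  rw [← hw0, ← hu] at e0
  -- `z = h' - w0 × u'` is orthogonal to `u` and `u'`
  set z := (q.2 - q.1) - cr w0 u' with hz
  have hzu : z ⬝ᵥ u = 0 := by
    have a1 : cr w0 u' ⬝ᵥ u = -(cr w0 u ⬝ᵥ u') := by
      simp only [dotProduct, Fin.sum_univ_three, cr, Matrix.cons_val_zero,
        Matrix.cons_val_one, Matrix.cons_val]
      ring
    rw [hz, sub_dotProduct, a1, e0]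
    simp only [dotProduct, Fin.sum_univ_three, hu, hu', Pi.add_apply, Pi.sub_apply] at m ⊢
    linear_combination (-2) * m
  have hzu' : z ⬝ᵥ u' = 0 := by
    have a1 : cr w0 u' ⬝ᵥ u' = 0 := by
      simp only [dotProduct, Fin.sum_univ_three, cr, Matrix.cons_val_zero,
        Matrix.cons_val_one, Matrix.cons_val]
      ring
    have hq1 := hq.1
    rw [hz, sub_dotProduct, a1]
    simp only [dotProduct, Fin.sum_univ_three, hu', Pi.add_apply, Pi.sub_apply] at hq1 ⊢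
    linear_combination (-1) * hq1
  rw [chart_cr] at hx
  obtain ⟨c, hc⟩ := Vale.Agent.P054.Y.G.orth_two hx hzu hzu'
  rw [← chart_cr] at hc
  -- the common point
  have hp1 : cr (w0 + c • u) (p.1 + p.2) = p.2 - p.1 := by
    rw [← hu, chart_lin, chart_self, smul_zero, add_zero]
    exact e0
  have hp2 : cr (w0 + c • u) (q.1 + q.2) = q.2 - q.1 := by
    rw [← hu', chart_lin, ← hc, hz]
    abel
  obtain ⟨t, ht⟩ := (on_ln hp hcp _).2 hp1
  obtain ⟨t', ht'⟩ := (on_ln hq hcq _).2 hp2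
  have h1 := chart_coord _ _ _ ht
  have h2 := chart_coord _ _ _ ht'
  refine ⟨t, ?_⟩
  rw [ht, ← ht', h1, h2]

theorem ln_eq {p q : V × V} (hp : IsPair p) (hq : IsPair q) (hcp : p.1 2 + p.2 2 ≠ 0) (hcq : q.1 2 + q.2 2 ≠ 0)
    (h : ln p = ln q) : ∃ μ : ℝ, μ ≠ 0 ∧ q.1 = μ • p.1 ∧ q.2 = μ • p.2 := by
  have a0 := congrFun (congrArg Prod.fst h) 0
  have a1 := congrFun (congrArg Prod.fst h) 1
  have b0 := congrFun (congrArg Prod.snd h) 0
  have b1 := congrFun (congrArg Prod.snd h) 1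
  simp only [ln, Matrix.cons_val_zero, Matrix.cons_val_one] at a0 a1 b0 b1
  rw [div_eq_div_iff hcp hcq] at a0 a1 b0 b1
  obtain ⟨x, y⟩ := p
  obtain ⟨x', y'⟩ := q
  have hxy := hp.1
  have hxy' := hq.1
  simp only [dotProduct, Fin.sum_univ_three] at hxy hxy' hcp hcq a0 a1 b0 b1 ⊢
  have hμ : (x' 2 + y' 2) / (x 2 + y 2) ≠ 0 := div_ne_zero hcq hcp
  -- `y 2 - x 2` is a combination of the others
  have c0 : (x 2 + y 2) * ((y' 2 - x' 2) * (x 2 + y 2)) =
      (x 2 + y 2) * ((y 2 - x 2) * (x' 2 + y' 2)) := by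
    have hk : (x' 2 + y' 2) * ((x 2 + y 2) * ((y' 2 - x' 2) * (x 2 + y 2))) =
      (x' 2 + y' 2) * ((x 2 + y 2) * ((y 2 - x 2) * (x' 2 + y' 2))) := by
      linear_combination (-(x 2 + y 2) ^ 2) * hxy' + ((x' 2 + y' 2) ^ 2) * hxy +
        ((y 0 - x 0) * (x' 2 + y' 2)) * b0 + (x' 0 + y' 0) * (x 2 + y 2) * a1 +
        (y 1 - x 1) * (x' 2 + y' 2) * b1 - (x' 1 + y' 1) * (x 2 + y 2) * a0
    exact mul_left_cancel₀ hcq hk
  have c1 := mul_left_cancel₀ hcp c0
  refine ⟨(x' 2 + y' 2) / (x 2 + y 2), hμ, ?_, ?_⟩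
  · apply Vale.Agent.P054.Y.G.eq3 <;> simp only [Pi.smul_apply, smul_eq_mul] <;> field_simp
    · linarith
    · linarith
    · linarith
  · apply Vale.Agent.P054.Y.G.eq3 <;> simp only [Pi.smul_apply, smul_eq_mul] <;> field_simp
    · linarith
    · linarith
    · linarith

theorem ln_smul {p : V × V} {μ : ℝ} (hμ : μ ≠ 0) (hcp : p.1 2 + p.2 2 ≠ 0) :
    ln (μ • p.1, μ • p.2) = ln p := by
  have h2 : μ * p.1 2 + μ * p.2 2 ≠ 0 := by
    rw [← mul_add]
    exact mul_ne_zero hμ hcp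
  unfold ln
  simp only [Pi.smul_apply, smul_eq_mul]
  congr 1
  · congr 1
    · field_simp
    · congr 1
      field_simp
  · congr 1
    · field_simp
    · congr 1
      field_simp

/-- parallel first components and equal dot products: the same line -/
theorem ln_eq_of_par {p q : V × V} (hp : IsPair p) (hq : IsPair q) (hcp : p.1 2 + p.2 2 ≠ 0)
    (hcq : q.1 2 + q.2 2 ≠ 0) (m : p.1 ⬝ᵥ q.1 = p.2 ⬝ᵥ q.2) (hx : cr p.1 q.1 = 0) : ln p = ln q := by
  rw [chart_cr] at hx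
  obtain ⟨c, hc⟩ := Vale.Agent.P054.Y.G.exists_smul_of_cross hp.2 hx
  have hc0 : c ≠ 0 := by
    rintro rfl
    rw [zero_smul] at hc
    exact hq.2 hc
  have h1 := hp.1
  have h2 := hq.1
  -- `q.2 = c • p.2` by the equality case of Cauchy-Schwarz
  have hz : (q.2 - c • p.2) ⬝ᵥ (q.2 - c • p.2) = 0 := by
    rw [hc] at m h2
    simp only [dotProduct, Fin.sum_univ_three, Pi.sub_apply, Pi.smul_apply, smul_eq_mul] at m h1 h2 ⊢
    linear_combination (-1) * h2 + 2 * c * m - c ^ 2 * h1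
  have hz' : q.2 - c • p.2 = 0 := dotProduct_self_eq_zero.1 hz
  have hq2 : q.2 = c • p.2 := sub_eq_zero.1 hz'
  have : q = (c • p.1, c • p.2) := Prod.ext hc hq2
  rw [this, ln_smul hc0 hcp]

theorem dot_of_coplanar {p q : V × V} (hp : IsPair p) (hq : IsPair q) (hcp : p.1 2 + p.2 2 ≠ 0)
    (hcq : q.1 2 + q.2 2 ≠ 0) (a : V) (b : ℝ) (ha : a ≠ 0) (h1 : ∀ t, a ⬝ᵥ gpt (ln p) t = b)
    (h2 : ∀ t, a ⬝ᵥ gpt (ln q) t = b) : p.1 ⬝ᵥ q.1 = p.2 ⬝ᵥ q.2 := by
  set u := p.1 + p.2 with hu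
  set u' := q.1 + q.2 with hu'
  set w := gpt (ln p) 0 with hw
  set w' := gpt (ln q) 0 with hw'
  have e0 := chart_gpt hp hcp 0
  have e0' := chart_gpt hq hcq 0
  rw [← hw, ← hu] at e0
  rw [← hw', ← hu'] at e0'
  have hk1 : a ⬝ᵥ u = 0 := by
    have k0 := h1 0
    have k1 := h1 1
    simp only [dotProduct, Fin.sum_univ_three, gpt, ln, Matrix.cons_val_zero, Matrix.cons_val_one,
      Matrix.cons_val] at k0 k1
    have k2 : a 0 * ((p.1 0 + p.2 0) / (p.1 2 + p.2 2)) + a 1 * ((p.1 1 + p.2 1) / (p.1 2 + p.2 2)) +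
      a 2 = 0 := by linarith
    field_simp at k2
    simp only [dotProduct, Fin.sum_univ_three, hu, Pi.add_apply]
    linarith
  have hk2 : a ⬝ᵥ u' = 0 := by
    have k0 := h2 0
    have k1 := h2 1
    simp only [dotProduct, Fin.sum_univ_three, gpt, ln, Matrix.cons_val_zero, Matrix.cons_val_one,
      Matrix.cons_val] at k0 k1
    have k2 : a 0 * ((q.1 0 + q.2 0) / (q.1 2 + q.2 2)) + a 1 * ((q.1 1 + q.2 1) / (q.1 2 + q.2 2)) +
      a 2 = 0 := by linarith
    field_simp at k2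
    simp only [dotProduct, Fin.sum_univ_three, hu', Pi.add_apply]
    linarith
  have hk3 : a ⬝ᵥ (w - w') = 0 := by
    rw [dotProduct_sub, hw, hw', h1 0, h2 0, sub_self]
  -- hence the determinant of `w - w'`, `u`, `u'` vanishes
  have hdet : (w - w') ⬝ᵥ cr u u' = 0 := by
    by_cases hc : crossProduct u u' = 0
    · rw [chart_cr, hc, dotProduct_zero]
    · obtain ⟨c, hc'⟩ := Vale.Agent.P054.Y.G.orth_two hc hk1 hk2
      have hc0 : c ≠ 0 := by
        rintro rfl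
        rw [zero_smul] at hc'
        exact ha hc'
      rw [hc', smul_dotProduct, smul_eq_mul] at hk3
      rw [chart_cr, dotProduct_comm]
      exact (mul_eq_zero.1 hk3).resolve_left hc0
  have e00 := congrFun e0 0
  have e01 := congrFun e0 1
  have e02 := congrFun e0 2
  have f00 := congrFun e0' 0
  have f01 := congrFun e0' 1
  have f02 := congrFun e0' 2
  simp only [cr, dotProduct, Fin.sum_univ_three, hu, hu', Pi.add_apply, Pi.sub_apply, Matrix.cons_val_zero,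
    Matrix.cons_val_one, Matrix.cons_val] at e00 e01 e02 f00 f01 f02 hdet ⊢
  linear_combination (-1/2) * hdet + (1/2) * (q.1 0 + q.2 0) * e00 + (1/2) * (q.1 1 + q.2 1) * e01 +
    (1/2) * (q.1 2 + q.2 2) * e02 + (1/2) * (p.1 0 + p.2 0) * f00 + (1/2) * (p.1 1 + p.2 1) * f01 +
    (1/2) * (p.1 2 + p.2 2) * f02

end Vale.Agent.P054.Y.GF
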