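import Mathlib
import Vale.Agent.P041.SE.GC8

/-!
Block G of the n^(2/3-eps) project (architect helper499): definitions.

A pair `p = (x, y)` of vectors of `R^3` with `|x| = |y|`, `x ≠ 0` stands for the line of rotations
`{g : g x = y}`.  In the Cayley chart (rotation of `ω`: `y - x = ω × (x + y)`) it is the line
`{ω : cr ω (x + y) = y - x}`, a graph line if `(x + y)_2 ≠ 0`.
-/

set_option linter.all false

namespace Vale.Agent.P054.Y.GF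

open Finset Matrix MvPolynomial
open Vale.Agent.P041.SE

abbrev V := Fin 3 → ℝ
abbrev M3 := Matrix (Fin 3) (Fin 3) ℝ

/-- cross product (explicit) -/
def cr (x y : V) : V :=
  ![x 1 * y 2 - x 2 * y 1, x 2 * y 0 - x 0 * y 2, x 0 * y 1 - x 1 * y 0]

/-- a pair of nonzero vectors of the same length -/
def IsPair (p : V × V) : Prop := p.1 ⬝ᵥ p.1 = p.2 ⬝ᵥ p.2 ∧ p.1 ≠ 0

/-- the lines of `p` and `q` meet, and are different -/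
def Meet (p q : V × V) : Prop := p.1 ⬝ᵥ q.1 = p.2 ⬝ᵥ q.2 ∧ cr p.1 q.1 ≠ 0

/-- the line of `p` in the chart, as a graph line -/
noncomputable def ln (p : V × V) : Ln :=
  (![-(p.2 1 - p.1 1) / (p.1 2 + p.2 2), (p.2 0 - p.1 0) / (p.1 2 + p.2 2)],
   ![(p.1 0 + p.2 0) / (p.1 2 + p.2 2), (p.1 1 + p.2 1) / (p.1 2 + p.2 2)])

/-- `Λ` is in general position with respect to the chart -/
def InChart (Λ : Finset (V × V)) : Prop :=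
  (∀ p ∈ Λ, p.1 2 + p.2 2 ≠ 0) ∧ ∀ p ∈ Λ, ∀ q ∈ Λ, Meet p q → cr (p.1 + p.2) (q.1 + q.2) ≠ 0

/-- `A` preserves the length of `x` -/
def Iso0 (A : M3) (x : V) : Prop := (A *ᵥ x) ⬝ᵥ (A *ᵥ x) = x ⬝ᵥ x

/-- the pairs `p`, `q` are matched by an orthogonal matrix which matches at least `h` pairs of `Λ` -/
def RichPair (Λ : Finset (V × V)) (h : ℝ) (p q : V × V) : Prop := by
  classical exact
  ∃ Q : M3, Qᵀ * Q = 1 ∧ Q *ᵥ p.1 = p.2 ∧ Q *ᵥ q.1 = q.2 ∧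
    h ≤ ((Λ.filter (fun r => Q *ᵥ r.1 = r.2)).card : ℝ)

/-- matrix of `v ↦ cr w v` -/
def skew (w : V) : M3 := !![0, -(w 2), w 1; w 2, 0, -(w 0); -(w 1), w 0, 0]

/-- the polynomial `det ((1 - A) + [ω] (1 + A))` -/
noncomputable def qA (A : M3) : MvPolynomial (Fin 3) ℝ :=
  (((1 - A).map (C : ℝ → MvPolynomial (Fin 3) ℝ)) +
    (!![0, -(X 2), X 1; X 2, 0, -(X 0); -(X 1), X 0, 0] : Matrix (Fin 3) (Fin 3) (MvPolynomial (Fin 3) ℝ)) *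
      ((1 + A).map (C : ℝ → MvPolynomial (Fin 3) ℝ))).det

theorem eval_qA (A : M3) (w : V) : eval w (qA A) = ((1 - A) + skew w * (1 + A)).det := by
  unfold qA
  rw [RingHom.map_det]
  congr 1
  ext i j
  fin_cases i <;> fin_cases j <;>
    simp [skew, Matrix.mul_apply, Fin.sum_univ_three, Matrix.map_apply, Matrix.one_apply,
      Matrix.vecMul, dotProduct]

/-- the vector field tangent to the lines `{g : g z = *}` (`s = 1`) or `{g : g * = z}` (`s = -1`) -/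
def fld (s : ℝ) (z w : V) : V := z + s • cr w z + (w ⬝ᵥ z) • w

/-- hypotheses on the set `Λ` of pairs: `X`, `Y` the sets of first and second components -/
structure Hyp (Λ : Finset (V × V)) (X Y : Finset V) (n B K : ℝ) : Prop where
  pair : ∀ p ∈ Λ, IsPair p
  memX : ∀ p ∈ Λ, p.1 ∈ X
  memY : ∀ p ∈ Λ, p.2 ∈ Y
  cardX : (X.card : ℝ) ≤ n
  cardY : (Y.card : ℝ) ≤ n
  planeX : ∀ (u : V) (b : ℝ), u ≠ 0 → ∀ F ⊆ X, (∀ x ∈ F, u ⬝ᵥ x = b) → (F.card : ℝ) ≤ B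
  planeY : ∀ (u : V) (b : ℝ), u ≠ 0 → ∀ F ⊆ Y, (∀ x ∈ F, u ⬝ᵥ x = b) → (F.card : ℝ) ≤ B
  lineX : ∀ u : V, u ≠ 0 → ∀ F ⊆ X, (∀ x ∈ F, cr u x = 0) → (F.card : ℝ) ≤ K
  lineY : ∀ u : V, u ≠ 0 → ∀ F ⊆ Y, (∀ x ∈ F, cr u x = 0) → (F.card : ℝ) ≤ K

/-- the labels `κ` (on `X`), `κ'` (on `Y`) exclude all rich reguli -/
def Lab (X Y : Finset V) (κ κ' : V → ℝ) (h : ℝ) : Prop :=
  ∀ A B : M3, Aᵀ * B = 1 → (1 - Aᵀ * A).det ≠ 0 →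
    (∃ F ⊆ X, (∀ x ∈ F, Iso0 A x) ∧ h ≤ (F.card : ℝ)) →
    (∃ F ⊆ X, (∀ x ∈ F, Iso0 B x) ∧ h ≤ (F.card : ℝ)) →
    (∃ F ⊆ Y, (∀ x ∈ F, Iso0 Bᵀ x) ∧ h ≤ (F.card : ℝ)) →
    (∃ F ⊆ Y, (∀ x ∈ F, Iso0 Aᵀ x) ∧ h ≤ (F.card : ℝ)) →
    ∀ x ∈ X, Iso0 A x → ∀ x' ∈ X, Iso0 B x' → ∀ y ∈ Y, Iso0 Bᵀ y → ∀ y' ∈ Y, Iso0 Aᵀ y' →
      ¬ (κ x ≤ κ x' ∧ κ' y ≤ κ' y')

/-- the ordered pairs to be counted -/
def Bad (Λ : Finset (V × V)) (κ κ' : V → ℝ) (h : ℝ) (p q : V × V) : Prop :=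
  Meet p q ∧ κ p.1 ≤ κ q.1 ∧ κ' p.2 ≤ κ' q.2 ∧ ¬ RichPair Λ h p q

end Vale.Agent.P054.Y.GF
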