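import Vale.Agent.P054.Y.GF.Defs
import Vale.Agent.P054.Y.G.Rot

/-! Leaf G-GenRot.  A rotation of the second components puts finitely many pairs in general position:
adapter of `G.exists_rot` (quaternions, product of finitely many nonzero polynomials). -/

set_option linter.all false

namespace Vale.Agent.P054.Y.GF

open Finset Matrix MvPolynomial
open Vale.Agent.P041.SE

theorem exists_rot (Λ : Finset (V × V)) (h : ∀ p ∈ Λ, IsPair p) :
    ∃ R : M3, Rᵀ * R = 1 ∧ InChart (Λ.image (fun p => (p.1, R *ᵥ p.2))) := by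
  obtain ⟨Q, h1, -, h3, h4⟩ := G.exists_rot Λ (fun p hp => by
    refine ⟨?_, (h p hp).2⟩
    have h1 := (h p hp).1
    simp only [dotProduct, Fin.sum_univ_three] at h1
    linear_combination h1)
  refine ⟨Q, h1, ?_, ?_⟩
  · intro p hp
    obtain ⟨p0, hp0, rfl⟩ := Finset.mem_image.1 hp
    exact (h3 p0 hp0).2
  · intro p hp q hq hm
    obtain ⟨p0, hp0, rfl⟩ := Finset.mem_image.1 hp
    obtain ⟨q0, hq0, rfl⟩ := Finset.mem_image.1 hq
    exact h4 p0 hp0 q0 hq0 hm.2

end Vale.Agent.P054.Y.GF
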