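import Vale.Agent.P054.Y.GF.MTDefs

/-! `RichPair`: `Q ↦ R Q`; `Lab`: use the hypothesis with `A = Rᵀ A'`, `B = Rᵀ B'` (`R Rᵀ = 1`); `Hyp`: planes `u ⬝ᵥ R y = Rᵀ u ⬝ᵥ y`, lines by parallelism. -/

set_option linter.all false

namespace Vale.Agent.P054.Y.GF

open Finset Matrix MvPolynomial
open Vale.Agent.P041.SE

namespace Tr

theorem rt {R : M3} (hR : Rᵀ * R = 1) : R * Rᵀ = 1 := mul_eq_one_comm.mp hR

theorem rt' {R : M3} (hR : Rᵀ * R = 1) : (Rᵀ)ᵀ * Rᵀ = 1 := by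
  rw [Matrix.transpose_transpose]; exact rt hR

theorem dotR {R : M3} (hR : Rᵀ * R = 1) (x y : V) : (R *ᵥ x) ⬝ᵥ (R *ᵥ y) = x ⬝ᵥ y := by
  rw [Matrix.dotProduct_mulVec, ← Matrix.mulVec_transpose, Matrix.mulVec_mulVec, hR,
    Matrix.one_mulVec]

theorem invR {R : M3} (hR : Rᵀ * R = 1) (x : V) : Rᵀ *ᵥ (R *ᵥ x) = x := by
  rw [Matrix.mulVec_mulVec, hR, Matrix.one_mulVec]

theorem invR' {R : M3} (hR : Rᵀ * R = 1) (x : V) : R *ᵥ (Rᵀ *ᵥ x) = x := by
  rw [Matrix.mulVec_mulVec, rt hR, Matrix.one_mulVec]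

theorem injR {R : M3} (hR : Rᵀ * R = 1) : Function.Injective (fun y : V => R *ᵥ y) := by
  intro a b hab
  have := congrArg (fun y => Rᵀ *ᵥ y) hab
  simpa [invR hR] using this

theorem adjR (R : M3) (u y : V) : u ⬝ᵥ (R *ᵥ y) = (Rᵀ *ᵥ u) ⬝ᵥ y := by
  rw [Matrix.dotProduct_mulVec, ← Matrix.mulVec_transpose]

/-- parallel vectors are mapped to parallel vectors -/
theorem cr_map (A : M3) (u y : V) (h : cr u y = 0) : cr (A *ᵥ u) (A *ᵥ y) = 0 := by
  have h0 : u 1 * y 2 - u 2 * y 1 = 0 := congrFun h 0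
  have h1 : u 2 * y 0 - u 0 * y 2 = 0 := congrFun h 1
  have h2 : u 0 * y 1 - u 1 * y 0 = 0 := congrFun h 2
  ext i
  fin_cases i
  · simp only [cr, Matrix.mulVec, dotProduct, Fin.sum_univ_three, Matrix.cons_val_zero,
      Matrix.cons_val_one, Matrix.cons_val, Pi.zero_apply, Fin.zero_eta, Fin.mk_one,
      Fin.reduceFinMk]
    linear_combination (A 1 1 * A 2 2 - A 1 2 * A 2 1) * h0 + (A 1 2 * A 2 0 - A 1 0 * A 2 2) * h1
      + (A 1 0 * A 2 1 - A 1 1 * A 2 0) * h2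
  · simp only [cr, Matrix.mulVec, dotProduct, Fin.sum_univ_three, Matrix.cons_val_zero,
      Matrix.cons_val_one, Matrix.cons_val, Pi.zero_apply, Fin.zero_eta, Fin.mk_one,
      Fin.reduceFinMk]
    linear_combination (A 2 1 * A 0 2 - A 2 2 * A 0 1) * h0 + (A 2 2 * A 0 0 - A 2 0 * A 0 2) * h1
      + (A 2 0 * A 0 1 - A 2 1 * A 0 0) * h2
  · simp only [cr, Matrix.mulVec, dotProduct, Fin.sum_univ_three, Matrix.cons_val_zero,
      Matrix.cons_val_one, Matrix.cons_val, Pi.zero_apply, Fin.zero_eta, Fin.mk_one,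
      Fin.reduceFinMk]
    linear_combination (A 0 1 * A 1 2 - A 0 2 * A 1 1) * h0 + (A 0 2 * A 1 0 - A 0 0 * A 1 2) * h1
      + (A 0 0 * A 1 1 - A 0 1 * A 1 0) * h2

theorem iso_left {R : M3} (hR : Rᵀ * R = 1) (A : M3) (x : V) : Iso0 (Rᵀ * A) x ↔ Iso0 A x := by
  unfold Iso0
  rw [← Matrix.mulVec_mulVec, dotR (rt' hR)]

theorem iso_right {R : M3} (hR : Rᵀ * R = 1) (A : M3) (y : V) :
    Iso0 (Rᵀ * A)ᵀ (Rᵀ *ᵥ y) ↔ Iso0 Aᵀ y := by
  unfold Iso0
  rw [Matrix.transpose_mul, Matrix.transpose_transpose, ← Matrix.mulVec_mulVec, invR' hR,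
    dotR (rt' hR)]

open scoped Classical in
theorem rich_mp {Λ : Finset (V × V)} {h : ℝ} {R : M3} (hR : Rᵀ * R = 1) {p q : V × V}
    (H : RichPair Λ h p q) :
    RichPair (Λ.image (fun p => (p.1, R *ᵥ p.2))) h (p.1, R *ᵥ p.2) (q.1, R *ᵥ q.2) := by
  obtain ⟨Q, hQ, hp, hq, hc⟩ := H
  refine ⟨R * Q, ?_, ?_, ?_, ?_⟩
  · rw [Matrix.transpose_mul, Matrix.mul_assoc, ← Matrix.mul_assoc Rᵀ R Q, hR, Matrix.one_mul, hQ]
  · show (R * Q) *ᵥ p.1 = R *ᵥ p.2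
    rw [← Matrix.mulVec_mulVec, hp]
  · show (R * Q) *ᵥ q.1 = R *ᵥ q.2
    rw [← Matrix.mulVec_mulVec, hq]
  · refine hc.trans ?_
    norm_cast
    refine Finset.card_le_card_of_injOn (fun p => (p.1, R *ᵥ p.2)) ?_ ?_
    · intro r hr
      have hr := Finset.mem_filter.1 (Finset.mem_coe.1 hr)
      refine Finset.mem_coe.2 (Finset.mem_filter.2 ⟨Finset.mem_image_of_mem _ hr.1, ?_⟩)
      show (R * Q) *ᵥ r.1 = R *ᵥ r.2
      rw [← Matrix.mulVec_mulVec, hr.2]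
    · intro a _ b _ hab
      have h1 : a.1 = b.1 := (Prod.mk.inj hab).1
      have h2 : R *ᵥ a.2 = R *ᵥ b.2 := (Prod.mk.inj hab).2
      exact Prod.ext h1 (injR hR h2)

open scoped Classical in
theorem image_back {Λ : Finset (V × V)} {R : M3} (hR : Rᵀ * R = 1) :
    (Λ.image (fun p => (p.1, R *ᵥ p.2))).image (fun p => (p.1, Rᵀ *ᵥ p.2)) = Λ := by
  ext r
  simp only [Finset.mem_image, exists_exists_and_eq_and]
  constructor
  · rintro ⟨a, ha, rfl⟩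
    simpa [invR hR] using ha
  · intro hr
    exact ⟨r, hr, by simp [invR hR]⟩

end Tr

open Tr

open scoped Classical in
/-- transport by an orthogonal matrix acting on the second components -/
theorem transport {Λ : Finset (V × V)} {X Y : Finset V} {n B K h : ℝ} {κ κ' : V → ℝ} (R : M3)
    (hR : Rᵀ * R = 1) (hyp : Hyp Λ X Y n B K) (hl : Lab X Y κ κ' h) :
    Hyp (Λ.image (fun p => (p.1, R *ᵥ p.2))) X (Y.image (fun y => R *ᵥ y)) n B K ∧
    Lab X (Y.image (fun y => R *ᵥ y)) κ (fun y => κ' (Rᵀ *ᵥ y)) h ∧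
    (Λ.image (fun p => (p.1, R *ᵥ p.2))).card = Λ.card ∧
    ∀ p ∈ Λ, ∀ q ∈ Λ, (Bad Λ κ κ' h p q ↔
      Bad (Λ.image (fun p => (p.1, R *ᵥ p.2))) κ (fun y => κ' (Rᵀ *ᵥ y)) h
        (p.1, R *ᵥ p.2) (q.1, R *ᵥ q.2)) := by
  have hinjT : Function.Injective (fun y : V => Rᵀ *ᵥ y) := injR (rt' hR)
  have hmemT : ∀ y ∈ Y.image (fun y => R *ᵥ y), Rᵀ *ᵥ y ∈ Y := by
    intro y hy
    obtain ⟨y0, hy0, rfl⟩ := Finset.mem_image.1 hy
    simpa [invR hR] using hy0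
  have hback : ∀ F ⊆ Y.image (fun y => R *ᵥ y), F.image (fun y => Rᵀ *ᵥ y) ⊆ Y ∧
      (F.image (fun y => Rᵀ *ᵥ y)).card = F.card := by
    intro F hF
    refine ⟨?_, Finset.card_image_of_injective _ hinjT⟩
    intro z hz
    obtain ⟨y, hy, rfl⟩ := Finset.mem_image.1 hz
    exact hmemT y (hF hy)
  refine ⟨?_, ?_, ?_, ?_⟩
  · constructor
    · intro p hp
      obtain ⟨p0, hp0, rfl⟩ := Finset.mem_image.1 hp
      refine ⟨?_, (hyp.pair p0 hp0).2⟩
      show p0.1 ⬝ᵥ p0.1 = (R *ᵥ p0.2) ⬝ᵥ (R *ᵥ p0.2)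
      rw [dotR hR]
      exact (hyp.pair p0 hp0).1
    · intro p hp
      obtain ⟨p0, hp0, rfl⟩ := Finset.mem_image.1 hp
      exact hyp.memX p0 hp0
    · intro p hp
      obtain ⟨p0, hp0, rfl⟩ := Finset.mem_image.1 hp
      exact Finset.mem_image_of_mem _ (hyp.memY p0 hp0)
    · exact hyp.cardX
    · refine le_trans ?_ hyp.cardY
      exact_mod_cast Finset.card_image_le
    · exact hyp.planeX
    · intro u b hu F hF hFb
      obtain ⟨h1, h2⟩ := hback F hF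
      rw [← h2]
      refine hyp.planeY (Rᵀ *ᵥ u) b ?_ _ h1 ?_
      · intro h0
        apply hu
        have := congrArg (fun y => R *ᵥ y) h0
        simpa [invR' hR] using this
      · intro x hx
        obtain ⟨y, hy, rfl⟩ := Finset.mem_image.1 hx
        show (Rᵀ *ᵥ u) ⬝ᵥ (Rᵀ *ᵥ y) = b
        rw [dotR (rt' hR)]
        exact hFb y hy
    · exact hyp.lineX
    · intro u hu F hF hFb
      obtain ⟨h1, h2⟩ := hback F hF
      rw [← h2]
      refine hyp.lineY (Rᵀ *ᵥ u) ?_ _ h1 ?_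
      · intro h0
        apply hu
        have := congrArg (fun y => R *ᵥ y) h0
        simpa [invR' hR] using this
      · intro x hx
        obtain ⟨y, hy, rfl⟩ := Finset.mem_image.1 hx
        exact cr_map _ _ _ (hFb y hy)
  · intro A B hAB hdet h1 h2 h3 h4 x hx hxA x' hx' hxB y hy hyB y' hy' hyA hκ
    have e1 : (Rᵀ * A)ᵀ * (Rᵀ * B) = 1 := by
      rw [Matrix.transpose_mul, Matrix.transpose_transpose, Matrix.mul_assoc,
        ← Matrix.mul_assoc R Rᵀ B, rt hR, Matrix.one_mul, hAB]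
    have e2 : (Rᵀ * A)ᵀ * (Rᵀ * A) = Aᵀ * A := by
      rw [Matrix.transpose_mul, Matrix.transpose_transpose, Matrix.mul_assoc,
        ← Matrix.mul_assoc R Rᵀ A, rt hR, Matrix.one_mul]
    refine hl (Rᵀ * A) (Rᵀ * B) e1 (by rw [e2]; exact hdet) ?_ ?_ ?_ ?_ x hx
      ((iso_left hR A x).2 hxA) x' hx' ((iso_left hR B x').2 hxB) (Rᵀ *ᵥ y) (hmemT y hy)
      ((iso_right hR B y).2 hyB) (Rᵀ *ᵥ y') (hmemT y' hy') ((iso_right hR A y').2 hyA) hκ
    · obtain ⟨F, hF, hFi, hFc⟩ := h1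
      exact ⟨F, hF, fun x hx => (iso_left hR A x).2 (hFi x hx), hFc⟩
    · obtain ⟨F, hF, hFi, hFc⟩ := h2
      exact ⟨F, hF, fun x hx => (iso_left hR B x).2 (hFi x hx), hFc⟩
    · obtain ⟨F, hF, hFi, hFc⟩ := h3
      refine ⟨F.image (fun y => Rᵀ *ᵥ y), (hback F hF).1, ?_, ?_⟩
      · intro z hz
        obtain ⟨y, hy, rfl⟩ := Finset.mem_image.1 hz
        exact (iso_right hR B y).2 (hFi y hy)
      · rw [(hback F hF).2]; exact hFc
    · obtain ⟨F, hF, hFi, hFc⟩ := h4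
      refine ⟨F.image (fun y => Rᵀ *ᵥ y), (hback F hF).1, ?_, ?_⟩
      · intro z hz
        obtain ⟨y, hy, rfl⟩ := Finset.mem_image.1 hz
        exact (iso_right hR A y).2 (hFi y hy)
      · rw [(hback F hF).2]; exact hFc
  · apply Finset.card_image_of_injective
    intro a b hab
    have h1 : a.1 = b.1 := (Prod.mk.inj hab).1
    have h2 : R *ᵥ a.2 = R *ᵥ b.2 := (Prod.mk.inj hab).2
    exact Prod.ext h1 (injR hR h2)
  · intro p hp q hq
    have hrich : RichPair Λ h p q ↔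
        RichPair (Λ.image (fun p => (p.1, R *ᵥ p.2))) h (p.1, R *ᵥ p.2) (q.1, R *ᵥ q.2) := by
      constructor
      · exact rich_mp hR
      · intro H
        have H2 := rich_mp (rt' hR) H
        rw [image_back hR] at H2
        simpa [invR hR] using H2
    unfold Bad Meet
    simp only [dotR hR, invR hR, hrich]

end Vale.Agent.P054.Y.GF
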