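import Vale.Agent.P054.Y.GF.FibreChart
import Vale.Agent.P054.Y.GF.GenRot
import Vale.Agent.P054.Y.GF.Transport

/-! Leaf GF-Fibre: the bound for the number of bad pairs, without the chart condition: a generic rotation of the
second components (`exists_rot`) puts `Λ` in general position with respect to the chart, all notions are
transported (`transport`), then `fibre_chart`. -/

set_option linter.all false

namespace Vale.Agent.P054.Y.GF

open Finset Matrix MvPolynomial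
open Vale.Agent.P041.SE

open scoped Classical in
theorem fibre (e : ℝ) (he : 0 < e) (he1 : e ≤ 1 / 2) : ∃ C : ℝ, 1 ≤ C ∧
    ∀ (Λ : Finset (V × V)) (X Y : Finset V) (n B K h : ℝ) (κ κ' : V → ℝ), 1 ≤ K → 0 ≤ B → 1 ≤ n →
    Hyp Λ X Y n B K → Lab X Y κ κ' h →
    C * K * (B + (Λ.card : ℝ) ^ (1 / 2 : ℝ) + 1) ≤ h → C * K ^ 2 * n ^ 2 ≤ h ^ 3 →
    (((Λ ×ˢ Λ).filter (fun q => Bad Λ κ κ' h q.1 q.2)).card : ℝ) ≤
      C * K ^ 2 * ((Λ.card : ℝ) ^ (3 / 2 + e) + Λ.card * h) := by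
  obtain ⟨C, hC, H⟩ := fibre_chart e he he1
  refine ⟨C, hC, ?_⟩
  intro Λ X Y n B K h κ κ' hK hB hn hyp hl h1 h2
  obtain ⟨R, hR, hch⟩ := exists_rot Λ hyp.pair
  obtain ⟨hyp', hl', hcard, hbad⟩ := transport R hR hyp hl
  have key := H (Λ.image (fun p => (p.1, R *ᵥ p.2))) X (Y.image (fun y => R *ᵥ y)) n B K h κ
    (fun y => κ' (Rᵀ *ᵥ y)) hK hB hn hyp' hch hl' (by rw [hcard]; exact h1) h2
  rw [hcard] at key
  refine le_trans ?_ key
  have hinj : Set.InjOn (fun p : V × V => (p.1, R *ᵥ p.2)) (Λ : Set (V × V)) :=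
    Finset.card_image_iff.1 hcard
  norm_cast
  refine Finset.card_le_card_of_injOn
    (fun q : (V × V) × (V × V) => ((q.1.1, R *ᵥ q.1.2), (q.2.1, R *ᵥ q.2.2))) ?_ ?_
  · intro q hq
    have hq' := Finset.mem_filter.1 (Finset.mem_coe.1 hq)
    obtain ⟨hm, hb⟩ := hq'
    obtain ⟨hm1, hm2⟩ := Finset.mem_product.1 hm
    refine Finset.mem_coe.2 (Finset.mem_filter.2 ⟨Finset.mem_product.2 ⟨?_, ?_⟩, ?_⟩)
    · exact Finset.mem_image_of_mem (fun p : V × V => (p.1, R *ᵥ p.2)) hm1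
    · exact Finset.mem_image_of_mem (fun p : V × V => (p.1, R *ᵥ p.2)) hm2
    · exact (hbad q.1 hm1 q.2 hm2).1 hb
  · intro q hq q' hq' heq
    have hm := (Finset.mem_product.1 (Finset.mem_filter.1 (Finset.mem_coe.1 hq)).1)
    have hm' := (Finset.mem_product.1 (Finset.mem_filter.1 (Finset.mem_coe.1 hq')).1)
    have e1 := (Prod.mk.inj heq).1
    have e2 := (Prod.mk.inj heq).2
    exact Prod.ext (hinj (Finset.mem_coe.2 hm.1) (Finset.mem_coe.2 hm'.1) e1)
      (hinj (Finset.mem_coe.2 hm.2) (Finset.mem_coe.2 hm'.2) e2)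

end Vale.Agent.P054.Y.GF
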