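import Vale.Agent.P054.Y.GF.MTDefs
import Vale.Agent.P054.Y.G.Gram

/-! all pairs of `Λ` whose line contains the point have `x·x' = y·y'` (`dot_of_meet`); `Gram.exists_orth`; the number of such pairs is at least the number `mult` of lines -/

set_option linter.all false

namespace Vale.Agent.P054.Y.GF

open Finset Matrix MvPolynomial
open Vale.Agent.P041.SE

open scoped Classical in
/-- rich points give rich pairs -/
theorem rich_of_mult {Λ : Finset (V × V)} {X Y : Finset V} {n B K : ℝ} (hyp : Hyp Λ X Y n B K)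
    (hc : InChart Λ) {h : ℝ} {p p' : V × V} (hp : p ∈ Λ) (hp' : p' ∈ Λ) {t : ℝ}
    (ht : gpt (ln p) t = gpt (ln p') t) (hm : h ≤ (GC.mult (Λ.image ln) (gpt (ln p) t) : ℝ)) :
    RichPair Λ h p p' := by
  set w := gpt (ln p) t with hw
  set Λw : Finset (V × V) := Λ.filter (fun r => ∃ t', gpt (ln r) t' = w) with hΛw
  have hdot : ∀ r s : Λw, r.1.1 ⬝ᵥ s.1.1 = r.1.2 ⬝ᵥ s.1.2 := by
    rintro ⟨r, hr⟩ ⟨s, hs⟩
    rw [hΛw, Finset.mem_filter] at hr hs
    obtain ⟨hr1, t1, ht1⟩ := hr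
    obtain ⟨hs1, t2, ht2⟩ := hs
    exact dot_of_meet (hyp.pair r hr1) (hyp.pair s hs1) (hc.1 r hr1) (hc.1 s hs1)
      (ht1.trans ht2.symm)
  obtain ⟨Q, hQ, hQr⟩ := G.Gram.exists_orth (fun r : Λw => r.1.1) (fun r : Λw => r.1.2) hdot
  have hpw : p ∈ Λw := Finset.mem_filter.2 ⟨hp, t, rfl⟩
  have hpw' : p' ∈ Λw := Finset.mem_filter.2 ⟨hp', t, ht.symm⟩
  refine ⟨Q, hQ, hQr ⟨p, hpw⟩, hQr ⟨p', hpw'⟩, ?_⟩
  have hsub : Λw ⊆ Λ.filter (fun r => Q *ᵥ r.1 = r.2) := by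
    intro r hr
    refine Finset.mem_filter.2 ⟨(Finset.mem_filter.1 hr).1, hQr ⟨r, hr⟩⟩
  have himg : (Λ.image ln).filter (fun l => ∃ w', gpt l w' = w) ⊆ Λw.image ln := by
    intro l hl
    obtain ⟨hl1, t', hl2⟩ := Finset.mem_filter.1 hl
    obtain ⟨r, hr, rfl⟩ := Finset.mem_image.1 hl1
    exact Finset.mem_image.2 ⟨r, Finset.mem_filter.2 ⟨hr, t', hl2⟩, rfl⟩
  have h1 : GC.mult (Λ.image ln) w ≤ (Λ.filter (fun r => Q *ᵥ r.1 = r.2)).card := by
    calc GC.mult (Λ.image ln) w = ((Λ.image ln).filter (fun l => ∃ w', gpt l w' = w)).card := by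
          unfold GC.mult
          congr
      _ ≤ (Λw.image ln).card := Finset.card_le_card himg
      _ ≤ Λw.card := Finset.card_image_le
      _ ≤ _ := Finset.card_le_card hsub
  have h2 : (GC.mult (Λ.image ln) w : ℝ) ≤ ((Λ.filter (fun r => Q *ᵥ r.1 = r.2)).card : ℝ) := by
    exact_mod_cast h1
  refine le_trans hm (le_trans h2 (le_of_eq ?_))
  congr

end Vale.Agent.P054.Y.GF
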