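import Vale.Agent.P054.Y.GF.MTDefs

/-! Leaf GF-Fibre.
`surf_sum`: as `GC.rich_surf` (GC4.lean), with the bound `W * #inSurf` for the number of pairs of `P` in the
  surface instead of `#inSurf^2`: choose `F` = set of the `inSurf S φ` (with one `φ` each), `∑ #X ≤ 2 L`
  (`GC.sum_card_le_of_inter`). -/

set_option linter.all false

namespace Vale.Agent.P054.Y.GF

open Finset Matrix MvPolynomial
open Vale.Agent.P041.SE

open scoped Classical in
theorem surf_sum (S : Finset Ln) {D : ℕ} {L T W : ℝ} (hS : (S.card : ℝ) ≤ L) (hT : 0 < T)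
    (hTL : 2 * L * (D : ℝ) ^ 2 ≤ T ^ 2) (hW : 0 ≤ W) (P : Finset (Ln × Ln))
    (hP : ∀ q ∈ P, q.1 ∈ S ∧ q.2 ∈ S ∧ ∃ φ : MvPolynomial (Fin 3) ℝ,
      Irreducible φ ∧ φ.totalDegree ≤ D ∧ On φ q.1 ∧ On φ q.2 ∧ T ≤ (GC.inSurf S φ).card)
    (hb : ∀ φ : MvPolynomial (Fin 3) ℝ, Irreducible φ → φ.totalDegree ≤ D →
      T ≤ (GC.inSurf S φ).card →
      ((P.filter (fun q => On φ q.1 ∧ On φ q.2)).card : ℝ) ≤ W * (GC.inSurf S φ).card) :
    (P.card : ℝ) ≤ 2 * L * W := by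
  obtain ⟨F, hF⟩ : ∃ F : Finset (Finset Ln), F = S.powerset.filter
    (fun X => ∃ φ : MvPolynomial (Fin 3) ℝ,
      Irreducible φ ∧ φ.totalDegree ≤ D ∧ X = GC.inSurf S φ ∧ T ≤ (X.card : ℝ)) := ⟨_, rfl⟩
  have hFmem : ∀ X ∈ F, X ⊆ S ∧ ∃ φ : MvPolynomial (Fin 3) ℝ,
    Irreducible φ ∧ φ.totalDegree ≤ D ∧ X = GC.inSurf S φ ∧ T ≤ (X.card : ℝ) := by
    intro X hX
    rw [hF, Finset.mem_filter, Finset.mem_powerset] at hX
    exact hX
  have h1 : ∑ X ∈ F, (X.card : ℝ) ≤ 2 * L := by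
    refine GC.sum_card_le_of_inter (B := (D : ℝ) ^ 2) S F hS ?_ hT (by positivity) ?_ hTL
    · intro X hX
      obtain ⟨h2, φ, -, -, -, h3⟩ := hFmem X hX
      exact ⟨h2, h3⟩
    · intro X hX X' hX' hne
      obtain ⟨-, φ, hφ, hφD, hXφ, -⟩ := hFmem X hX
      obtain ⟨-, φ', hφ', hφD', hXφ', -⟩ := hFmem X' hX'
      have hnd : ¬ φ ∣ φ' := by
        intro hd
        apply hne
        have hass : Associated φ φ' := hφ.associated_of_dvd hφ' hd
        rw [hXφ, hXφ']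
        unfold GC.inSurf
        apply Finset.filter_congr
        intro l _
        exact ⟨fun h => GC.on_of_dvd hass.dvd h, fun h => GC.on_of_dvd hass.symm.dvd h⟩
      have h2 := graph_bezout hφ hnd (X ∩ X') (by
        intro l hl w
        have := (Finset.mem_inter.1 hl).1
        rw [hXφ, GC.inSurf, Finset.mem_filter] at this
        exact this.2 w) (by
        intro l hl w
        have := (Finset.mem_inter.1 hl).2
        rw [hXφ', GC.inSurf, Finset.mem_filter] at this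
        exact this.2 w)
      have h3 : (X ∩ X').card ≤ D ^ 2 := by
        rw [sq]
        exact h2.trans (Nat.mul_le_mul hφD hφD')
      exact_mod_cast h3
  have h2 : P ⊆ F.biUnion (fun X => P.filter (fun q => q.1 ∈ X ∧ q.2 ∈ X)) := by
    intro q hq
    obtain ⟨h3, h4, φ, hφ, hφD, h5, h6, h7⟩ := hP q hq
    rw [Finset.mem_biUnion]
    refine ⟨GC.inSurf S φ, ?_, ?_⟩
    · rw [hF, Finset.mem_filter, Finset.mem_powerset]
      exact ⟨Finset.filter_subset _ _, φ, hφ, hφD, rfl, h7⟩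
    · rw [Finset.mem_filter, GC.inSurf, Finset.mem_filter, Finset.mem_filter]
      exact ⟨hq, ⟨h3, h5⟩, ⟨h4, h6⟩⟩
  have h3 : P.card ≤ ∑ X ∈ F, (P.filter (fun q => q.1 ∈ X ∧ q.2 ∈ X)).card :=
    (Finset.card_le_card h2).trans Finset.card_biUnion_le
  have h4 : ∀ X ∈ F, ((P.filter (fun q => q.1 ∈ X ∧ q.2 ∈ X)).card : ℝ) ≤ W * (X.card : ℝ) := by
    intro X hX
    obtain ⟨-, φ, hφ, hφD, hXφ, hTX⟩ := hFmem X hX
    have h5 := hb φ hφ hφD (by rw [← hXφ]; exact hTX)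
    rw [← hXφ] at h5
    refine le_trans ?_ h5
    have h6 : P.filter (fun q => q.1 ∈ X ∧ q.2 ∈ X) ⊆
        P.filter (fun q => On φ q.1 ∧ On φ q.2) := by
      intro q hq
      rw [Finset.mem_filter] at hq ⊢
      obtain ⟨hq1, hq2, hq3⟩ := hq
      rw [hXφ, GC.inSurf, Finset.mem_filter] at hq2 hq3
      exact ⟨hq1, hq2.2, hq3.2⟩
    exact_mod_cast Finset.card_le_card h6
  calc (P.card : ℝ) ≤ ((∑ X ∈ F, (P.filter (fun q => q.1 ∈ X ∧ q.2 ∈ X)).card : ℕ) : ℝ) := by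
        exact_mod_cast h3
    _ = ∑ X ∈ F, ((P.filter (fun q => q.1 ∈ X ∧ q.2 ∈ X)).card : ℝ) := by push_cast; rfl
    _ ≤ ∑ X ∈ F, W * (X.card : ℝ) := Finset.sum_le_sum h4
    _ = W * ∑ X ∈ F, (X.card : ℝ) := by rw [Finset.mul_sum]
    _ ≤ W * (2 * L) := mul_le_mul_of_nonneg_left h1 hW
    _ = _ := by ring

end Vale.Agent.P054.Y.GF
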