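import Vale.Agent.P054.Y.GF.Surf
import Vale.Agent.P054.Y.GF.SurfSum
import Vale.Agent.P054.Y.GF.CardPairs
import Vale.Agent.P054.Y.GF.RichMult

/-! Leaf GF-Fibre.
`fibre_chart`: `S = Λ.image ln`, `L = max (#Λ) 1`, `V0 = L^(1/2)`, `U = L^(1/2+e)`, `D, K1` from `GC.claim e`.
  Every line has at most `K` representatives (`ln_eq`, `lineX`, and `q.2 = μ p.2` is determined by `μ`), so the number of
  pairs is `≤ K^2 #P'`, `P'` = image in `S × S`.  `(l, l') ∈ P'`: `l ≠ l'` (`cr ≠ 0`, `ln_eq`), they meet at a point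
  `w` (`ln_meet`, InChart).  (i) `mult S w > V0`: then `mult S w < h` (otherwise the pairs of `Λ` with line
  through `w` have `x·x' = y·y'` (`dot_of_meet`), `Gram.exists_orth` gives `Q`, RichPair): `GC.rich_pairs` with
  `a = ⌊V0⌋₊`, `U = h`: `≤ 3·2^12 Λ0^2 L^2 / a + 6 L h`, `Λ0 = 12 log (L+1) + 1`, `≤ C (L^(3/2+e) + L h)` (for `L`
  large; for `L` small use `#P' ≤ L^2`).  (ii) otherwise and `(l,l') ∈ GC.G D V0 U S`: `GC.claim`.  (iii) otherwise there is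
  an irreducible `φ` of degree `≤ D` with `U ≤ #inSurf S φ` containing both: `surf_bound` with `v = V0`,
  `surf_sum` with `W = 2 h`: `≤ 4 L h` (for `L` so large that `2 L D^2 ≤ U^2`). -/

set_option linter.all false

namespace Vale.Agent.P054.Y.GF

open Finset Matrix MvPolynomial
open Vale.Agent.P041.SE

/-- bad pairs give different meeting lines -/
theorem bad_lines {Λ : Finset (V × V)} {X Y : Finset V} {n B K h : ℝ} {κ κ' : V → ℝ}
    (hyp : Hyp Λ X Y n B K) (hc : InChart Λ) {p p' : V × V} (hp : p ∈ Λ) (hp' : p' ∈ Λ)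
    (hb : Bad Λ κ κ' h p p') : ln p ≠ ln p' ∧ ∃ t, gpt (ln p) t = gpt (ln p') t := by
  obtain ⟨hm, -, -, -⟩ := hb
  constructor
  · intro he
    obtain ⟨μ, -, h1, -⟩ := ln_eq (hyp.pair p hp) (hyp.pair p' hp') (hc.1 p hp) (hc.1 p' hp') he
    apply hm.2
    rw [h1]
    ext i
    fin_cases i <;> simp [cr] <;> ring
  · exact ln_meet (hyp.pair p hp) (hyp.pair p' hp') (hc.1 p hp) (hc.1 p' hp') hm.1
      (hc.2 p hp p' hp' hm)

open scoped Classical in
/-- the bound for the pairs of lines, `L` large -/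
theorem fibre_lines {e : ℝ} (he : 0 < e) (he1 : e ≤ 1 / 2) {D : ℕ} {K1 Cs L : ℝ}
    (hK1 : ∀ (L : ℝ) (S : Finset Ln), 1 ≤ L → (#S : ℝ) ≤ L →
      (#(GC.G D (L ^ (1 / 2 : ℝ)) (L ^ (1 / 2 + e)) S) : ℝ) ≤ K1 * L ^ (3 / 2 + e))
    (hCs : ∀ (Λ : Finset (V × V)) (X Y : Finset V)
      (n B K h v : ℝ) (κ κ' : V → ℝ), 1 ≤ K → 0 ≤ B → 0 ≤ v → 1 ≤ n → Hyp Λ X Y n B K → InChart Λ →
      Lab X Y κ κ' h → Cs * K * (B + v + 1) ≤ h → Cs * K ^ 2 * n ^ 2 ≤ h ^ 3 →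
      ∀ φ : MvPolynomial (Fin 3) ℝ, Irreducible φ → φ.totalDegree ≤ D →
      ∀ T : Finset (Ln × Ln), T ⊆ MT (Λ.image ln) φ v →
      (∀ q ∈ T, ∃ p ∈ Λ, ∃ p' ∈ Λ, ln p = q.1 ∧ ln p' = q.2 ∧ Bad Λ κ κ' h p p') →
      (T.card : ℝ) ≤ 2 * h * (GC.inSurf (Λ.image ln) φ).card)
    {Λ : Finset (V × V)} {X Y : Finset V} {n B K h : ℝ} {κ κ' : V → ℝ} (hK : 1 ≤ K) (hB : 0 ≤ B)
    (hn : 1 ≤ n) (hyp : Hyp Λ X Y n B K) (hc : InChart Λ) (hl : Lab X Y κ κ' h)
    (hL1 : 1 ≤ L) (hLΛ : (Λ.card : ℝ) = L)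
    (h1 : Cs * K * (B + L ^ (1 / 2 : ℝ) + 1) ≤ h) (h2 : Cs * K ^ 2 * n ^ 2 ≤ h ^ 3) (hh : 0 < h)
    (e1 : 12 * Real.log (L + 1) + 1 ≤ 1 / 128 * L ^ (1 / 2 : ℝ))
    (e2 : 12 * Real.log (L + 1) + 1 ≤ 1 * L ^ (e / 2))
    (e3 : 2 * (D : ℝ) ^ 2 ≤ L ^ (2 * e))
    (P : Finset (Ln × Ln))
    (hP : ∀ q ∈ P, ∃ p ∈ Λ, ∃ p' ∈ Λ, ln p = q.1 ∧ ln p' = q.2 ∧ Bad Λ κ κ' h p p') :
    (P.card : ℝ) ≤ (3 * 2 ^ 13 + K1) * L ^ (3 / 2 + e) + 10 * (L * h) := by
  have hL0 : 0 < L := by linarith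
  set S : Finset Ln := Λ.image ln with hS
  have hSc : (S.card : ℝ) ≤ L := by
    rw [← hLΛ]; exact_mod_cast card_image_le
  set V0 : ℝ := L ^ (1 / 2 : ℝ) with hV0
  set U : ℝ := L ^ (1 / 2 + e) with hU
  have hV00 : 0 < V0 := Real.rpow_pos_of_pos hL0 _
  have hU0 : 0 < U := Real.rpow_pos_of_pos hL0 _
  have hlog : 0 ≤ Real.log (L + 1) := Real.log_nonneg (by linarith)
  have hV128 : 128 ≤ V0 := by
    have : 1 ≤ 1 / 128 * V0 := by linarith
    linarith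
  -- the three parts
  set P1 : Finset (Ln × Ln) := P.filter (fun q => ∃ t, gpt q.1 t = gpt q.2 t ∧
    V0 < (GC.mult S (gpt q.1 t) : ℝ) ∧ (GC.mult S (gpt q.1 t) : ℝ) ≤ h) with hP1
  set P3 : Finset (Ln × Ln) := P.filter (fun q => (q.1 ≠ q.2 ∧ ∃ t, gpt q.1 t = gpt q.2 t ∧
    (GC.mult S (gpt q.1 t) : ℝ) ≤ V0) ∧ ∃ φ : MvPolynomial (Fin 3) ℝ,
      Irreducible φ ∧ φ.totalDegree ≤ D ∧ On φ q.1 ∧ On φ q.2 ∧ U ≤ (GC.inSurf S φ).card) with hP3
  have hmem : ∀ q ∈ P, q.1 ∈ S ∧ q.2 ∈ S := by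
    intro q hq
    obtain ⟨p, hp, p', hp', h3, h4, -⟩ := hP q hq
    exact ⟨h3 ▸ mem_image_of_mem ln hp, h4 ▸ mem_image_of_mem ln hp'⟩
  have hcov : P ⊆ P1 ∪ (GC.G D V0 U S ∪ P3) := by
    intro q hq
    obtain ⟨p, hp, p', hp', h3, h4, hbad⟩ := hP q hq
    obtain ⟨hne, t, ht⟩ := bad_lines hyp hc hp hp' hbad
    rw [h3, h4] at hne ht
    rw [mem_union, mem_union]
    by_cases c1 : (GC.mult S (gpt q.1 t) : ℝ) ≤ V0
    · by_cases c2 : ∃ φ : MvPolynomial (Fin 3) ℝ,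
        Irreducible φ ∧ φ.totalDegree ≤ D ∧ On φ q.1 ∧ On φ q.2 ∧ U ≤ (GC.inSurf S φ).card
      · right; right
        rw [hP3, mem_filter]
        exact ⟨hq, ⟨hne, t, ht, c1⟩, c2⟩
      · right; left
        push Not at c2
        exact GC.mem_G.2 ⟨hmem q hq, hne, ⟨t, ht, c1⟩, fun φ a1 a2 a3 a4 => c2 φ a1 a2 a3 a4⟩
    · left
      rw [hP1, mem_filter]
      refine ⟨hq, t, ht, not_le.1 c1, ?_⟩
      by_contra hcon
      apply hbad.2.2.2
      refine rich_of_mult hyp hc hp hp' (t := t) ?_ ?_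
      · rw [h3, h4]; exact ht
      · rw [h3]; exact (not_le.1 hcon).le
  -- part 1
  have hb1 : (P1.card : ℝ) ≤ 3 * 2 ^ 13 * L ^ (3 / 2 + e) + 6 * (L * h) := by
    set a : ℕ := ⌊V0⌋₊ with ha
    have ha1 : (a : ℝ) ≤ V0 := Nat.floor_le hV00.le
    have ha2 : V0 / 2 ≤ (a : ℝ) := by
      have := Nat.lt_floor_add_one V0
      linarith
    have ha0 : (0 : ℝ) < a := by linarith
    have hlogS : Real.log ((S.card : ℝ) + 1) ≤ Real.log (L + 1) := by
      apply Real.log_le_log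
      · have : (0 : ℝ) ≤ S.card := Nat.cast_nonneg _
        linarith
      · linarith
    have hr := GC.rich_pairs S (a := a) (U := h) (Λ := 12 * Real.log (L + 1) + 1)
      (by linarith) (by linarith) hh.le P1 (by
        intro q hq
        rw [hP1, mem_filter] at hq
        obtain ⟨hqP, t, ht, h5, h6⟩ := hq
        refine ⟨(hmem q hqP).1, (hmem q hqP).2, gpt q.1 t, ⟨t, rfl⟩, ⟨t, ht.symm⟩, ?_, h6⟩
        have : (a : ℝ) ≤ (GC.mult S (gpt q.1 t) : ℝ) := by linarith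
        exact_mod_cast this)
    have hS2 : (S.card : ℝ) ^ 2 ≤ L ^ 2 := pow_le_pow_left₀ (Nat.cast_nonneg _) hSc 2
    have hΛ2 : (12 * Real.log (L + 1) + 1) ^ 2 ≤ L ^ e := by
      have h7 : (12 * Real.log (L + 1) + 1) ^ 2 ≤ (1 * L ^ (e / 2)) ^ 2 :=
        pow_le_pow_left₀ (by linarith) e2 2
      refine h7.trans (le_of_eq ?_)
      rw [one_mul, ← Real.rpow_natCast, ← Real.rpow_mul hL0.le]
      congr 1
      push_cast
      ring
    have hLe : 0 < L ^ e := Real.rpow_pos_of_pos hL0 _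
    have h8 : 3 * 2 ^ 12 * (12 * Real.log (L + 1) + 1) ^ 2 * (S.card : ℝ) ^ 2 / a
        ≤ 3 * 2 ^ 13 * L ^ (3 / 2 + e) := by
      have h9 : L ^ (3 / 2 + e) * V0 = L ^ e * L ^ 2 := by
        rw [hV0, ← Real.rpow_natCast L 2, ← Real.rpow_add hL0, ← Real.rpow_add hL0]
        congr 1
        push_cast
        ring
      rw [div_le_iff₀ ha0]
      have h10 : 0 < L ^ (3 / 2 + e) := Real.rpow_pos_of_pos hL0 _
      calc 3 * 2 ^ 12 * (12 * Real.log (L + 1) + 1) ^ 2 * (S.card : ℝ) ^ 2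
          ≤ 3 * 2 ^ 12 * L ^ e * L ^ 2 := by gcongr
        _ = 3 * 2 ^ 12 * (L ^ (3 / 2 + e) * V0) := by rw [h9]; ring
        _ = 3 * 2 ^ 13 * L ^ (3 / 2 + e) * (V0 / 2) := by ring
        _ ≤ 3 * 2 ^ 13 * L ^ (3 / 2 + e) * a := by gcongr
    have h11 : 6 * (S.card : ℝ) * h ≤ 6 * (L * h) := by
      have := mul_le_mul_of_nonneg_right hSc hh.le
      linarith
    linarith
  -- part 2
  have hb2 : ((GC.G D V0 U S).card : ℝ) ≤ K1 * L ^ (3 / 2 + e) := hK1 L S hL1 hSc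
  -- part 3
  have hb3 : (P3.card : ℝ) ≤ 4 * (L * h) := by
    have h12 := surf_sum S (D := D) (L := L) (T := U) (W := 2 * h) hSc hU0 (by
        have h13 : U ^ 2 = L * L ^ (2 * e) := by
          rw [hU, ← Real.rpow_natCast (L ^ (1 / 2 + e)) 2, ← Real.rpow_mul hL0.le,
            ← Real.rpow_one_add' hL0.le (by positivity)]
          congr 1
          push_cast
          ring
        rw [h13]
        have := mul_le_mul_of_nonneg_left e3 hL0.le
        linarith) (by linarith) P3 (by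
        intro q hq
        rw [hP3, mem_filter] at hq
        exact ⟨(hmem q hq.1).1, (hmem q hq.1).2, hq.2.2⟩) (by
        intro φ hφ hφD hφU
        refine hCs Λ X Y n B K h V0 κ κ' hK hB hV00.le hn hyp hc hl h1 h2 φ hφ hφD _ ?_ ?_
        · intro q hq
          rw [mem_filter, hP3, mem_filter] at hq
          obtain ⟨⟨hqP, h14, -⟩, h15, h16⟩ := hq
          unfold MT
          rw [mem_filter, mem_product]
          unfold GC.inSurf
          rw [mem_filter, mem_filter]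
          exact ⟨⟨⟨(hmem q hqP).1, h15⟩, (hmem q hqP).2, h16⟩, h14⟩
        · intro q hq
          rw [mem_filter, hP3, mem_filter] at hq
          exact hP q hq.1.1)
    linarith
  have htot : (P.card : ℝ) ≤ P1.card + ((GC.G D V0 U S).card + P3.card) := by
    have h17 : P.card ≤ P1.card + ((GC.G D V0 U S).card + P3.card) :=
      (card_le_card hcov).trans ((card_union_le _ _).trans
        (Nat.add_le_add_left (card_union_le _ _) _))
    exact_mod_cast h17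
  linarith

open scoped Classical in
theorem fibre_chart (e : ℝ) (he : 0 < e) (he1 : e ≤ 1 / 2) : ∃ C : ℝ, 1 ≤ C ∧
    ∀ (Λ : Finset (V × V)) (X Y : Finset V) (n B K h : ℝ) (κ κ' : V → ℝ), 1 ≤ K → 0 ≤ B → 1 ≤ n →
    Hyp Λ X Y n B K → InChart Λ → Lab X Y κ κ' h →
    C * K * (B + (Λ.card : ℝ) ^ (1 / 2 : ℝ) + 1) ≤ h → C * K ^ 2 * n ^ 2 ≤ h ^ 3 →
    (((Λ ×ˢ Λ).filter (fun q => Bad Λ κ κ' h q.1 q.2)).card : ℝ) ≤
      C * K ^ 2 * ((Λ.card : ℝ) ^ (3 / 2 + e) + Λ.card * h) := by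
  obtain ⟨D, K1, hK10, hK1⟩ := GC.claim e he he1
  obtain ⟨Cs, hCs1, hCs⟩ := surf_bound D
  have e1 := GC.ev_log (c := 1 / 128) (δ := 1 / 2) (by norm_num) (by norm_num)
  have e2 := GC.ev_log (c := 1) (δ := e / 2) one_pos (by positivity)
  have e3 := (tendsto_rpow_atTop (show 0 < 2 * e by positivity)).eventually_ge_atTop
    (2 * (D : ℝ) ^ 2)
  obtain ⟨L0, hL0⟩ := Filter.eventually_atTop.1 ((e1.and e2).and e3)
  set L1 : ℝ := max L0 1 with hL1
  have hL11 : 1 ≤ L1 := le_max_right _ _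
  have hL1p : 0 ≤ L1 ^ (1 / 2 : ℝ) := Real.rpow_nonneg (by linarith) _
  refine ⟨Cs + (3 * 2 ^ 13 + K1 + 10) + L1 ^ (1 / 2 : ℝ), by linarith, ?_⟩
  intro Λ X Y n B K h κ κ' hK hB hn hyp hc hl h1 h2
  set C : ℝ := Cs + (3 * 2 ^ 13 + K1 + 10) + L1 ^ (1 / 2 : ℝ) with hC
  have hC1 : 1 ≤ C := by linarith
  have hCCs : Cs ≤ C := by linarith
  have hv0 : 0 ≤ (Λ.card : ℝ) ^ (1 / 2 : ℝ) := Real.rpow_nonneg (Nat.cast_nonneg _) _
  have hh : 0 < h := by
    refine lt_of_lt_of_le ?_ h1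
    positivity
  set Q := (Λ ×ˢ Λ).filter (fun q => Bad Λ κ κ' h q.1 q.2) with hQ
  rcases Nat.eq_zero_or_pos Λ.card with h0 | h0
  · have : Q = ∅ := by
      rw [hQ, Finset.card_eq_zero.1 h0]; simp
    rw [this, card_empty, Nat.cast_zero]
    positivity
  set L : ℝ := (Λ.card : ℝ) with hL
  have hL1' : 1 ≤ L := by rw [hL]; exact_mod_cast h0
  have hLp : 0 < L := by linarith
  have hcp := card_pairs_le hyp hc (by linarith) Q (filter_subset _ _)
  set P : Finset (Ln × Ln) := Q.image (fun q => (ln q.1, ln q.2)) with hP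
  have hPP : ∀ q ∈ P, ∃ p ∈ Λ, ∃ p' ∈ Λ, ln p = q.1 ∧ ln p' = q.2 ∧ Bad Λ κ κ' h p p' := by
    intro q hq
    rw [hP, mem_image] at hq
    obtain ⟨⟨p, p'⟩, hpq, rfl⟩ := hq
    rw [hQ, mem_filter, mem_product] at hpq
    exact ⟨p, hpq.1.1, p', hpq.1.2, rfl, rfl, hpq.2⟩
  have hmain : (P.card : ℝ) ≤ C * (L ^ (3 / 2 + e) + L * h) := by
    have hLe : 0 < L ^ (3 / 2 + e) := Real.rpow_pos_of_pos hLp _
    have hLh : 0 < L * h := by positivity
    by_cases hbig : L1 ≤ L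
    · obtain ⟨⟨c1, c2⟩, c3⟩ := hL0 L ((le_max_left _ _).trans hbig)
      have h3 := fibre_lines he he1 hK1 hCs hK hB hn hyp hc hl hL1' rfl
        (le_trans (by gcongr) h1) (le_trans (by gcongr) h2) hh c1 c2 c3 P hPP
      have h4 : (3 * 2 ^ 13 + K1) * L ^ (3 / 2 + e) ≤ C * L ^ (3 / 2 + e) := by
        apply mul_le_mul_of_nonneg_right _ hLe.le
        linarith
      have h5 : 10 * (L * h) ≤ C * (L * h) := by
        apply mul_le_mul_of_nonneg_right _ hLh.le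
        linarith
      linarith
    · have hS2 : (P.card : ℝ) ≤ L ^ 2 := by
        have h6 : P ⊆ (Λ.image ln) ×ˢ (Λ.image ln) := by
          intro q hq
          obtain ⟨p, hp, p', hp', h3, h4, -⟩ := hPP q hq
          rw [mem_product]
          exact ⟨h3 ▸ mem_image_of_mem ln hp, h4 ▸ mem_image_of_mem ln hp'⟩
        have h7 : P.card ≤ Λ.card * Λ.card := by
          refine (card_le_card h6).trans ?_
          rw [card_product]
          exact Nat.mul_le_mul card_image_le card_image_le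
        rw [sq, hL]
        exact_mod_cast h7
      have h8 : L ^ 2 ≤ L1 ^ (1 / 2 : ℝ) * L ^ (3 / 2 + e) := by
        calc L ^ 2 = L ^ (1 / 2 : ℝ) * L ^ (3 / 2 : ℝ) := by
              rw [← Real.rpow_add hLp, ← Real.rpow_natCast]
              norm_num
          _ ≤ L1 ^ (1 / 2 : ℝ) * L ^ (3 / 2 + e) := by
              apply mul_le_mul
              · exact Real.rpow_le_rpow hLp.le (not_le.1 hbig).le (by norm_num)
              · exact Real.rpow_le_rpow_of_exponent_le hL1' (by linarith)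
              · positivity
              · exact hL1p
      have h9 : L1 ^ (1 / 2 : ℝ) * L ^ (3 / 2 + e) ≤ C * L ^ (3 / 2 + e) := by
        apply mul_le_mul_of_nonneg_right _ hLe.le
        linarith
      have h10 : 0 ≤ C * (L * h) := by positivity
      linarith
  calc (Q.card : ℝ) ≤ K ^ 2 * P.card := hcp
    _ ≤ K ^ 2 * (C * (L ^ (3 / 2 + e) + L * h)) := by gcongr
    _ = C * K ^ 2 * (L ^ (3 / 2 + e) + L * h) := by ring

end Vale.Agent.P054.Y.GF
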