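import Vale.Agent.P054.Y.GF.Defs

/-! Leaf G-KST.  PROOF.  `N b = {a ∈ I | (a,b) ∈ T}`, `|T| = ∑_b |N b| ≤ k h + ∑_{|N b| ≥ h} |N b|`, and
`∑_{|N b| ≥ h} |N b| ≤ h^{-2} ∑ |N b|^3 ≤ 2 h^{-2} #{(a1,a2,a3,b) : good, all in N b} ≤ 2 h^{-2} k^3 s ≤ k h`. -/

set_option linter.all false

namespace Vale.Agent.P054.Y.GF

open Finset

open scoped Classical in
theorem kst_aux {α : Type} (I : Finset α) (T : Finset (α × α)) (hT : T ⊆ I ×ˢ I)
    (good : α → α → α → Prop) (h s : ℝ) (hh : 0 < h) (hs : 0 ≤ s)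
    (h1 : ∀ b ∈ I, h ≤ ((I.filter (fun a => (a, b) ∈ T)).card : ℝ) →
      ((((I.filter (fun a => (a, b) ∈ T)) ×ˢ (I.filter (fun a => (a, b) ∈ T)) ×ˢ
        (I.filter (fun a => (a, b) ∈ T))).filter (fun t => ¬ good t.1 t.2.1 t.2.2)).card : ℝ) ≤
        ((I.filter (fun a => (a, b) ∈ T)).card : ℝ) ^ 3 / 2)
    (h2 : ∀ a₁ ∈ I, ∀ a₂ ∈ I, ∀ a₃ ∈ I, good a₁ a₂ a₃ →
      ((I.filter (fun b => (a₁, b) ∈ T ∧ (a₂, b) ∈ T ∧ (a₃, b) ∈ T)).card : ℝ) ≤ s)
    (h3 : 2 * (I.card : ℝ) ^ 2 * s ≤ h ^ 3) : (T.card : ℝ) ≤ 2 * I.card * h := by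
  set N : α → Finset α := fun b => I.filter (fun a => (a, b) ∈ T) with hN
  -- the cardinality of `T`
  have hTc : T.card = ∑ b ∈ I, (N b).card := by
    have e1 : T = (I.sigma N).image (fun x => (x.2, x.1)) := by
      ext ⟨a, b⟩
      simp only [hN, mem_image, mem_sigma, mem_filter, Prod.mk.injEq]
      constructor
      · intro hab
        have := mem_product.1 (hT hab)
        exact ⟨⟨b, a⟩, ⟨this.2, this.1, hab⟩, rfl, rfl⟩
      · rintro ⟨⟨b', a'⟩, ⟨_, _, h⟩, rfl, rfl⟩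
        exact h
    rw [e1, card_image_of_injOn, card_sigma]
    rintro ⟨b, a⟩ _ ⟨b', a'⟩ _ h
    simp only [Prod.mk.injEq] at h
    obtain ⟨rfl, rfl⟩ := h
    rfl
  -- good triples
  let Gd : α → Finset (α × α × α) := fun b =>
    (N b ×ˢ N b ×ˢ N b).filter (fun t => good t.1 t.2.1 t.2.2)
  have hlow : ∀ b ∈ I, h ≤ ((N b).card : ℝ) → ((N b).card : ℝ) ^ 3 ≤ 2 * (Gd b).card := by
    intro b hb hh1
    have e := h1 b hb hh1
    have e2 : ((N b ×ˢ N b ×ˢ N b).filter (fun t => good t.1 t.2.1 t.2.2)).card +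
        ((N b ×ˢ N b ×ˢ N b).filter (fun t => ¬ good t.1 t.2.1 t.2.2)).card =
        (N b).card * ((N b).card * (N b).card) := by
      rw [card_filter_add_card_filter_not, card_product, card_product]
    have e3 : ((Gd b).card : ℝ) + (((N b ×ˢ N b ×ˢ N b).filter
        (fun t => ¬ good t.1 t.2.1 t.2.2)).card : ℝ) = (N b).card * ((N b).card * (N b).card) := by
      exact_mod_cast e2
    have e4 : (((N b ×ˢ N b ×ˢ N b).filter
        (fun t => ¬ good t.1 t.2.1 t.2.2)).card : ℝ) ≤ ((N b).card : ℝ) ^ 3 / 2 := e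
    nlinarith
  -- upper bound
  have hup : (∑ b ∈ I, ((Gd b).card : ℝ)) ≤ (I.card : ℝ) ^ 3 * s := by
    have e1 : ∑ b ∈ I, (Gd b).card = ∑ t ∈ I ×ˢ I ×ˢ I, (I.filter (fun b =>
        ((t.1, b) ∈ T ∧ (t.2.1, b) ∈ T ∧ (t.2.2, b) ∈ T) ∧ good t.1 t.2.1 t.2.2)).card := by
      have e2 : ∀ b ∈ I, (Gd b).card = ((I ×ˢ I ×ˢ I).filter (fun t =>
          ((t.1, b) ∈ T ∧ (t.2.1, b) ∈ T ∧ (t.2.2, b) ∈ T) ∧ good t.1 t.2.1 t.2.2)).card := by
        intro b _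
        congr 1
        ext ⟨x, y, z⟩
        simp only [Gd, hN, mem_filter, mem_product]
        tauto
      rw [sum_congr rfl e2]
      simp_rw [card_filter]
      exact sum_comm
    have e3 : ∀ t ∈ I ×ˢ I ×ˢ I, ((I.filter (fun b =>
        ((t.1, b) ∈ T ∧ (t.2.1, b) ∈ T ∧ (t.2.2, b) ∈ T) ∧ good t.1 t.2.1 t.2.2)).card : ℝ) ≤ s := by
      rintro ⟨a, b, c⟩ ht
      simp only [mem_product] at ht
      by_cases hg : good a b c
      · refine le_trans ?_ (h2 a ht.1 b ht.2.1 c ht.2.2 hg)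
        have : (I.filter (fun x => ((a, x) ∈ T ∧ (b, x) ∈ T ∧ (c, x) ∈ T) ∧ good a b c)) ⊆
            I.filter (fun x => (a, x) ∈ T ∧ (b, x) ∈ T ∧ (c, x) ∈ T) := by
          intro x; simp only [mem_filter]; tauto
        exact_mod_cast card_le_card this
      · have : (I.filter (fun x => ((a, x) ∈ T ∧ (b, x) ∈ T ∧ (c, x) ∈ T) ∧ good a b c)) = ∅ := by
          rw [filter_eq_empty_iff]; intro x _ h; exact hg h.2
        simp only [this, card_empty, Nat.cast_zero]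
        exact hs
    have e4 : (∑ b ∈ I, ((Gd b).card : ℝ)) = ∑ t ∈ I ×ˢ I ×ˢ I, ((I.filter (fun b =>
        ((t.1, b) ∈ T ∧ (t.2.1, b) ∈ T ∧ (t.2.2, b) ∈ T) ∧ good t.1 t.2.1 t.2.2)).card : ℝ) := by
      exact_mod_cast e1
    rw [e4]
    calc _ ≤ ∑ t ∈ I ×ˢ I ×ˢ I, s := sum_le_sum e3
      _ = (I.card : ℝ) ^ 3 * s := by
        rw [sum_const, nsmul_eq_mul, card_product, card_product]; push_cast; ring
  -- pointwise
  have hpt : ∀ b ∈ I, ((N b).card : ℝ) ≤ h + 2 * (Gd b).card / h ^ 2 := by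
    intro b hb
    rcases le_or_gt h ((N b).card : ℝ) with h4 | h4
    · have h5 := hlow b hb h4
      have h6 : ((N b).card : ℝ) ≤ 2 * (Gd b).card / h ^ 2 := by
        rw [le_div_iff₀ (by positivity)]
        have h7 : h ^ 2 ≤ ((N b).card : ℝ) ^ 2 := by gcongr
        have h8 : (0 : ℝ) ≤ (N b).card := Nat.cast_nonneg _
        nlinarith
      linarith
    · have : (0 : ℝ) ≤ 2 * (Gd b).card / h ^ 2 := by positivity
      linarith
  have hk : (0 : ℝ) ≤ I.card := Nat.cast_nonneg _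
  calc (T.card : ℝ) = ∑ b ∈ I, ((N b).card : ℝ) := by rw [hTc]; push_cast; rfl
    _ ≤ ∑ b ∈ I, (h + 2 * (Gd b).card / h ^ 2) := sum_le_sum hpt
    _ = I.card * h + 2 * (∑ b ∈ I, ((Gd b).card : ℝ)) / h ^ 2 := by
        rw [sum_add_distrib, sum_const, nsmul_eq_mul, mul_sum, sum_div]
    _ ≤ I.card * h + 2 * ((I.card : ℝ) ^ 3 * s) / h ^ 2 := by gcongr
    _ ≤ I.card * h + I.card * h := by
        have : 2 * ((I.card : ℝ) ^ 3 * s) / h ^ 2 ≤ I.card * h := by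
          rw [div_le_iff₀ (by positivity)]
          calc 2 * ((I.card : ℝ) ^ 3 * s) = I.card * (2 * (I.card : ℝ) ^ 2 * s) := by ring
            _ ≤ I.card * h ^ 3 := mul_le_mul_of_nonneg_left h3 hk
            _ = I.card * h * h ^ 2 := by ring
        linarith
    _ = 2 * I.card * h := by ring

open scoped Classical in
theorem kst {α : Type} (I : Finset α) (T : Finset (α × α)) (hT : T ⊆ I ×ˢ I)
    (good : α → α → α → Prop) (h s : ℝ) (hh : 0 < h)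
    (h1 : ∀ b ∈ I, h ≤ ((I.filter (fun a => (a, b) ∈ T)).card : ℝ) →
      ((((I.filter (fun a => (a, b) ∈ T)) ×ˢ (I.filter (fun a => (a, b) ∈ T)) ×ˢ
        (I.filter (fun a => (a, b) ∈ T))).filter (fun t => ¬ good t.1 t.2.1 t.2.2)).card : ℝ) ≤
        ((I.filter (fun a => (a, b) ∈ T)).card : ℝ) ^ 3 / 2)
    (h2 : ∀ a₁ ∈ I, ∀ a₂ ∈ I, ∀ a₃ ∈ I, good a₁ a₂ a₃ →
      ((I.filter (fun b => (a₁, b) ∈ T ∧ (a₂, b) ∈ T ∧ (a₃, b) ∈ T)).card : ℝ) ≤ s)
    (h3 : 2 * (I.card : ℝ) ^ 2 * s ≤ h ^ 3) : (T.card : ℝ) ≤ 2 * I.card * h := by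
  refine kst_aux I T hT good h (max s 0) hh (le_max_right _ _) h1
    (fun a ha b hb c hc hg => (h2 a ha b hb c hc hg).trans (le_max_left _ _)) ?_
  rcases le_total s 0 with hs | hs
  · rw [max_eq_right hs, mul_zero]; positivity
  · rw [max_eq_left hs]; exact h3

end Vale.Agent.P054.Y.GF
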