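import Vale.Agent.P054.Y.GF.Defs
import Vale.Agent.P054.Y.G.Label

/-! P054, block G: construction of the labels (ordering trick). -/

set_option linter.all false
set_option autoImplicit false

namespace Vale.Agent.P054.Y.GF

open Finset Matrix

open scoped Classical in
/-- `Q` is a form of determinant `1` with at least `h` zeros in `X` -/
def RichF (X : Finset V) (h : ℝ) (Q : M3) : Prop :=
  Qᵀ = Q ∧ Q.det = 1 ∧ h ≤ ((X.filter (fun x => x ⬝ᵥ (Q *ᵥ x) = 0)).card : ℝ)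

/-- at most one rich form vanishes at `x` -/
def Uni (X : Finset V) (h : ℝ) (x : V) : Prop :=
  ∀ Q Q' : M3, RichF X h Q → RichF X h Q' → x ⬝ᵥ (Q *ᵥ x) = 0 → x ⬝ᵥ (Q' *ᵥ x) = 0 → Q = Q'

open scoped Classical in
/-- the label -/
noncomputable def kap (X : Finset V) (h : ℝ) (x : V) : ℝ :=
  if H : ∃ Q : M3, RichF X h Q ∧ x ⬝ᵥ (Q *ᵥ x) = 0 then (Classical.choose H).trace else 0

theorem kap_eq {X : Finset V} {h : ℝ} {x : V} (hu : Uni X h x) {Q : M3} (hQ : RichF X h Q)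
    (hx : x ⬝ᵥ (Q *ᵥ x) = 0) : kap X h x = Q.trace := by
  have H : ∃ Q : M3, RichF X h Q ∧ x ⬝ᵥ (Q *ᵥ x) = 0 := ⟨Q, hQ, hx⟩
  rw [kap, dif_pos H]
  have hs := Classical.choose_spec H
  rw [hu _ _ hs.1 hQ hs.2 hx]

/-- real cube roots -/
theorem exists_cube {d : ℝ} (hd : d ≠ 0) : ∃ l : ℝ, l ^ 3 * d = 1 := by
  rcases lt_or_gt_of_ne hd with h | h
  · have h' : 0 < -d := by linarith
    refine ⟨-((-d) ^ (-(1 / 3) : ℝ)), ?_⟩
    have : ((-d) ^ (-(1 / 3) : ℝ)) ^ 3 = (-d)⁻¹ := by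
      rw [← Real.rpow_natCast, ← Real.rpow_mul h'.le]
      norm_num [Real.rpow_neg_one]
    rw [neg_pow, this]
    have hd' : (-d)⁻¹ * (-d) = 1 := inv_mul_cancel₀ h'.ne'
    linear_combination hd'
  · refine ⟨d ^ (-(1 / 3) : ℝ), ?_⟩
    have : (d ^ (-(1 / 3) : ℝ)) ^ 3 = d⁻¹ := by
      rw [← Real.rpow_natCast, ← Real.rpow_mul h.le]
      norm_num [Real.rpow_neg_one]
    rw [this]
    exact inv_mul_cancel₀ hd

theorem form_zero (A : M3) (l : ℝ) {x : V} (hx : Iso0 A x) :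
    x ⬝ᵥ ((l • (1 - Aᵀ * A)) *ᵥ x) = 0 := by
  have h1 : x ⬝ᵥ ((Aᵀ * A) *ᵥ x) = (A *ᵥ x) ⬝ᵥ (A *ᵥ x) := by
    rw [← Matrix.mulVec_mulVec, Matrix.dotProduct_mulVec, Matrix.vecMul_transpose]
  rw [Matrix.smul_mulVec, Matrix.sub_mulVec, Matrix.one_mulVec, dotProduct_smul, dotProduct_sub, h1,
    hx, sub_self, smul_zero]

theorem richF_of (A : M3) (l : ℝ) (hl : l ^ 3 * (1 - Aᵀ * A).det = 1) (X : Finset V) (h : ℝ)
    {F : Finset V} (hF : F ⊆ X) (hFA : ∀ x ∈ F, Iso0 A x) (hFh : h ≤ (F.card : ℝ)) :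
    RichF X h (l • (1 - Aᵀ * A)) := by
  classical
  refine ⟨?_, ?_, ?_⟩
  · rw [Matrix.transpose_smul, Matrix.transpose_sub, Matrix.transpose_one, Matrix.transpose_mul,
      Matrix.transpose_transpose]
  · rw [Matrix.det_smul, Fintype.card_fin]
    exact hl
  · refine le_trans hFh ?_
    have : F ⊆ X.filter (fun x => x ⬝ᵥ ((l • (1 - Aᵀ * A)) *ᵥ x) = 0) := by
      intro x hx
      exact Finset.mem_filter.2 ⟨hF hx, form_zero A l (hFA x hx)⟩
    exact_mod_cast Finset.card_le_card this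

theorem det_comm (A : M3) : (1 - A * Aᵀ).det = (1 - Aᵀ * A).det :=
  Matrix.det_one_sub_mul_comm A Aᵀ

theorem trace_comm' (A : M3) : (1 - A * Aᵀ).trace = (1 - Aᵀ * A).trace := by
  rw [Matrix.trace_sub, Matrix.trace_sub, Matrix.trace_mul_comm]

theorem det_B_ne {A B : M3} (hAB : Aᵀ * B = 1) (hdet : (1 - Aᵀ * A).det ≠ 0) :
    (1 - Bᵀ * B).det ≠ 0 := by
  have hBA : B * Aᵀ = 1 := mul_eq_one_comm.1 hAB
  have hABt : Bᵀ * A = 1 := by
    have := congrArg Matrix.transpose hAB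
    rw [Matrix.transpose_mul, Matrix.transpose_transpose, Matrix.transpose_one] at this
    exact this
  -- Bᵀ (A Aᵀ - 1) B = 1 - Bᵀ B
  have h1 : Bᵀ * (A * Aᵀ - 1) * B = 1 - Bᵀ * B := by
    calc Bᵀ * (A * Aᵀ - 1) * B = (Bᵀ * A) * (Aᵀ * B) - Bᵀ * B := by
          rw [Matrix.mul_sub, Matrix.sub_mul, Matrix.mul_one]
          simp only [Matrix.mul_assoc]
      _ = 1 - Bᵀ * B := by rw [hABt, hAB, Matrix.mul_one]
  have h2 : (A * Aᵀ - 1).det ≠ 0 := by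
    have : A * Aᵀ - 1 = (-1 : ℝ) • (1 - A * Aᵀ) := by rw [neg_smul, one_smul, neg_sub]
    rw [this, Matrix.det_smul, det_comm]
    exact mul_ne_zero (by norm_num) hdet
  have hB : B.det ≠ 0 := by
    intro h0
    have := congrArg Matrix.det hAB
    rw [Matrix.det_mul, h0, mul_zero, Matrix.det_one] at this
    exact zero_ne_one this
  rw [← h1, Matrix.det_mul, Matrix.det_mul, Matrix.det_transpose]
  exact mul_ne_zero (mul_ne_zero hB h2) hB

/-- **the labels exclude rich reguli** -/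
theorem lab_of (X Y X' Y' : Finset V) (h : ℝ) (hX : X' ⊆ X) (hY : Y' ⊆ Y)
    (uX : ∀ x ∈ X', Uni X h x) (uY : ∀ y ∈ Y', Uni Y h y) (hX0 : ∀ x ∈ X', x ≠ 0) :
    Lab X' Y' (kap X h) (kap Y h) h := by
  intro A B hAB hdet ⟨F1, h1, h1', h1''⟩ ⟨F2, h2, h2', h2''⟩ ⟨F3, h3, h3', h3''⟩
    ⟨F4, h4, h4', h4''⟩ x hx hxA x' hx' hxB y hy hyB y' hy' hyA ⟨hle1, hle2⟩
  obtain ⟨l, hl⟩ := exists_cube hdet
  obtain ⟨m, hm⟩ := exists_cube (det_B_ne hAB hdet)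
  have hlT : l ^ 3 * (1 - Aᵀᵀ * Aᵀ).det = 1 := by
    rw [Matrix.transpose_transpose, det_comm]; exact hl
  have hmT : m ^ 3 * (1 - Bᵀᵀ * Bᵀ).det = 1 := by
    rw [Matrix.transpose_transpose, det_comm]; exact hm
  have r1 := richF_of A l hl X h (h1.trans hX) h1' h1''
  have r2 := richF_of B m hm X h (h2.trans hX) h2' h2''
  have r3 := richF_of Bᵀ m hmT Y h (h3.trans hY) h3' h3''
  have r4 := richF_of Aᵀ l hlT Y h (h4.trans hY) h4' h4''
  have k1 := kap_eq (uX x hx) r1 (form_zero A l hxA)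
  have k2 := kap_eq (uX x' hx') r2 (form_zero B m hxB)
  have k3 := kap_eq (uY y hy) r3 (form_zero Bᵀ m hyB)
  have k4 := kap_eq (uY y' hy') r4 (form_zero Aᵀ l hyA)
  rw [Matrix.trace_smul, smul_eq_mul] at k1 k2 k3 k4
  rw [Matrix.transpose_transpose, trace_comm'] at k3 k4
  rw [k1, k2] at hle1
  rw [k3, k4] at hle2
  exact Vale.Agent.P054.Y.G.class_ne A B hAB hdet x (hX0 x hx) hxA l m hl hm
    (le_antisymm hle1 hle2)

end Vale.Agent.P054.Y.GF
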