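import Vale.Agent.P054.Y.GF.LabA

/-! P054, block G: the sets `Λ_ac` satisfy `Hyp` and `Lab`. -/

set_option linter.all false
set_option autoImplicit false

namespace Vale.Agent.P054.Y.GF

open Finset Matrix

open scoped Classical in
/-- the neighbours of `a`, seen from `a` -/
noncomputable def sh (E : V → Finset V) (a : V) : Finset V := (E a).image (fun b => b - a)

open scoped Classical in
/-- the pairs over `(a, c)` -/
noncomputable def lamS (E : V → Finset V) (a c : V) : Finset (V × V) :=
  (sh E a ×ˢ sh E c).filter (fun q => q.1 ⬝ᵥ q.1 = q.2 ⬝ᵥ q.2)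

theorem mem_sh {E : V → Finset V} {a x : V} : x ∈ sh E a ↔ a + x ∈ E a := by
  classical
  rw [sh, Finset.mem_image]
  constructor
  · rintro ⟨b, hb, rfl⟩
    have : a + (b - a) = b := by abel
    rwa [this]
  · intro h
    exact ⟨a + x, h, by abel⟩

theorem card_sh (E : V → Finset V) (a : V) : (sh E a).card = (E a).card := by
  classical
  rw [sh, Finset.card_image_of_injective]
  intro x y h
  exact sub_left_injective h

theorem card_le_of_shift {S T : Finset V} (a : V) (h : ∀ x ∈ S, a + x ∈ T) : S.card ≤ T.card := by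
  classical
  have : (S.image (fun x => a + x)).card = S.card :=
    Finset.card_image_of_injective _ (fun x y h => add_left_cancel h)
  rw [← this]
  apply Finset.card_le_card
  intro y hy
  obtain ⟨x, hx, rfl⟩ := Finset.mem_image.1 hy
  exact h x hx

/-- hypotheses on the neighbourhoods -/
structure EHyp (P : Finset V) (E : V → Finset V) (B K : ℝ) : Prop where
  sub : ∀ a ∈ P, E a ⊆ P
  ne : ∀ a ∈ P, ∀ b ∈ E a, b ≠ a
  line : ∀ a ∈ P, ∀ b ∈ E a, ∀ F ⊆ P, (∀ p ∈ F, cr (b - a) (p - a) = 0) → (F.card : ℝ) ≤ K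
  plane : ∀ (u : V) (t : ℝ), u ≠ 0 → ∀ F ⊆ P, (∀ p ∈ F, u ⬝ᵥ p = t) → (F.card : ℝ) ≤ B

theorem cr_comm_zero {x y : V} (h : cr x y = 0) : cr y x = 0 := by
  have h0 := congrFun h 0
  have h1 := congrFun h 1
  have h2 := congrFun h 2
  simp [cr] at h0 h1 h2
  funext i
  fin_cases i
  · simp [cr]; linarith
  · simp [cr]; linarith
  · simp [cr]; linarith

/-- two vectors parallel to `u ≠ 0` are parallel -/
theorem cr_trans {u x y : V} (hu : u ≠ 0) (hx : cr u x = 0) (hy : cr u y = 0) : cr x y = 0 := by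
  have x0 := congrFun hx 0
  have x1 := congrFun hx 1
  have x2 := congrFun hx 2
  have y0 := congrFun hy 0
  have y1 := congrFun hy 1
  have y2 := congrFun hy 2
  simp only [cr, Matrix.cons_val_zero, Matrix.cons_val_one, Matrix.cons_val_two, Matrix.head_cons,
    Matrix.tail_cons, Pi.zero_apply, Matrix.cons_val] at x0 x1 x2 y0 y1 y2
  have hk : ∃ k, u k ≠ 0 := by
    by_contra hcon
    push Not at hcon
    exact hu (funext hcon)
  have main : ∀ k, u k * (x 1 * y 2 - x 2 * y 1) = 0 ∧ u k * (x 2 * y 0 - x 0 * y 2) = 0 ∧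
      u k * (x 0 * y 1 - x 1 * y 0) = 0 := by
    intro k
    fin_cases k
    · refine ⟨?_, ?_, ?_⟩
      · simp only [Fin.zero_eta, Fin.isValue]
        linear_combination (y 2) * x2 + (y 1) * x1 + (x 0) * y0
      · simp only [Fin.zero_eta, Fin.isValue]
        linear_combination (x 0) * y1 - y 0 * x1
      · simp only [Fin.zero_eta, Fin.isValue]
        linear_combination (x 0) * y2 - y 0 * x2
    · refine ⟨?_, ?_, ?_⟩
      · simp only [Fin.mk_one, Fin.isValue]
        linear_combination (x 1) * y0 - y 1 * x0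
      · simp only [Fin.mk_one, Fin.isValue]
        linear_combination (y 0) * x0 + (y 2) * x2 + (x 1) * y1
      · simp only [Fin.mk_one, Fin.isValue]
        linear_combination (x 1) * y2 - y 1 * x2
    · refine ⟨?_, ?_, ?_⟩
      · simp only [Fin.reduceFinMk, Fin.isValue]
        linear_combination (x 2) * y0 - y 2 * x0
      · simp only [Fin.reduceFinMk, Fin.isValue]
        linear_combination (x 2) * y1 - y 2 * x1
      · simp only [Fin.reduceFinMk, Fin.isValue]
        linear_combination (y 1) * x1 + (y 0) * x0 + (x 2) * y2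
  obtain ⟨k, hk⟩ := hk
  obtain ⟨m0, m1, m2⟩ := main k
  have z0 := (mul_eq_zero.1 m0).resolve_left hk
  have z1 := (mul_eq_zero.1 m1).resolve_left hk
  have z2 := (mul_eq_zero.1 m2).resolve_left hk
  funext i
  fin_cases i
  · exact z0
  · exact z1
  · exact z2

theorem plane_sh {P : Finset V} {E : V → Finset V} {B K : ℝ} (h : EHyp P E B K) {a : V}
    (ha : a ∈ P) (u : V) (b : ℝ) (hu : u ≠ 0) (F : Finset V) (hF : F ⊆ sh E a)
    (hFb : ∀ x ∈ F, u ⬝ᵥ x = b) : (F.card : ℝ) ≤ B := by
  classical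
  have h1 : F.card = (F.image (fun x => a + x)).card :=
    (Finset.card_image_of_injective _ (fun x y h => add_left_cancel h)).symm
  rw [h1]
  refine h.plane u (u ⬝ᵥ a + b) hu _ ?_ ?_
  · intro y hy
    obtain ⟨x, hx, rfl⟩ := Finset.mem_image.1 hy
    exact h.sub a ha (mem_sh.1 (hF hx))
  · intro y hy
    obtain ⟨x, hx, rfl⟩ := Finset.mem_image.1 hy
    rw [dotProduct_add, hFb x hx]

theorem line_sh {P : Finset V} {E : V → Finset V} {B K : ℝ} (h : EHyp P E B K) (hK : 0 ≤ K) {a : V}
    (ha : a ∈ P) (u : V) (hu : u ≠ 0) (F : Finset V) (hF : F ⊆ sh E a)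
    (hFb : ∀ x ∈ F, cr u x = 0) : (F.card : ℝ) ≤ K := by
  classical
  rcases F.eq_empty_or_nonempty with h0 | ⟨x0, hx0⟩
  · rw [h0]; simpa using hK
  have h1 : F.card = (F.image (fun x => a + x)).card :=
    (Finset.card_image_of_injective _ (fun x y h => add_left_cancel h)).symm
  rw [h1]
  refine h.line a ha (a + x0) (mem_sh.1 (hF hx0)) _ ?_ ?_
  · intro y hy
    obtain ⟨x, hx, rfl⟩ := Finset.mem_image.1 hy
    exact h.sub a ha (mem_sh.1 (hF hx))
  · intro y hy
    obtain ⟨x, hx, rfl⟩ := Finset.mem_image.1 hy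
    have e1 : a + x0 - a = x0 := by abel
    have e2 : a + x - a = x := by abel
    rw [e1, e2]
    exact cr_trans hu (hFb x0 hx0) (hFb x hx)

theorem hyp_lamS {P : Finset V} {E : V → Finset V} {B K : ℝ} (h : EHyp P E B K) (hK : 0 ≤ K)
    {a c : V} (ha : a ∈ P) (hc : c ∈ P) :
    Hyp (lamS E a c) (sh E a) (sh E c) (P.card : ℝ) B K := by
  classical
  refine ⟨?_, ?_, ?_, ?_, ?_, ?_, ?_, ?_, ?_⟩
  · intro p hp
    rw [lamS, Finset.mem_filter, Finset.mem_product] at hp
    refine ⟨hp.2, ?_⟩
    intro h0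
    have h1 := mem_sh.1 hp.1.1
    rw [h0, add_zero] at h1
    exact h.ne a ha a h1 rfl
  · intro p hp
    rw [lamS, Finset.mem_filter, Finset.mem_product] at hp
    exact hp.1.1
  · intro p hp
    rw [lamS, Finset.mem_filter, Finset.mem_product] at hp
    exact hp.1.2
  · rw [card_sh]
    exact_mod_cast Finset.card_le_card (h.sub a ha)
  · rw [card_sh]
    exact_mod_cast Finset.card_le_card (h.sub c hc)
  · exact plane_sh h ha
  · exact plane_sh h hc
  · exact line_sh h hK ha
  · exact line_sh h hK hc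

/-- the neighbourhoods after deletion of the points with two rich forms -/
noncomputable def uniE (E0 : V → Finset V) (h : ℝ) (a : V) : Finset V := by
  classical exact (E0 a).filter (fun b => Uni (sh E0 a) h (b - a))

theorem uniE_sub (E0 : V → Finset V) (h : ℝ) (a : V) : uniE E0 h a ⊆ E0 a := by
  classical
  exact Finset.filter_subset _ _

theorem sh_uniE_sub (E0 : V → Finset V) (h : ℝ) (a : V) : sh (uniE E0 h) a ⊆ sh E0 a := by
  intro x hx
  exact mem_sh.2 (uniE_sub E0 h a (mem_sh.1 hx))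

theorem uni_of_mem {E0 : V → Finset V} {h : ℝ} {a x : V} (hx : x ∈ sh (uniE E0 h) a) :
    Uni (sh E0 a) h x := by
  classical
  have h1 := mem_sh.1 hx
  rw [uniE, Finset.mem_filter] at h1
  have e1 : a + x - a = x := by abel
  rw [e1] at h1
  exact h1.2

theorem EHyp.uniE {P : Finset V} {E : V → Finset V} {B K : ℝ} (h : EHyp P E B K) (r : ℝ) :
    EHyp P (uniE E r) B K :=
  ⟨fun a ha => (uniE_sub E r a).trans (h.sub a ha),
   fun a ha b hb => h.ne a ha b (uniE_sub E r a hb),
   fun a ha b hb => h.line a ha b (uniE_sub E r a hb), h.plane⟩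

/-- the labels -/
theorem lab_lam {P : Finset V} {E : V → Finset V} {B K : ℝ} (h : EHyp P E B K) (r : ℝ)
    {a c : V} (ha : a ∈ P) (hc : c ∈ P) :
    Lab (sh (uniE E r) a) (sh (uniE E r) c) (kap (sh E a) r) (kap (sh E c) r) r := by
  refine lab_of (sh E a) (sh E c) _ _ r (sh_uniE_sub E r a) (sh_uniE_sub E r c)
    (fun x hx => uni_of_mem hx) (fun y hy => uni_of_mem hy) ?_
  intro x hx h0
  have h1 := mem_sh.1 (sh_uniE_sub E r a hx)
  rw [h0, add_zero] at h1
  exact h.ne a ha a h1 rfl

open scoped Classical in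
/-- the number of deleted neighbours -/
theorem card_uniE (E : V → Finset V) (r : ℝ) (a : V) :
    (E a).card = (uniE E r a).card + ((sh E a).filter (fun x => ¬ Uni (sh E a) r x)).card := by
  classical
  have h1 := Finset.card_filter_add_card_filter_not (s := E a) (p := fun b => Uni (sh E a) r (b - a))
  rw [← h1, uniE]
  congr 1
  have : (sh E a).filter (fun x => ¬ Uni (sh E a) r x) =
      ((E a).filter (fun b => ¬ Uni (sh E a) r (b - a))).image (fun b => b - a) := by
    ext x
    simp only [Finset.mem_filter, Finset.mem_image, mem_sh]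
    constructor
    · rintro ⟨h2, h3⟩
      refine ⟨a + x, ⟨h2, ?_⟩, by abel⟩
      have e1 : a + x - a = x := by abel
      rwa [e1]
    · rintro ⟨b, ⟨h2, h3⟩, rfl⟩
      have e1 : a + (b - a) = b := by abel
      rw [e1]
      exact ⟨h2, h3⟩
  rw [this, Finset.card_image_of_injective _ (fun x y h => sub_left_injective h)]

end Vale.Agent.P054.Y.GF
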