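import Vale.Agent.P054.Y.GF.LamDefs
import Vale.Agent.P054.Y.GF.LamA

/-! Leaf GF-Lam (helper258).  `lineX`: if `F ⊆ Xe a` is nonempty, take `b0 - a ∈ F`; all `b - a ∈ F` are
parallel to `b0 - a`, so `#F ≤ cntL P (a, b0) < K`.  `lam_lab`: `lab_of`, and monotonicity in `h`. -/

set_option linter.all false

namespace Vale.Agent.P054.Y.GF

open Finset Matrix
open Vale.Agent.P054.Fin (sqd dst)

theorem sqd_eq (a b : V) : sqd a b = (b - a) ⬝ᵥ (b - a) := by
  simp only [sqd, dotProduct, Pi.sub_apply]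
  refine Finset.sum_congr rfl (fun k _ => ?_)
  ring

theorem cr_eq (x y : V) : cr x y = crossProduct x y := by
  rw [cross_apply]
  rfl

theorem mem_Xe {P : Finset V} {K h : ℝ} {a x : V} : x ∈ Xe P K h a ↔ a + x ∈ Ea P K h a := by
  classical
  rw [Xe, Finset.mem_image]
  constructor
  · rintro ⟨b, hb, rfl⟩
    have : a + (b - a) = b := by abel
    rwa [this]
  · intro h
    exact ⟨a + x, h, by abel⟩

theorem mem_Ea {P : Finset V} {K h : ℝ} {a b : V} (hb : b ∈ Ea P K h a) :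
    b ∈ P ∧ b ≠ a ∧ (G.cntL P (a, b) : ℝ) < K ∧ Uni (Xa P K a) h (b - a) := by
  classical
  rw [Ea, Finset.mem_filter, Pa, Finset.mem_filter] at hb
  exact ⟨hb.1.1, hb.1.2.1, hb.1.2.2, hb.2⟩

theorem Xe_sub (P : Finset V) (K h : ℝ) (a : V) : Xe P K h a ⊆ Xa P K a := by
  classical
  exact Finset.image_subset_image (Finset.filter_subset _ _)

theorem plane_Xe {P : Finset V} {K h B : ℝ}
    (hB : ∀ (u : V) (b : ℝ) (F : Finset V), u ≠ 0 → F ⊆ P → (∀ x ∈ F, u ⬝ᵥ x = b) →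
      (F.card : ℝ) ≤ B) (a : V)
    (u : V) (b : ℝ) (hu : u ≠ 0) (F : Finset V) (hF : F ⊆ Xe P K h a)
    (hFb : ∀ x ∈ F, u ⬝ᵥ x = b) : (F.card : ℝ) ≤ B := by
  classical
  have h1 : F.card = (F.image (fun x => a + x)).card :=
    (Finset.card_image_of_injective _ (fun x y h => add_left_cancel h)).symm
  rw [h1]
  refine hB u (u ⬝ᵥ a + b) _ hu ?_ ?_
  · intro y hy
    obtain ⟨x, hx, rfl⟩ := Finset.mem_image.1 hy
    exact (mem_Ea (mem_Xe.1 (hF hx))).1
  · intro y hy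
    obtain ⟨x, hx, rfl⟩ := Finset.mem_image.1 hy
    rw [dotProduct_add, hFb x hx]

theorem line_Xe {P : Finset V} {K h : ℝ} (hK : 0 ≤ K) (a : V)
    (u : V) (hu : u ≠ 0) (F : Finset V) (hF : F ⊆ Xe P K h a)
    (hFb : ∀ x ∈ F, cr u x = 0) : (F.card : ℝ) ≤ K := by
  classical
  rcases F.eq_empty_or_nonempty with h0 | ⟨x0, hx0⟩
  · rw [h0]; simpa using hK
  have h1 : F.card = (F.image (fun x => a + x)).card :=
    (Finset.card_image_of_injective _ (fun x y h => add_left_cancel h)).symm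
  have h2 := (mem_Ea (mem_Xe.1 (hF hx0))).2.2.1
  refine le_trans ?_ h2.le
  rw [h1, G.cntL]
  norm_cast
  apply Finset.card_le_card
  intro y hy
  obtain ⟨x, hx, rfl⟩ := Finset.mem_image.1 hy
  rw [Finset.mem_filter]
  refine ⟨(mem_Ea (mem_Xe.1 (hF hx))).1, ?_⟩
  have e1 : a + x0 - a = x0 := by abel
  have e2 : a + x - a = x := by abel
  show crossProduct (a + x0 - a) (a + x - a) = 0
  rw [e1, e2, ← cr_eq]
  exact cr_trans hu (hFb x0 hx0) (hFb x hx)

open scoped Classical in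
theorem lam_hyp {P : Finset V} {K h n B : ℝ} (hK : 0 ≤ K) (hn : (P.card : ℝ) ≤ n)
    (hB : ∀ (u : V) (b : ℝ), u ≠ 0 → ((P.filter (fun x => u ⬝ᵥ x = b)).card : ℝ) ≤ B) (a c : V) :
    Hyp (Lam P K h a c) (Xe P K h a) (Xe P K h c) n B K := by
  have hB' : ∀ (u : V) (b : ℝ) (F : Finset V), u ≠ 0 → F ⊆ P → (∀ x ∈ F, u ⬝ᵥ x = b) →
      (F.card : ℝ) ≤ B := by
    intro u b F hu hF hFb
    refine le_trans ?_ (hB u b hu)
    norm_cast
    apply Finset.card_le_card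
    intro x hx
    exact Finset.mem_filter.2 ⟨hF hx, hFb x hx⟩
  have hcard : ∀ a : V, ((Xe P K h a).card : ℝ) ≤ n := by
    intro a
    refine le_trans ?_ hn
    norm_cast
    refine le_trans Finset.card_image_le (Finset.card_le_card ?_)
    intro b hb
    exact (mem_Ea hb).1
  have hmem : ∀ p ∈ Lam P K h a c, ∃ b d, b ∈ Ea P K h a ∧ d ∈ Ea P K h c ∧
      sqd a b = sqd c d ∧ p = (b - a, d - c) := by
    intro p hp
    rw [Lam, Finset.mem_image] at hp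
    obtain ⟨⟨b, d⟩, hq, rfl⟩ := hp
    rw [Finset.mem_filter, Finset.mem_product] at hq
    exact ⟨b, d, hq.1.1, hq.1.2, hq.2, rfl⟩
  refine ⟨?_, ?_, ?_, hcard a, hcard c, plane_Xe hB' a, plane_Xe hB' c, line_Xe hK a, line_Xe hK c⟩
  · intro p hp
    obtain ⟨b, d, hb, hd, he, rfl⟩ := hmem p hp
    refine ⟨?_, ?_⟩
    · show (b - a) ⬝ᵥ (b - a) = (d - c) ⬝ᵥ (d - c)
      rw [← sqd_eq, ← sqd_eq, he]
    · exact sub_ne_zero.2 (mem_Ea hb).2.1
  · intro p hp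
    obtain ⟨b, d, hb, hd, he, rfl⟩ := hmem p hp
    exact Finset.mem_image_of_mem _ hb
  · intro p hp
    obtain ⟨b, d, hb, hd, he, rfl⟩ := hmem p hp
    exact Finset.mem_image_of_mem _ hd

open scoped Classical in
theorem lam_card (P : Finset V) (K h : ℝ) (a c : V) :
    (Lam P K h a c).card = G.MM sqd (Ea P K h) a c := by
  have hinj : Function.Injective (fun q : V × V => (q.1 - a, q.2 - c)) := by
    rintro ⟨b, d⟩ ⟨b', d'⟩ h
    simp only [Prod.mk.injEq, sub_left_inj] at h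
    rw [h.1, h.2]
  rw [Lam, Finset.card_image_of_injective _ hinj, G.MM]

theorem lam_lab {P : Finset V} {K h h' : ℝ} (hh : h ≤ h') (a c : V) :
    Lab (Xe P K h a) (Xe P K h c) (kap (Xa P K a) h) (kap (Xa P K c) h) h' := by
  have h1 : Lab (Xe P K h a) (Xe P K h c) (kap (Xa P K a) h) (kap (Xa P K c) h) h := by
    refine lab_of (Xa P K a) (Xa P K c) _ _ h (Xe_sub P K h a) (Xe_sub P K h c) ?_ ?_ ?_
    · intro x hx
      have h2 := (mem_Ea (mem_Xe.1 hx)).2.2.2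
      have e1 : a + x - a = x := by abel
      rwa [e1] at h2
    · intro x hx
      have h2 := (mem_Ea (mem_Xe.1 hx)).2.2.2
      have e1 : c + x - c = x := by abel
      rwa [e1] at h2
    · intro x hx h0
      have h2 := (mem_Ea (mem_Xe.1 hx)).2.1
      rw [h0, add_zero] at h2
      exact h2 rfl
  intro A B hAB hdet ⟨F1, a1, b1, c1⟩ ⟨F2, a2, b2, c2⟩ ⟨F3, a3, b3, c3⟩ ⟨F4, a4, b4, c4⟩
  exact h1 A B hAB hdet ⟨F1, a1, b1, hh.trans c1⟩ ⟨F2, a2, b2, hh.trans c2⟩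
    ⟨F3, a3, b3, hh.trans c3⟩ ⟨F4, a4, b4, hh.trans c4⟩

end Vale.Agent.P054.Y.GF
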