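import Vale.Agent.P054.Y.GF.LabA
import Vale.Agent.P054.Y.G.CS
import Vale.Agent.P054.Y.G.Poor
import Vale.Agent.P054.Fin.FinalA

/-! Block G, Main: the sets attached to a point set `P`. -/

set_option linter.all false

namespace Vale.Agent.P054.Y.GF

open Finset Matrix
open Vale.Agent.P054.Fin (sqd dst)

open scoped Classical in
/-- the points `b ≠ a` of `P` such that the line `ab` has less than `K` points -/
noncomputable def Pa (P : Finset V) (K : ℝ) (a : V) : Finset V :=
  P.filter (fun b => b ≠ a ∧ (G.cntL P (a, b) : ℝ) < K)

open scoped Classical in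
noncomputable def Xa (P : Finset V) (K : ℝ) (a : V) : Finset V := (Pa P K a).image (fun b => b - a)

open scoped Classical in
/-- the admissible neighbours of `a` -/
noncomputable def Ea (P : Finset V) (K h : ℝ) (a : V) : Finset V :=
  (Pa P K a).filter (fun b => Uni (Xa P K a) h (b - a))

open scoped Classical in
noncomputable def Xe (P : Finset V) (K h : ℝ) (a : V) : Finset V :=
  (Ea P K h a).image (fun b => b - a)

/-- the label of the pair `(a, b)` -/
noncomputable def kp (P : Finset V) (K h : ℝ) (a b : V) : ℝ := kap (Xa P K a) h (b - a)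

open scoped Classical in
/-- the pairs of the fibre over `(a, c)` -/
noncomputable def Lam (P : Finset V) (K h : ℝ) (a c : V) : Finset (V × V) :=
  ((Ea P K h a ×ˢ Ea P K h c).filter (fun q => sqd a q.1 = sqd c q.2)).image
    (fun q => (q.1 - a, q.2 - c))

end Vale.Agent.P054.Y.GF
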