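import Vale.Agent.P054.Y.GF.Chart

/-! representatives of lines, meeting pairs in a surface -/

set_option linter.all false

namespace Vale.Agent.P054.Y.GF

open Finset Matrix MvPolynomial
open Vale.Agent.P041.SE

open scoped Classical in
/-- a representative of a line -/
noncomputable def rep (Λ : Finset (V × V)) (l : Ln) : V × V :=
  if h : ∃ p ∈ Λ, ln p = l then h.choose else 0

open scoped Classical in
theorem rep_mem {Λ : Finset (V × V)} {l : Ln} (h : l ∈ Λ.image ln) :
    rep Λ l ∈ Λ ∧ ln (rep Λ l) = l := by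
  have h' : ∃ p ∈ Λ, ln p = l := Finset.mem_image.1 h
  unfold rep
  rw [dif_pos h']
  exact h'.choose_spec

open scoped Classical in
/-- meeting pairs of different lines in the surface, at points of multiplicity at most `v` -/
noncomputable def MT (S : Finset Ln) (φ : MvPolynomial (Fin 3) ℝ) (v : ℝ) : Finset (Ln × Ln) :=
  ((GC.inSurf S φ) ×ˢ (GC.inSurf S φ)).filter
    (fun q => q.1 ≠ q.2 ∧ ∃ t, gpt q.1 t = gpt q.2 t ∧ (GC.mult S (gpt q.1 t) : ℝ) ≤ v)

end Vale.Agent.P054.Y.GF
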