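import Mathlib

/-!
Block G of the n^(2/3-eps) project (helper917): packing lemma.  Sets `A i ⊆ Λ` with pairwise
intersections of at most `K` elements and at least `κ` elements each, `2 K #Λ ≤ κ^2`, have total size
at most `2 #Λ`.
-/

set_option linter.all false

namespace Vale.Agent.P054.Y.GF

open Finset

open scoped Classical in
/-- packing: few large sets with small pairwise intersections -/
theorem packing {α ι : Type*} (Λ : Finset α) (I : Finset ι) (A : ι → Finset α)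
    (hA : ∀ i ∈ I, A i ⊆ Λ) (K κ : ℝ) (hK0 : 0 ≤ K)
    (hK : ∀ i ∈ I, ∀ j ∈ I, i ≠ j → ((A i ∩ A j).card : ℝ) ≤ K)
    (hκ0 : 0 < κ) (hκ : ∀ i ∈ I, κ ≤ ((A i).card : ℝ)) (h : 2 * K * (Λ.card : ℝ) ≤ κ ^ 2) :
    ∑ i ∈ I, ((A i).card : ℝ) ≤ 2 * (Λ.card : ℝ) := by
  set S : ℝ := ∑ i ∈ I, ((A i).card : ℝ) with hS
  set N : ℝ := (Λ.card : ℝ) with hN
  have hN0 : 0 ≤ N := Nat.cast_nonneg _
  have hS0 : 0 ≤ S := Finset.sum_nonneg (fun i _ => Nat.cast_nonneg _)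
  -- the multiplicity function
  set r : α → ℝ := fun p => ∑ i ∈ I, (if p ∈ A i then (1 : ℝ) else 0) with hr
  have h1 : ∑ p ∈ Λ, r p = S := by
    rw [hr, hS, Finset.sum_comm]
    refine Finset.sum_congr rfl (fun i hi => ?_)
    rw [← Finset.sum_filter, Finset.sum_const, nsmul_eq_mul, mul_one]
    congr 2
    ext p
    simp only [Finset.mem_filter]
    exact ⟨fun h => h.2, fun h => ⟨hA i hi h, h⟩⟩
  have h2 : ∑ p ∈ Λ, r p ^ 2 = ∑ i ∈ I, ∑ j ∈ I, ((A i ∩ A j).card : ℝ) := by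
    have e1 : ∀ p ∈ Λ, r p ^ 2 =
        ∑ i ∈ I, ∑ j ∈ I, (if p ∈ A i ∩ A j then (1 : ℝ) else 0) := by
      intro p _
      rw [sq, hr, Finset.sum_mul_sum]
      refine Finset.sum_congr rfl (fun i _ => Finset.sum_congr rfl (fun j _ => ?_))
      by_cases hi : p ∈ A i <;> by_cases hj : p ∈ A j <;> simp [hi, hj]
    rw [Finset.sum_congr rfl e1, Finset.sum_comm]
    refine Finset.sum_congr rfl (fun i hi => ?_)
    rw [Finset.sum_comm]
    refine Finset.sum_congr rfl (fun j hj => ?_)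
    rw [← Finset.sum_filter, Finset.sum_const, nsmul_eq_mul, mul_one]
    congr 2
    ext p
    simp only [Finset.mem_filter]
    exact ⟨fun h => h.2, fun h => ⟨hA i hi (Finset.mem_inter.1 h).1, h⟩⟩
  have h3 : ∑ i ∈ I, ∑ j ∈ I, ((A i ∩ A j).card : ℝ) ≤ S + K * (I.card : ℝ) ^ 2 := by
    have e1 : ∀ i ∈ I, ∑ j ∈ I, ((A i ∩ A j).card : ℝ) ≤ ((A i).card : ℝ) + K * (I.card : ℝ) := by
      intro i hi
      rw [← Finset.add_sum_erase I _ hi, Finset.inter_self]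
      have e2 : ∑ j ∈ I.erase i, ((A i ∩ A j).card : ℝ) ≤ ∑ j ∈ I.erase i, K :=
        Finset.sum_le_sum (fun j hj => hK i hi j (Finset.mem_of_mem_erase hj)
          (Finset.ne_of_mem_erase hj).symm)
      have e3 : ∑ j ∈ I.erase i, K ≤ K * (I.card : ℝ) := by
        rw [Finset.sum_const, nsmul_eq_mul, mul_comm]
        exact mul_le_mul_of_nonneg_left (by exact_mod_cast Finset.card_erase_le) hK0
      linarith
    calc ∑ i ∈ I, ∑ j ∈ I, ((A i ∩ A j).card : ℝ)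
        ≤ ∑ i ∈ I, (((A i).card : ℝ) + K * (I.card : ℝ)) := Finset.sum_le_sum e1
      _ = S + K * (I.card : ℝ) ^ 2 := by
          rw [Finset.sum_add_distrib, Finset.sum_const, nsmul_eq_mul]
          ring
  have h4 : κ * (I.card : ℝ) ≤ S := by
    have e1 : ∑ i ∈ I, κ ≤ S := Finset.sum_le_sum hκ
    rw [Finset.sum_const, nsmul_eq_mul] at e1
    linarith
  have h5 : S ^ 2 ≤ N * (S + K * (I.card : ℝ) ^ 2) := by
    have e1 : (∑ p ∈ Λ, r p) ^ 2 ≤ N * ∑ p ∈ Λ, r p ^ 2 := by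
      exact sq_sum_le_card_mul_sum_sq
    rw [h1, h2] at e1
    exact e1.trans (mul_le_mul_of_nonneg_left h3 hN0)
  have hI0 : (0 : ℝ) ≤ (I.card : ℝ) := Nat.cast_nonneg _
  have h6 : 2 * (N * K * (I.card : ℝ) ^ 2) ≤ S ^ 2 := by
    have e1 : κ ^ 2 * (I.card : ℝ) ^ 2 ≤ S ^ 2 := by
      rw [← mul_pow]
      exact pow_le_pow_left₀ (by positivity) h4 2
    have e2 : 2 * K * N * (I.card : ℝ) ^ 2 ≤ κ ^ 2 * (I.card : ℝ) ^ 2 :=
      mul_le_mul_of_nonneg_right h (by positivity)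
    nlinarith
  have h7 : S ^ 2 ≤ 2 * (N * S) := by nlinarith
  rcases hS0.eq_or_lt with h8 | h8
  · rw [← h8]
    positivity
  · have h9 : S * S ≤ (2 * N) * S := by nlinarith
    exact le_of_mul_le_mul_right h9 h8

end Vale.Agent.P054.Y.GF
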