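import Vale.Agent.P054.Y.GF.MTDefs
import Vale.Agent.P054.Y.G.Gram

/-! Leaf GF-Surf.  Pairs inside one irreducible surface.
`plane_case` (`deg φ ≤ 1`, so `φ = C b + ∑ C (a i) X i`, `a ≠ 0`): all lines of the surface satisfy
  `x·x' = y·y'` (`dot_of_coplanar`; for one and the same line it is `IsPair`), hence also all `p ∈ Λ` with `ln p` in
  the surface; by `Gram.exists_orth` there is an orthogonal `Q` with `Q x = y` for all of them, so if
  `h ≤ k = #inSurf` every pair would be a `RichPair` and `T` is empty; otherwise `#T ≤ k^2 ≤ h k`. -/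
set_option linter.all false

namespace Vale.Agent.P054.Y.GF

open Finset Matrix MvPolynomial
open Vale.Agent.P041.SE

/-- a polynomial of degree at most one is affine -/
theorem pc518_aff {φ : MvPolynomial (Fin 3) ℝ} (hD : φ.totalDegree ≤ 1) :
    φ = C (coeff 0 φ) + ∑ i, C (coeff (Finsupp.single i 1) φ) * X i := by
  ext m
  rw [coeff_add, coeff_sum]
  simp only [coeff_C, coeff_C_mul, coeff_X']
  by_cases h0 : m = 0
  · subst h0
    rw [if_pos rfl, Finset.sum_eq_zero, add_zero]
    intro i _
    rw [if_neg, mul_zero]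
    intro h
    have := DFunLike.congr_fun h i
    simp at this
  · rw [if_neg (fun h => h0 h.symm), zero_add]
    by_cases h1 : ∃ j, Finsupp.single j 1 = m
    · obtain ⟨j, rfl⟩ := h1
      rw [Finset.sum_eq_single j]
      · rw [if_pos rfl, mul_one]
      · intro i _ hij
        rw [if_neg, mul_zero]
        intro h
        have := DFunLike.congr_fun h i
        rw [Finsupp.single_eq_same, Finsupp.single_eq_of_ne hij] at this
        exact one_ne_zero this
      · intro h
        exact absurd (Finset.mem_univ _) h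
    · rw [Finset.sum_eq_zero]
      · apply coeff_eq_zero_of_totalDegree_lt
        refine lt_of_le_of_lt hD ?_
        by_contra hlt
        have h2 : ∑ i ∈ m.support, m i = m 0 + m 1 + m 2 := by
          rw [← Fin.sum_univ_three (fun i => m i)]
          refine Finset.sum_subset (Finset.subset_univ _) fun i _ hi => ?_
          simpa using hi
        rw [h2] at hlt
        have h3 : m 0 + m 1 + m 2 ≤ 1 := by omega
        by_cases e0 : m 0 = 0
        · by_cases e1 : m 1 = 0
          · by_cases e2 : m 2 = 0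
            · apply h0
              ext i
              fin_cases i <;> simp [e0, e1, e2]
            · apply h1
              refine ⟨2, ?_⟩
              have e3 : m 2 = 1 := by omega
              ext i
              fin_cases i <;> simp [e0, e1, e3, Finsupp.single_apply]
          · apply h1
            refine ⟨1, ?_⟩
            have e3 : m 1 = 1 := by omega
            have e4 : m 2 = 0 := by omega
            ext i
            fin_cases i <;> simp [e0, e4, e3, Finsupp.single_apply]
        · apply h1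
          refine ⟨0, ?_⟩
          have e3 : m 0 = 1 := by omega
          have e4 : m 2 = 0 := by omega
          have e5 : m 1 = 0 := by omega
          ext i
          fin_cases i <;> simp [e5, e4, e3, Finsupp.single_apply]
      · intro i _
        rw [if_neg, mul_zero]
        intro h
        exact h1 ⟨i, h⟩

theorem pc518_plane {φ : MvPolynomial (Fin 3) ℝ} (hφ : Irreducible φ) (hD : φ.totalDegree ≤ 1) :
    ∃ (a : V) (b : ℝ), a ≠ 0 ∧ ∀ w, eval w φ = 0 → a ⬝ᵥ w = b := by
  refine ⟨fun i => coeff (Finsupp.single i 1) φ, -coeff 0 φ, ?_, ?_⟩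
  · intro ha
    have h1 := pc518_aff hD
    have h2 : ∀ i, coeff (Finsupp.single i 1) φ = 0 := fun i => congrFun ha i
    simp only [h2, map_zero, zero_mul, Finset.sum_const_zero, add_zero] at h1
    by_cases hb : coeff 0 φ = 0
    · rw [hb, map_zero] at h1
      exact hφ.ne_zero h1
    · apply hφ.not_isUnit
      rw [h1]
      exact (IsUnit.mk0 _ hb).map C
  · intro w hw
    rw [pc518_aff hD, map_add, map_sum] at hw
    simp only [map_mul, eval_C, eval_X] at hw
    simp only [dotProduct]
    linarith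

open scoped Classical in
theorem plane_case {Λ : Finset (V × V)} {X Y : Finset V} {n B K : ℝ} (hyp : Hyp Λ X Y n B K)
    (hc : InChart Λ) {φ : MvPolynomial (Fin 3) ℝ} (hφ : Irreducible φ) (hD : φ.totalDegree ≤ 1)
    {κ κ' : V → ℝ} {h v : ℝ} (hh : 0 ≤ h) (T : Finset (Ln × Ln)) (hT1 : T ⊆ MT (Λ.image ln) φ v)
    (hT2 : ∀ q ∈ T, ∃ p ∈ Λ, ∃ p' ∈ Λ, ln p = q.1 ∧ ln p' = q.2 ∧ Bad Λ κ κ' h p p') :
    (T.card : ℝ) ≤ 2 * h * (GC.inSurf (Λ.image ln) φ).card := by
  obtain ⟨a, b, ha, hab⟩ := pc518_plane hφ hD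
  have hS : ∀ l ∈ GC.inSurf (Λ.image ln) φ, ∀ t, a ⬝ᵥ gpt l t = b := by
    intro l hl t
    rw [GC.inSurf, Finset.mem_filter] at hl
    exact hab _ (hl.2 t)
  have hT3 : ∀ q ∈ T, q.1 ∈ GC.inSurf (Λ.image ln) φ ∧ q.2 ∈ GC.inSurf (Λ.image ln) φ := by
    intro q hq
    have := hT1 hq
    rw [MT, Finset.mem_filter, Finset.mem_product] at this
    exact this.1
  by_cases hk : h ≤ (GC.inSurf (Λ.image ln) φ).card
  · -- `T` is empty
    have hdot : ∀ p ∈ Λ, ∀ q ∈ Λ, ln p ∈ GC.inSurf (Λ.image ln) φ → ln q ∈ GC.inSurf (Λ.image ln) φ →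
        p.1 ⬝ᵥ q.1 = p.2 ⬝ᵥ q.2 := by
      intro p hp q hq h1 h2
      exact dot_of_coplanar (hyp.pair p hp) (hyp.pair q hq) (hc.1 p hp) (hc.1 q hq) a b ha (hS _ h1) (hS _ h2)
    obtain ⟨Q, hQ, hQ2⟩ := G.Gram.exists_orth
      (ι := {p : V × V // p ∈ Λ ∧ ln p ∈ GC.inSurf (Λ.image ln) φ}) (fun p => p.1.1) (fun p => p.1.2)
      (fun p q => hdot _ p.2.1 _ q.2.1 p.2.2 q.2.2)
    have hT0 : T = ∅ := by
      rw [Finset.eq_empty_iff_forall_notMem]
      intro q hq
      obtain ⟨p, hp, p', hp', e1, e2, hbad⟩ := hT2 q hq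
      obtain ⟨s1, s2⟩ := hT3 q hq
      apply hbad.2.2.2
      refine ⟨Q, hQ, hQ2 ⟨p, hp, e1 ▸ s1⟩, hQ2 ⟨p', hp', e2 ▸ s2⟩, hk.trans ?_⟩
      have hsub : GC.inSurf (Λ.image ln) φ ⊆ (Λ.filter (fun r => Q *ᵥ r.1 = r.2)).image ln := by
        intro l hl
        have hl2 := hl
        rw [GC.inSurf, Finset.mem_filter, Finset.mem_image] at hl2
        obtain ⟨⟨r, hr, rfl⟩, -⟩ := hl2
        rw [Finset.mem_image]
        exact ⟨r, Finset.mem_filter.2 ⟨hr, hQ2 ⟨r, hr, hl⟩⟩, rfl⟩
      have h5 := (Finset.card_le_card hsub).trans Finset.card_image_le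
      refine (Nat.cast_le.2 h5).trans (le_of_eq ?_)
      norm_cast
    rw [hT0, Finset.card_empty, Nat.cast_zero]
    positivity
  · push Not at hk
    have h1 : T ⊆ GC.inSurf (Λ.image ln) φ ×ˢ GC.inSurf (Λ.image ln) φ := by
      intro q hq
      rw [Finset.mem_product]
      exact hT3 q hq
    have h2 := Finset.card_le_card h1
    rw [Finset.card_product] at h2
    have h3 : (T.card : ℝ) ≤ (GC.inSurf (Λ.image ln) φ).card * (GC.inSurf (Λ.image ln) φ).card := by
      exact_mod_cast h2
    have h4 : (0 : ℝ) ≤ (GC.inSurf (Λ.image ln) φ).card := Nat.cast_nonneg _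
    nlinarith

end Vale.Agent.P054.Y.GF
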