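import Vale.Agent.P054.Y.GF.MTDefs
import Vale.Agent.P054.Y.GF.VB

/-! Leaf GF-BT (bad triples).  `S = Λ.image ln`, `φ` irreducible, `2 ≤ deg φ ≤ D`.
`plane_fst`: choose `p l ∈ Λ` for `l ∈ F`.  The `x = (p l).1 ∈ X` satisfy `u ⬝ᵥ x = 0`: at most `B` values
  (`planeX`).  With `z` from `vb_fst`: for `cr z x ≠ 0` at most `D (D+1)` lines of `F` have first
  component `x`; the `x` with `cr z x = 0` are at most `K` (`lineX`), and for each of them
  `y = (p l).2 ∈ Y` satisfies `p'.2 ⬝ᵥ y = x ⬝ᵥ p'.1` (at most `B` values, `planeY`, `p'.2 ≠ 0`), `l = ln (x,y)`. -/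

set_option linter.all false

namespace Vale.Agent.P054.Y.GF

open Finset Matrix MvPolynomial
open Vale.Agent.P041.SE

theorem cr_self_planeFst (x : V) : cr x x = 0 := by
  funext i
  fin_cases i
  · show x 1 * x 2 - x 2 * x 1 = 0
    ring
  · show x 2 * x 0 - x 0 * x 2 = 0
    ring
  · show x 0 * x 1 - x 1 * x 0 = 0
    ring

theorem plane_fst {Λ : Finset (V × V)} {X Y : Finset V} {n B K : ℝ} (hyp : Hyp Λ X Y n B K)
    (hc : InChart Λ) (hK : 0 ≤ K) (hB : 0 ≤ B) {φ : MvPolynomial (Fin 3) ℝ} (hφ : Irreducible φ) {D : ℕ}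
    (hD : φ.totalDegree ≤ D) (p' : V × V) (hp' : p'.2 ≠ 0) (u : V) (hu : u ≠ 0) (F : Finset Ln)
    (hF : ∀ l ∈ F, On φ l ∧ ∃ p ∈ Λ, ln p = l ∧ u ⬝ᵥ p.1 = 0 ∧ p.1 ⬝ᵥ p'.1 = p.2 ⬝ᵥ p'.2) :
    (F.card : ℝ) ≤ (D * (D + 1) + K) * B := by
  classical
  obtain ⟨z, hz, hvb⟩ := vb_fst φ hφ D hD
  have hex : ∀ l, l ∈ F → ∃ p : V × V, p ∈ Λ ∧ ln p = l ∧ u ⬝ᵥ p.1 = 0 ∧
      p.1 ⬝ᵥ p'.1 = p.2 ⬝ᵥ p'.2 := by
    intro l hl
    obtain ⟨p, hp, h⟩ := (hF l hl).2
    exact ⟨p, hp, h⟩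
  choose! P hPm hPl hPu hPe using hex
  set X0 : Finset V := F.image (fun l => (P l).1) with hX0
  have hX0X : X0 ⊆ X := by
    intro x hx
    obtain ⟨l, hl, rfl⟩ := Finset.mem_image.1 hx
    exact hyp.memX _ (hPm l hl)
  have hX0u : ∀ x ∈ X0, u ⬝ᵥ x = 0 := by
    intro x hx
    obtain ⟨l, hl, rfl⟩ := Finset.mem_image.1 hx
    exact hPu l hl
  have hX0B : (X0.card : ℝ) ≤ B := hyp.planeX u 0 hu X0 hX0X hX0u
  set X1 : Finset V := X0.filter (fun x => cr z x = 0) with hX1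
  have hX1K : (X1.card : ℝ) ≤ K :=
    hyp.lineX z hz X1 ((Finset.filter_subset _ _).trans hX0X) (fun x hx => (Finset.mem_filter.1 hx).2)
  have hsum : F.card = ∑ x ∈ X0, (F.filter (fun l => (P l).1 = x)).card :=
    Finset.card_eq_sum_card_image (fun l => (P l).1) F
  have hfib : ∀ x ∈ X0, ((F.filter (fun l => (P l).1 = x)).card : ℝ) ≤
      D * (D + 1) + (if cr z x = 0 then B else 0) := by
    intro x hx
    by_cases hzx : cr z x = 0
    · rw [if_pos hzx]
      have h1 : ((F.filter (fun l => (P l).1 = x)).card : ℝ) ≤ B := by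
        have hinj : Set.InjOn (fun l => (P l).2) (↑(F.filter (fun l => (P l).1 = x)) : Set Ln) := by
          intro l hl l' hl' h
          have hl1 := Finset.mem_filter.1 (Finset.mem_coe.1 hl)
          have hl2 := Finset.mem_filter.1 (Finset.mem_coe.1 hl')
          have e : P l = P l' := Prod.ext (hl1.2.trans hl2.2.symm) h
          rw [← hPl l hl1.1, ← hPl l' hl2.1, e]
        rw [← Finset.card_image_of_injOn hinj]
        refine hyp.planeY p'.2 (x ⬝ᵥ p'.1) hp' _ ?_ ?_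
        · intro y hy
          obtain ⟨l, hl, rfl⟩ := Finset.mem_image.1 hy
          exact hyp.memY _ (hPm l (Finset.mem_filter.1 hl).1)
        · intro y hy
          obtain ⟨l, hl, rfl⟩ := Finset.mem_image.1 hy
          have hl' := Finset.mem_filter.1 hl
          have h2 := hPe l hl'.1
          rw [hl'.2] at h2
          rw [dotProduct_comm]
          exact h2.symm
      have h2 : (0 : ℝ) ≤ D * (D + 1) := by positivity
      linarith
    · rw [if_neg hzx, add_zero]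
      have h := hvb x hzx (F.filter (fun l => (P l).1 = x)) (by
        intro l hl
        have hl' := Finset.mem_filter.1 hl
        refine ⟨(hF l hl'.1).1, P l, hyp.pair _ (hPm l hl'.1), hc.1 _ (hPm l hl'.1), ?_, hPl l hl'.1⟩
        rw [hl'.2]
        exact cr_self_planeFst x)
      exact_mod_cast h
  have hcast : (F.card : ℝ) = ∑ x ∈ X0, ((F.filter (fun l => (P l).1 = x)).card : ℝ) := by
    rw [hsum]
    push_cast
    rfl
  rw [hcast]
  refine (Finset.sum_le_sum hfib).trans ?_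
  rw [Finset.sum_add_distrib, Finset.sum_const, nsmul_eq_mul, ← Finset.sum_filter, Finset.sum_const,
    nsmul_eq_mul]
  have h2 : (0 : ℝ) ≤ D * (D + 1) := by positivity
  have h3 := mul_le_mul_of_nonneg_right hX0B h2
  have h4 := mul_le_mul_of_nonneg_right hX1K hB
  have h5 : ((X0.filter (fun x => cr z x = 0)).card : ℝ) * B ≤ K * B := h4
  nlinarith [h3, h5]

end Vale.Agent.P054.Y.GF
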