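import Vale.Agent.P054.Y.GF.MTDefs
import Vale.Agent.P054.Y.GF.CL

/-! Leaf GF-Surf.  Pairs inside one irreducible surface.
`quad_case`: every line of the surface is on `qA A` (`GC.on_of_dvd`), so by `cl` its representatives
  satisfy `A x = y` (class 1) or `Aᵀ y = x` (class 2).  Two meeting different lines are never in the same
  class (`same_ruling` for `A`, resp. for `Aᵀ`, `det (1 - A Aᵀ) = det (1 - Aᵀ A)`).  If class 1 or class 2
  has less than `h` lines: `#T ≤ 2 h k`.  Otherwise use `Lab` with `(A, B)` resp. `(B, A)`: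
  `Aᵀ B = 1`, `Bᵀ A = 1`, `B Aᵀ = 1`; class 1: `|A x| = |x|`, `Bᵀ y = x` so `|Bᵀ y| = |y|`; class 2:
  `|Aᵀ y| = |y|`, `B x = y` so `|B x| = |x|`; different lines of class 1 have different `x` and different `y` (and the
  same for class 2), so the four cones have at least `h` points; so `T` is empty. -/

set_option linter.all false

namespace Vale.Agent.P054.Y.GF

open Finset Matrix MvPolynomial
open Vale.Agent.P041.SE

theorem qc684_dot (u v : V) (A : M3) (h : A *ᵥ u = v) (h2 : u ⬝ᵥ u = v ⬝ᵥ v) : Iso0 A u := by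
  unfold Iso0
  rw [h, h2]

theorem qc684_par {y y' : V} (hy : y ≠ 0) (h : cr y y' = 0) : ∃ μ : ℝ, y' = μ • y := by
  have h0 : y 1 * y' 2 - y 2 * y' 1 = 0 := by simpa [cr] using congrFun h 0
  have h1 : y 2 * y' 0 - y 0 * y' 2 = 0 := by simpa [cr] using congrFun h 1
  have h2 : y 0 * y' 1 - y 1 * y' 0 = 0 := by simpa [cr] using congrFun h 2
  by_cases e0 : y 0 = 0
  · by_cases e1 : y 1 = 0
    · have e2 : y 2 ≠ 0 := by
        intro e2
        apply hy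
        funext i
        fin_cases i
        · exact e0
        · exact e1
        · exact e2
      refine ⟨y' 2 / y 2, ?_⟩
      funext i
      fin_cases i
      · simp only [Fin.zero_eta, Pi.smul_apply, smul_eq_mul, e0, mul_zero]
        rw [e0] at h1
        have : y 2 * y' 0 = 0 := by linarith
        exact (mul_eq_zero.mp this).resolve_left e2
      · simp only [Fin.mk_one, Pi.smul_apply, smul_eq_mul, e1, mul_zero]
        rw [e1] at h0
        have : y 2 * y' 1 = 0 := by linarith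
        exact (mul_eq_zero.mp this).resolve_left e2
      · simp only [Fin.reduceFinMk, Pi.smul_apply, smul_eq_mul]
        field_simp
    · refine ⟨y' 1 / y 1, ?_⟩
      funext i
      fin_cases i
      · simp only [Fin.zero_eta, Pi.smul_apply, smul_eq_mul, e0, mul_zero]
        rw [e0] at h2
        have : y 1 * y' 0 = 0 := by linarith
        exact (mul_eq_zero.mp this).resolve_left e1
      · simp only [Fin.mk_one, Pi.smul_apply, smul_eq_mul]
        field_simp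
      · simp only [Fin.reduceFinMk, Pi.smul_apply, smul_eq_mul]
        field_simp
        linarith
  · refine ⟨y' 0 / y 0, ?_⟩
    funext i
    fin_cases i
    · simp only [Fin.zero_eta, Pi.smul_apply, smul_eq_mul]
      field_simp
    · simp only [Fin.mk_one, Pi.smul_apply, smul_eq_mul]
      field_simp
      linarith
    · simp only [Fin.reduceFinMk, Pi.smul_apply, smul_eq_mul]
      field_simp
      linarith

theorem qc684_cr_smul (x : V) (μ : ℝ) : cr x (μ • x) = 0 := by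
  funext i
  fin_cases i <;> simp [cr] <;> ring

open scoped Classical in
theorem quad_case {Λ : Finset (V × V)} {X Y : Finset V} {n B K : ℝ} (hyp : Hyp Λ X Y n B K)
    (hc : InChart Λ) {φ : MvPolynomial (Fin 3) ℝ} (A B' : M3) (hAB : Aᵀ * B' = 1)
    (hA : (1 - Aᵀ * A).det ≠ 0) (hd : φ ∣ qA A)
    {κ κ' : V → ℝ} {h v : ℝ} (hh : 0 ≤ h) (hl : Lab X Y κ κ' h) (T : Finset (Ln × Ln))
    (hT1 : T ⊆ MT (Λ.image ln) φ v)
    (hT2 : ∀ q ∈ T, ∃ p ∈ Λ, ∃ p' ∈ Λ, ln p = q.1 ∧ ln p' = q.2 ∧ Bad Λ κ κ' h p p') :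
    (T.card : ℝ) ≤ 2 * h * (GC.inSurf (Λ.image ln) φ).card := by
  set I := GC.inSurf (Λ.image ln) φ with hI
  have hBA : B' * Aᵀ = 1 := mul_eq_one_comm.mp hAB
  have hBA' : B'ᵀ * A = 1 := by
    have := congrArg Matrix.transpose hAB
    rwa [Matrix.transpose_mul, Matrix.transpose_transpose, Matrix.transpose_one] at this
  have hAB' : A * B'ᵀ = 1 := mul_eq_one_comm.mp hBA'
  have hA' : (1 - A * Aᵀ).det ≠ 0 := by
    rwa [← Matrix.det_one_sub_mul_comm] at hA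
  have hA'' : (1 - Aᵀᵀ * Aᵀ).det ≠ 0 := by
    rwa [Matrix.transpose_transpose]
  have hB : (1 - B'ᵀ * B').det ≠ 0 := by
    intro h0
    have h1 : A * (1 - B'ᵀ * B') * Aᵀ = -(1 - A * Aᵀ) := by
      have h2 : A * (B'ᵀ * B') * Aᵀ = 1 := by
        rw [← Matrix.mul_assoc, hAB', Matrix.one_mul, hBA]
      rw [Matrix.mul_sub, Matrix.sub_mul, h2, Matrix.mul_one]
      abel
    have h2 := congrArg Matrix.det h1
    rw [Matrix.det_mul, Matrix.det_mul, h0, mul_zero, zero_mul, Matrix.det_neg] at h2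
    simp only [Fintype.card_fin] at h2
    apply hA'
    linarith
  have hrep : ∀ l ∈ I, rep Λ l ∈ Λ ∧ ln (rep Λ l) = l := by
    intro l hl
    exact rep_mem (Finset.mem_filter.mp hl).1
  have hcl : ∀ l ∈ I, A *ᵥ (rep Λ l).1 = (rep Λ l).2 ∨ Aᵀ *ᵥ (rep Λ l).2 = (rep Λ l).1 := by
    intro l hl
    obtain ⟨h1, h2⟩ := hrep l hl
    refine cl A hA (hyp.pair _ h1) (hc.1 _ h1) ?_
    rw [h2]
    exact GC.on_of_dvd hd (Finset.mem_filter.mp hl).2
  set I1 := I.filter (fun l => A *ᵥ (rep Λ l).1 = (rep Λ l).2) with hI1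
  set I2 := I.filter (fun l => Aᵀ *ᵥ (rep Λ l).2 = (rep Λ l).1) with hI2
  -- representatives and other pairs of the same line
  have tr1 : ∀ l ∈ I1, ∀ p ∈ Λ, ln p = l → A *ᵥ p.1 = p.2 := by
    intro l hl p hp hpl
    obtain ⟨hlI, hl1⟩ := Finset.mem_filter.mp hl
    obtain ⟨h1, h2⟩ := hrep l hlI
    obtain ⟨μ, -, e1, e2⟩ := ln_eq (hyp.pair _ h1) (hyp.pair _ hp) (hc.1 _ h1) (hc.1 _ hp)
      (h2.trans hpl.symm)
    rw [e1, e2, Matrix.mulVec_smul, hl1]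
  have tr2 : ∀ l ∈ I2, ∀ p ∈ Λ, ln p = l → Aᵀ *ᵥ p.2 = p.1 := by
    intro l hl p hp hpl
    obtain ⟨hlI, hl1⟩ := Finset.mem_filter.mp hl
    obtain ⟨h1, h2⟩ := hrep l hlI
    obtain ⟨μ, -, e1, e2⟩ := ln_eq (hyp.pair _ h1) (hyp.pair _ hp) (hc.1 _ h1) (hc.1 _ hp)
      (h2.trans hpl.symm)
    rw [e1, e2, Matrix.mulVec_smul, hl1]
  have hTI : ∀ q ∈ T, q.1 ∈ I ∧ q.2 ∈ I ∧ q.1 ≠ q.2 ∧ ∃ t, gpt q.1 t = gpt q.2 t := by
    intro q hq
    obtain ⟨h1, h2, t, h3, -⟩ := Finset.mem_filter.mp (hT1 hq)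
    obtain ⟨h4, h5⟩ := Finset.mem_product.mp h1
    exact ⟨h4, h5, h2, t, h3⟩
  have hdot : ∀ q ∈ T, (rep Λ q.1).1 ⬝ᵥ (rep Λ q.2).1 = (rep Λ q.1).2 ⬝ᵥ (rep Λ q.2).2 := by
    intro q hq
    obtain ⟨h1, h2, h3, t, h4⟩ := hTI q hq
    obtain ⟨a1, a2⟩ := hrep _ h1
    obtain ⟨b1, b2⟩ := hrep _ h2
    refine dot_of_meet (hyp.pair _ a1) (hyp.pair _ b1) (hc.1 _ a1) (hc.1 _ b1) (t := t) (t' := t) ?_
    rw [a2, b2, h4]
  have hpar : ∀ q ∈ T, cr (rep Λ q.1).1 (rep Λ q.2).1 = 0 → False := by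
    intro q hq h0
    obtain ⟨h1, h2, h3, t, h4⟩ := hTI q hq
    obtain ⟨a1, a2⟩ := hrep _ h1
    obtain ⟨b1, b2⟩ := hrep _ h2
    have := ln_eq_of_par (hyp.pair _ a1) (hyp.pair _ b1) (hc.1 _ a1) (hc.1 _ b1) (hdot q hq) h0
    rw [a2, b2] at this
    exact h3 this
  have hno1 : ∀ q ∈ T, ¬ (q.1 ∈ I1 ∧ q.2 ∈ I1) := by
    rintro q hq ⟨h1, h2⟩
    obtain ⟨h1I, h1'⟩ := Finset.mem_filter.mp h1
    obtain ⟨h2I, h2'⟩ := Finset.mem_filter.mp h2
    obtain ⟨a1, a2⟩ := hrep _ h1I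
    obtain ⟨b1, b2⟩ := hrep _ h2I
    refine hpar q hq (same_ruling A hA (qc684_dot _ _ A h1' (hyp.pair _ a1).1)
      (qc684_dot _ _ A h2' (hyp.pair _ b1).1) ?_)
    rw [h1', h2', hdot q hq]
  have hno2 : ∀ q ∈ T, ¬ (q.1 ∈ I2 ∧ q.2 ∈ I2) := by
    rintro q hq ⟨h1, h2⟩
    obtain ⟨h1I, h1'⟩ := Finset.mem_filter.mp h1
    obtain ⟨h2I, h2'⟩ := Finset.mem_filter.mp h2
    obtain ⟨a1, a2⟩ := hrep _ h1I
    obtain ⟨b1, b2⟩ := hrep _ h2I
    have h3 := same_ruling Aᵀ hA'' (qc684_dot _ _ Aᵀ h1' (hyp.pair _ a1).1.symm)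
      (qc684_dot _ _ Aᵀ h2' (hyp.pair _ b1).1.symm) (by rw [h1', h2', hdot q hq])
    have hy : (rep Λ q.1).2 ≠ 0 := by
      intro h0
      have h4 := (hyp.pair _ a1).1
      rw [h0, dotProduct_zero] at h4
      exact (hyp.pair _ a1).2 (dotProduct_self_eq_zero.mp h4)
    obtain ⟨μ, hμ⟩ := qc684_par hy h3
    refine hpar q hq ?_
    rw [← h2', hμ, Matrix.mulVec_smul, h1']
    exact qc684_cr_smul _ _
  have hsub : T ⊆ (I1 ×ˢ I2) ∪ (I2 ×ˢ I1) := by
    intro q hq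
    obtain ⟨h1, h2, -⟩ := hTI q hq
    rw [Finset.mem_union, Finset.mem_product, Finset.mem_product]
    rcases hcl _ h1 with c1 | c1
    · have c1' : q.1 ∈ I1 := Finset.mem_filter.mpr ⟨h1, c1⟩
      rcases hcl _ h2 with c2 | c2
      · exact absurd ⟨c1', Finset.mem_filter.mpr ⟨h2, c2⟩⟩ (hno1 q hq)
      · exact Or.inl ⟨c1', Finset.mem_filter.mpr ⟨h2, c2⟩⟩
    · have c1' : q.1 ∈ I2 := Finset.mem_filter.mpr ⟨h1, c1⟩
      rcases hcl _ h2 with c2 | c2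
      · exact Or.inr ⟨c1', Finset.mem_filter.mpr ⟨h2, c2⟩⟩
      · exact absurd ⟨c1', Finset.mem_filter.mpr ⟨h2, c2⟩⟩ (hno2 q hq)
  have hcard : (T.card : ℝ) ≤ 2 * (I1.card * I2.card) := by
    have h1 : T.card ≤ I1.card * I2.card + I2.card * I1.card := by
      refine (Finset.card_le_card hsub).trans ((Finset.card_union_le _ _).trans ?_)
      rw [Finset.card_product, Finset.card_product]
    have h2 : (T.card : ℝ) ≤ ((I1.card * I2.card + I2.card * I1.card : ℕ) : ℝ) := by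
      exact_mod_cast h1
    push_cast at h2
    linarith
  have hI1c : (I1.card : ℝ) ≤ I.card := by
    exact_mod_cast Finset.card_le_card (Finset.filter_subset _ _)
  have hI2c : (I2.card : ℝ) ≤ I.card := by
    exact_mod_cast Finset.card_le_card (Finset.filter_subset _ _)
  have n1 : (0 : ℝ) ≤ I1.card := Nat.cast_nonneg _
  have n2 : (0 : ℝ) ≤ I2.card := Nat.cast_nonneg _
  by_cases g1 : (I1.card : ℝ) < h
  · have : (I1.card : ℝ) * I2.card ≤ h * I.card := mul_le_mul g1.le hI2c n2 hh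
    linarith
  by_cases g2 : (I2.card : ℝ) < h
  · have : (I1.card : ℝ) * I2.card ≤ I.card * h := mul_le_mul hI1c g2.le n2 (n1.trans hI1c)
    linarith
  push Not at g1 g2
  -- the four rich cones
  have inj1 : Set.InjOn (fun l => (rep Λ l).1) (I1 : Set Ln) := by
    intro l hl l' hl' hll
    obtain ⟨h1I, h1'⟩ := Finset.mem_filter.mp (Finset.mem_coe.mp hl)
    obtain ⟨h2I, h2'⟩ := Finset.mem_filter.mp (Finset.mem_coe.mp hl')
    have e1 : (rep Λ l).1 = (rep Λ l').1 := hll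
    have e2 : (rep Λ l).2 = (rep Λ l').2 := by rw [← h1', ← h2', e1]
    rw [← (hrep _ h1I).2, ← (hrep _ h2I).2, Prod.ext e1 e2]
  have inj1' : Set.InjOn (fun l => (rep Λ l).2) (I1 : Set Ln) := by
    intro l hl l' hl' hll
    obtain ⟨h1I, h1'⟩ := Finset.mem_filter.mp (Finset.mem_coe.mp hl)
    obtain ⟨h2I, h2'⟩ := Finset.mem_filter.mp (Finset.mem_coe.mp hl')
    have e2 : (rep Λ l).2 = (rep Λ l').2 := hll
    have f1 : ∀ u w : V, A *ᵥ u = w → u = B'ᵀ *ᵥ w := by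
      intro u w huw
      rw [← huw, Matrix.mulVec_mulVec, hBA', Matrix.one_mulVec]
    have e1 : (rep Λ l).1 = (rep Λ l').1 := by rw [f1 _ _ h1', f1 _ _ h2', e2]
    rw [← (hrep _ h1I).2, ← (hrep _ h2I).2, Prod.ext e1 e2]
  have inj2 : Set.InjOn (fun l => (rep Λ l).2) (I2 : Set Ln) := by
    intro l hl l' hl' hll
    obtain ⟨h1I, h1'⟩ := Finset.mem_filter.mp (Finset.mem_coe.mp hl)
    obtain ⟨h2I, h2'⟩ := Finset.mem_filter.mp (Finset.mem_coe.mp hl')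
    have e2 : (rep Λ l).2 = (rep Λ l').2 := hll
    have e1 : (rep Λ l).1 = (rep Λ l').1 := by rw [← h1', ← h2', e2]
    rw [← (hrep _ h1I).2, ← (hrep _ h2I).2, Prod.ext e1 e2]
  have inj2' : Set.InjOn (fun l => (rep Λ l).1) (I2 : Set Ln) := by
    intro l hl l' hl' hll
    obtain ⟨h1I, h1'⟩ := Finset.mem_filter.mp (Finset.mem_coe.mp hl)
    obtain ⟨h2I, h2'⟩ := Finset.mem_filter.mp (Finset.mem_coe.mp hl')
    have e1 : (rep Λ l).1 = (rep Λ l').1 := hll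
    have f1 : ∀ u w : V, Aᵀ *ᵥ w = u → w = B' *ᵥ u := by
      intro u w huw
      rw [← huw, Matrix.mulVec_mulVec, hBA, Matrix.one_mulVec]
    have e2 : (rep Λ l).2 = (rep Λ l').2 := by rw [f1 _ _ h1', f1 _ _ h2', e1]
    rw [← (hrep _ h1I).2, ← (hrep _ h2I).2, Prod.ext e1 e2]
  -- isometry facts for pairs
  have iA : ∀ p ∈ Λ, A *ᵥ p.1 = p.2 → Iso0 A p.1 := fun p hp h1 =>
    qc684_dot _ _ A h1 (hyp.pair _ hp).1
  have iBt : ∀ p ∈ Λ, A *ᵥ p.1 = p.2 → Iso0 B'ᵀ p.2 := fun p hp h1 =>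
    qc684_dot _ p.1 B'ᵀ (by rw [← h1, Matrix.mulVec_mulVec, hBA', Matrix.one_mulVec])
      (hyp.pair _ hp).1.symm
  have iAt : ∀ p ∈ Λ, Aᵀ *ᵥ p.2 = p.1 → Iso0 Aᵀ p.2 := fun p hp h1 =>
    qc684_dot _ _ Aᵀ h1 (hyp.pair _ hp).1.symm
  have iB : ∀ p ∈ Λ, Aᵀ *ᵥ p.2 = p.1 → Iso0 B' p.1 := fun p hp h1 =>
    qc684_dot _ p.2 B' (by rw [← h1, Matrix.mulVec_mulVec, hBA, Matrix.one_mulVec])
      (hyp.pair _ hp).1
  have F1 : ∃ F ⊆ X, (∀ x ∈ F, Iso0 A x) ∧ h ≤ (F.card : ℝ) := by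
    refine ⟨I1.image (fun l => (rep Λ l).1), ?_, ?_, ?_⟩
    · intro x hx
      obtain ⟨l, hl, rfl⟩ := Finset.mem_image.mp hx
      exact hyp.memX _ (hrep l (Finset.mem_filter.mp hl).1).1
    · intro x hx
      obtain ⟨l, hl, rfl⟩ := Finset.mem_image.mp hx
      exact iA _ (hrep l (Finset.mem_filter.mp hl).1).1 (Finset.mem_filter.mp hl).2
    · rw [Finset.card_image_of_injOn inj1]
      exact g1
  have F3 : ∃ F ⊆ Y, (∀ x ∈ F, Iso0 B'ᵀ x) ∧ h ≤ (F.card : ℝ) := by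
    refine ⟨I1.image (fun l => (rep Λ l).2), ?_, ?_, ?_⟩
    · intro x hx
      obtain ⟨l, hl, rfl⟩ := Finset.mem_image.mp hx
      exact hyp.memY _ (hrep l (Finset.mem_filter.mp hl).1).1
    · intro x hx
      obtain ⟨l, hl, rfl⟩ := Finset.mem_image.mp hx
      exact iBt _ (hrep l (Finset.mem_filter.mp hl).1).1 (Finset.mem_filter.mp hl).2
    · rw [Finset.card_image_of_injOn inj1']
      exact g1
  have F2 : ∃ F ⊆ X, (∀ x ∈ F, Iso0 B' x) ∧ h ≤ (F.card : ℝ) := by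
    refine ⟨I2.image (fun l => (rep Λ l).1), ?_, ?_, ?_⟩
    · intro x hx
      obtain ⟨l, hl, rfl⟩ := Finset.mem_image.mp hx
      exact hyp.memX _ (hrep l (Finset.mem_filter.mp hl).1).1
    · intro x hx
      obtain ⟨l, hl, rfl⟩ := Finset.mem_image.mp hx
      exact iB _ (hrep l (Finset.mem_filter.mp hl).1).1 (Finset.mem_filter.mp hl).2
    · rw [Finset.card_image_of_injOn inj2']
      exact g2
  have F4 : ∃ F ⊆ Y, (∀ x ∈ F, Iso0 Aᵀ x) ∧ h ≤ (F.card : ℝ) := by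
    refine ⟨I2.image (fun l => (rep Λ l).2), ?_, ?_, ?_⟩
    · intro x hx
      obtain ⟨l, hl, rfl⟩ := Finset.mem_image.mp hx
      exact hyp.memY _ (hrep l (Finset.mem_filter.mp hl).1).1
    · intro x hx
      obtain ⟨l, hl, rfl⟩ := Finset.mem_image.mp hx
      exact iAt _ (hrep l (Finset.mem_filter.mp hl).1).1 (Finset.mem_filter.mp hl).2
    · rw [Finset.card_image_of_injOn inj2]
      exact g2
  have hempty : T = ∅ := by
    rw [Finset.eq_empty_iff_forall_notMem]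
    intro q hq
    obtain ⟨p, hp, p', hp', e1, e2, hm, hk, hk', -⟩ := hT2 q hq
    rcases Finset.mem_union.mp (hsub hq) with hc1 | hc1
    · obtain ⟨c1, c2⟩ := Finset.mem_product.mp hc1
      have d1 := tr1 _ c1 p hp e1
      have d2 := tr2 _ c2 p' hp' e2
      exact hl A B' hAB hA F1 F2 F3 F4 p.1 (hyp.memX _ hp) (iA _ hp d1) p'.1 (hyp.memX _ hp')
        (iB _ hp' d2) p.2 (hyp.memY _ hp) (iBt _ hp d1) p'.2 (hyp.memY _ hp') (iAt _ hp' d2)
        ⟨hk, hk'⟩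
    · obtain ⟨c1, c2⟩ := Finset.mem_product.mp hc1
      have d1 := tr2 _ c1 p hp e1
      have d2 := tr1 _ c2 p' hp' e2
      exact hl B' A hBA' hB F2 F1 F4 F3 p.1 (hyp.memX _ hp) (iB _ hp d1) p'.1 (hyp.memX _ hp')
        (iA _ hp' d2) p.2 (hyp.memY _ hp) (iAt _ hp d1) p'.2 (hyp.memY _ hp') (iBt _ hp' d2)
        ⟨hk, hk'⟩
  rw [hempty, Finset.card_empty, Nat.cast_zero]
  positivity

end Vale.Agent.P054.Y.GF
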