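import Vale.Agent.P054.Y.GF.BadT
import Vale.Agent.P054.Y.GF.KST
import Vale.Agent.P054.Y.GF.CardSurf
import Vale.Agent.P054.Y.GF.PlaneCase
import Vale.Agent.P054.Y.GF.QuadCase
import Vale.Agent.P054.Y.GF.Good

/-! Leaf GF-Surf.  Pairs inside one irreducible surface.
`surf_bound`: degree ≤ 1: plane_case.  Degree ≥ 2: if there are `l1 l2 l3` in the surface, `GoodT` for the
  representatives, with `φ ∣ qA A` for the `A` of `exists_A`: quad_case.  Otherwise `kst` with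
  `good = GoodT` of the representatives, `h1 = bad_triples`, `s = 3 D` (`on_qA`, `qA_degree`, `graph_bezout`;
  `x·x_i = y·y_i` from `dot_of_meet`). -/

set_option linter.all false

namespace Vale.Agent.P054.Y.GF

open Finset Matrix MvPolynomial
open Vale.Agent.P041.SE

open scoped Classical in
/-- the number of common neighbours of a good triple -/
theorem surf_common {Λ : Finset (V × V)} {X Y : Finset V} {n B K : ℝ} (hyp : Hyp Λ X Y n B K)
    (hc : InChart Λ) {φ : MvPolynomial (Fin 3) ℝ} (hφ : Irreducible φ) {D : ℕ}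
    (hD : φ.totalDegree ≤ D) {v : ℝ} {l1 l2 l3 : Ln} (A : M3)
    (g : GoodT (rep Λ l1) (rep Λ l2) (rep Λ l3))
    (e1 : A *ᵥ (rep Λ l1).1 = (rep Λ l1).2) (e2 : A *ᵥ (rep Λ l2).1 = (rep Λ l2).2)
    (e3 : A *ᵥ (rep Λ l3).1 = (rep Λ l3).2) (hnd : ¬ φ ∣ qA A) (F : Finset Ln)
    (hF : ∀ b ∈ F, (l1, b) ∈ MT (Λ.image ln) φ v ∧ (l2, b) ∈ MT (Λ.image ln) φ v ∧
      (l3, b) ∈ MT (Λ.image ln) φ v) : (F.card : ℝ) ≤ 3 * D := by
  have hS : ∀ {l : Ln}, l ∈ GC.inSurf (Λ.image ln) φ → l ∈ Λ.image ln ∧ On φ l := by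
    intro l hl
    rw [GC.inSurf, mem_filter] at hl
    exact hl
  have hm : ∀ {a b : Ln}, (a, b) ∈ MT (Λ.image ln) φ v →
      (a ∈ Λ.image ln ∧ On φ a) ∧ (b ∈ Λ.image ln ∧ On φ b) ∧
      (rep Λ b).1 ⬝ᵥ (rep Λ a).1 = (rep Λ b).2 ⬝ᵥ (rep Λ a).2 := by
    intro a b hab
    rw [MT, mem_filter, mem_product] at hab
    obtain ⟨⟨ha, hb⟩, -, t, ht, -⟩ := hab
    have ha' := hS ha
    have hb' := hS hb
    refine ⟨ha', hb', ?_⟩
    obtain ⟨ra, ra'⟩ := rep_mem ha'.1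
    obtain ⟨rb, rb'⟩ := rep_mem hb'.1
    refine dot_of_meet (hyp.pair _ rb) (hyp.pair _ ra) (hc.1 _ rb) (hc.1 _ ra) (t := t) (t' := t) ?_
    rw [ra', rb']
    exact ht.symm
  have h := graph_bezout hφ hnd F (fun b hb => (hm (hF b hb).1).2.1.2) (by
    intro b hb
    obtain ⟨f1, f2, f3⟩ := hF b hb
    obtain ⟨-, ⟨hb1, -⟩, m1⟩ := hm f1
    obtain ⟨-, -, m2⟩ := hm f2
    obtain ⟨-, -, m3⟩ := hm f3
    obtain ⟨rb, rb'⟩ := rep_mem hb1
    have := on_qA A (hyp.pair _ rb) (hc.1 _ rb) g.1 e1 e2 e3 m1 m2 m3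
    rw [rb'] at this
    exact this)
  have h2 : F.card ≤ 3 * D := by
    refine h.trans ?_
    rw [mul_comm 3 D]
    exact Nat.mul_le_mul hD (qA_degree A)
  exact_mod_cast h2

open scoped Classical in
theorem surf_bound (D : ℕ) : ∃ C : ℝ, 1 ≤ C ∧ ∀ (Λ : Finset (V × V)) (X Y : Finset V)
    (n B K h v : ℝ) (κ κ' : V → ℝ), 1 ≤ K → 0 ≤ B → 0 ≤ v → 1 ≤ n → Hyp Λ X Y n B K → InChart Λ →
    Lab X Y κ κ' h → C * K * (B + v + 1) ≤ h → C * K ^ 2 * n ^ 2 ≤ h ^ 3 →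
    ∀ φ : MvPolynomial (Fin 3) ℝ, Irreducible φ → φ.totalDegree ≤ D →
    ∀ T : Finset (Ln × Ln), T ⊆ MT (Λ.image ln) φ v →
    (∀ q ∈ T, ∃ p ∈ Λ, ∃ p' ∈ Λ, ln p = q.1 ∧ ln p' = q.2 ∧ Bad Λ κ κ' h p p') →
    (T.card : ℝ) ≤ 2 * h * (GC.inSurf (Λ.image ln) φ).card := by
  set M : ℝ := (D : ℝ) * (D + 1) + 1 with hM
  have hD0 : (0 : ℝ) ≤ D := Nat.cast_nonneg D
  have hM1 : 1 ≤ M := by
    rw [hM]
    have : 0 ≤ (D : ℝ) * (D + 1) := by positivity
    linarith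
  have hMD : (D : ℝ) + 1 ≤ M := by
    rw [hM]; nlinarith
  refine ⟨8 * M + 6 * D * M ^ 2, ?_, ?_⟩
  · have : 0 ≤ 6 * D * M ^ 2 := by positivity
    linarith
  intro Λ X Y n B K h v κ κ' hK hB hv hn hyp hc hl hC1 hC2 φ hφ hD T hT hT2
  have hM0 : 0 < M := by linarith
  have hK0 : 0 < K := by linarith
  have hs0 : 0 ≤ 6 * (D : ℝ) * M ^ 2 := by positivity
  have hbv : 1 ≤ B + v + 1 := by linarith
  have hh1 : 8 * M * K * (B + v + 1) ≤ h := by
    refine le_trans ?_ hC1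
    have : 0 ≤ 6 * (D : ℝ) * M ^ 2 * K * (B + v + 1) := by positivity
    nlinarith
  have hh0 : 0 < h := by
    have : 0 < 8 * M * K * (B + v + 1) := by positivity
    linarith
  rcases Nat.lt_or_ge φ.totalDegree 2 with hdeg | hdeg
  · exact plane_case hyp hc hφ (by omega) hh0.le T hT hT2
  by_cases hex : ∃ l1 ∈ GC.inSurf (Λ.image ln) φ, ∃ l2 ∈ GC.inSurf (Λ.image ln) φ,
      ∃ l3 ∈ GC.inSurf (Λ.image ln) φ, GoodT (rep Λ l1) (rep Λ l2) (rep Λ l3) ∧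
      ∃ A B' : M3, Aᵀ * B' = 1 ∧ (1 - Aᵀ * A).det ≠ 0 ∧ φ ∣ qA A
  · obtain ⟨l1, -, l2, -, l3, -, -, A, B', hAB, hA, hd⟩ := hex
    exact quad_case hyp hc A B' hAB hA hd hh0.le hl T hT hT2
  have hmem : ∀ {l : Ln}, l ∈ GC.inSurf (Λ.image ln) φ → l ∈ Λ.image ln := by
    intro l hl
    rw [GC.inSurf, mem_filter] at hl
    exact hl.1
  have hkst := kst (GC.inSurf (Λ.image ln) φ) T (by
      intro q hq
      have := hT hq
      rw [MT, mem_filter] at this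
      exact this.1)
    (fun a b c => GoodT (rep Λ a) (rep Λ b) (rep Λ c)) h (3 * D) hh0 (by
      intro b hb hbN
      refine bad_triples hyp hc hK0.le hB hφ hD hdeg hv b _ ?_ (le_trans ?_ hbN)
      · intro l hl
        simp only [mem_filter] at hl
        exact hT hl.2
      · refine le_trans ?_ hh1
        have h1 : ((D : ℝ) * (D + 1) + K) ≤ M * K := by
          rw [hM]
          nlinarith [mul_nonneg (mul_nonneg hD0 (by linarith : (0 : ℝ) ≤ D + 1))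
            (by linarith : (0 : ℝ) ≤ K - 1)]
        have h2 : ((D : ℝ) * (D + 1) + K) * B ≤ M * K * B := mul_le_mul_of_nonneg_right h1 hB
        have h3 : v + D + 1 ≤ M * K * (v + 1) := by
          have h4 : v + D + 1 ≤ M * (v + 1) := by nlinarith
          have h5 : M * (v + 1) ≤ M * K * (v + 1) := by
            have : 0 ≤ M * (v + 1) := by positivity
            nlinarith
          linarith
        have h6 : 0 ≤ M * K * (v + 1) := by positivity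
        nlinarith)
    (by
      intro a ha b hb c hc' hg
      obtain ⟨ra, ra'⟩ := rep_mem (hmem ha)
      obtain ⟨rb, rb'⟩ := rep_mem (hmem hb)
      obtain ⟨rc, rc'⟩ := rep_mem (hmem hc')
      obtain ⟨A, B', hAB, hA, e1, e2, e3⟩ := exists_A (hyp.pair _ ra) (hyp.pair _ rb)
        (hyp.pair _ rc) hg
      have hnd : ¬ φ ∣ qA A := fun hd => hex ⟨a, ha, b, hb, c, hc', hg, A, B', hAB, hA, hd⟩
      refine surf_common hyp hc hφ hD (v := v) A hg e1 e2 e3 hnd _ ?_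
      intro x hx
      simp only [mem_filter] at hx
      obtain ⟨-, h1, h2, h3⟩ := hx
      exact ⟨hT h1, hT h2, hT h3⟩)
    (by
      have hI := card_inSurf hyp hc hK0.le hφ hD
      refine le_trans ?_ hC2
      have h1 : ((D : ℝ) * (D + 1) + K) ≤ M * K := by
        rw [hM]
        nlinarith [mul_nonneg (mul_nonneg hD0 (by linarith : (0 : ℝ) ≤ D + 1))
          (by linarith : (0 : ℝ) ≤ K - 1)]
      have h2 : ((GC.inSurf (Λ.image ln) φ).card : ℝ) ≤ M * K * n :=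
        hI.trans (mul_le_mul_of_nonneg_right h1 (by linarith))
      have h3 : ((GC.inSurf (Λ.image ln) φ).card : ℝ) ^ 2 ≤ (M * K * n) ^ 2 :=
        pow_le_pow_left₀ (Nat.cast_nonneg _) h2 2
      have h4 : 0 ≤ 8 * M * K ^ 2 * n ^ 2 := by positivity
      calc 2 * ((GC.inSurf (Λ.image ln) φ).card : ℝ) ^ 2 * (3 * D)
          ≤ 2 * (M * K * n) ^ 2 * (3 * D) := by gcongr
        _ = 6 * D * M ^ 2 * K ^ 2 * n ^ 2 := by ring
        _ ≤ (8 * M + 6 * D * M ^ 2) * K ^ 2 * n ^ 2 := by nlinarith)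
  calc (T.card : ℝ) ≤ _ := hkst
    _ = 2 * h * (GC.inSurf (Λ.image ln) φ).card := by ring

end Vale.Agent.P054.Y.GF
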